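import Mathlib

/-!
# ROW 252 (S0492), unit S4F (post BP-252-S4F, sub-architect helper127, under helper269): ONE-SCALE CORES of 04 l.1732-1793 (`a03:breadth`, "Breadth before sparse selections").      CONTRACT file: every `sorry` is a leaf L-252-S4F-*.

Mathlib only, paper-free.  Velocity plane `Fin 2 → ℝ` (`= KbB KbVer.two` by `rfl`), all bounds coordinatewise (`‖v‖ ≤ T` gives `∀ i, |v i| ≤ T` by `norm_le_pi_norm`).
* `K4fLine` = (normal, offset) of an affine line; `l.strip w = {v | |n·v - b| ≤ w}`; `l.dist l'` = sup distance of the parameters modulo the simultaneous sign.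
* (G) `k4f_two_strips`   : two strips of width `w` whose parameters are `r`-separated (`8 w ≤ r`) meet, inside `|v| ≤ T`, in a set of diameter `≤ 16 (1+T) w / r`.
* (C) `k4f_count`        : Cauchy-Schwarz for sums of indicators `(M κ)² ≤ M + δ M²`;   `k4f_heavy_count` : at most `2/κ²` separated heavy strips.
* (S) `k4f_sep_exists`   : maximal separated subfamilies;   `k4f_enlarge` : a strip lies in the enlarged strip of a nearby representative;   `k4f_dist_triangle`.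
* (A) `k4f_bad_le`, `k4f_agree` : outside a set of palette mass `≤ M² δ₂` EVERY representative whose enlarged strip contains the velocity is `(r₁ + r₂)`-close to the prediction ("assign by velocity alone").
* (F) `k4f_frame`        : the narrower frame `[τ̂ | r₂ n̂]`, centre `(p̂ + (t - 1/2) b̂) n̂` : box bound, determinant `r₂`;   `k4f_pos_pred` : the position bin is predicted by the observed base and the velocity prediction.
* (B) `k4f_bins`         : boundedly many bins.      * (L) `k4f_light` : the states whose predicted strip is light in the palette cost `≤ K κ ∑ Ref`.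
Paper parameters: `w = 2 N^{-u}`, `r₁ = N^{-u/2}`, `r₂ = N^{-u/4}`, `κ = 1/K`, cap `π (box of radius ρ) ≤ K ρ^S`.
-/

set_option autoImplicit false

namespace Claimed.Agent.R252

open MeasureTheory
open scoped ENNReal BigOperators

noncomputable section

/-! ## 0. Definitions -/

/-- an affine line of the velocity plane: normal `n` and offset `b` -/
structure K4fLine where
  n : Fin 2 → ℝ
  b : ℝ

namespace K4fLine

/-- unit normal -/
def IsUnit (l : K4fLine) : Prop := l.n 0 ^ 2 + l.n 1 ^ 2 = 1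

/-- `n·v - b` -/
def ev (l : K4fLine) (v : Fin 2 → ℝ) : ℝ := l.n 0 * v 0 + l.n 1 * v 1 - l.b

/-- the strip of half width `w` -/
def strip (l : K4fLine) (w : ℝ) : Set (Fin 2 → ℝ) := {v | |l.ev v| ≤ w}

/-- the same line with the other orientation -/
def neg (l : K4fLine) : K4fLine := ⟨fun i => -l.n i, -l.b⟩

/-- sup distance of the parameters -/
def d0 (l l' : K4fLine) : ℝ := max (max |l.n 0 - l'.n 0| |l.n 1 - l'.n 1|) |l.b - l'.b|

/-- parameter distance modulo the simultaneous sign -/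
def dist (l l' : K4fLine) : ℝ := min (l.d0 l') (l.d0 l'.neg)

end K4fLine

/-- the box of radius `ρ` around `c` -/
def k4fBox (c : Fin 2 → ℝ) (ρ : ℝ) : Set (Fin 2 → ℝ) := {v | ∀ i, |v i - c i| ≤ ρ}

theorem k4f_eqns_cite : True := by
  have := @K4fLine.IsUnit.eq_1; have := @K4fLine.ev.eq_1; have := @K4fLine.strip.eq_1; have := @K4fLine.neg.eq_1
  have := @K4fLine.d0.eq_1; have := @K4fLine.dist.eq_1; have := @k4fBox.eq_1
  trivial

/-! ## 1. (G) Geometry of two strips -/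

theorem k4f_neg_unit {l : K4fLine} (h : l.IsUnit) : l.neg.IsUnit := by
  unfold K4fLine.IsUnit K4fLine.neg at *
  simpa using h

theorem k4f_neg_ev (l : K4fLine) (v : Fin 2 → ℝ) : l.neg.ev v = -l.ev v := by
  unfold K4fLine.ev K4fLine.neg
  ring

theorem k4f_neg_strip (l : K4fLine) (w : ℝ) : l.neg.strip w = l.strip w := by
  ext v
  simp only [K4fLine.strip, Set.mem_ofPred_eq, k4f_neg_ev, abs_neg]

theorem k4f_neg_neg (l : K4fLine) : l.neg.neg = l := by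
  cases l
  simp [K4fLine.neg]

theorem k4f_unit_le {l : K4fLine} (h : l.IsUnit) (i : Fin 2) : |l.n i| ≤ 1 := by
  unfold K4fLine.IsUnit at h
  have h0 : |l.n 0| ≤ 1 := by
    rw [abs_le]
    constructor <;> nlinarith [sq_nonneg (l.n 1), sq_nonneg (l.n 0 - 1), sq_nonneg (l.n 0 + 1)]
  have h1 : |l.n 1| ≤ 1 := by
    rw [abs_le]
    constructor <;> nlinarith [sq_nonneg (l.n 0), sq_nonneg (l.n 1 - 1), sq_nonneg (l.n 1 + 1)]
  match i with
  | 0 => exact h0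
  | 1 => exact h1

theorem k4f_cramer_bd (u δ D w r T P : ℝ) (hw : 0 ≤ w) (hr : 0 < r) (hT : 0 ≤ T) (hD : δ ^ 2 / 2 ≤ D ^ 2) (hP : u * D = P) (hPw : |P| ≤ 4 * w)
    (key1 : 3 * r / 4 ≤ (1 + 2 * T) * δ) : |u| ≤ 16 * (1 + T) * w / r := by
  have h1 : (u * D) ^ 2 ≤ 16 * w ^ 2 := by
    rw [hP, ← sq_abs]
    nlinarith [abs_nonneg P]
  have h2 : (|u| * δ) ^ 2 ≤ 32 * w ^ 2 := by
    have : (|u| * δ) ^ 2 = u ^ 2 * δ ^ 2 := by rw [mul_pow, sq_abs]
    rw [this]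
    nlinarith [sq_nonneg u, mul_le_mul_of_nonneg_left hD (sq_nonneg u)]
  have h3 : |u| * δ ≤ 6 * w := by
    by_contra hcon
    have hcon' : 6 * w < |u| * δ := not_le.1 hcon
    nlinarith [sq_nonneg w]
  rw [le_div_iff₀ hr]
  have h4 : |u| * (3 * r / 4) ≤ |u| * ((1 + 2 * T) * δ) := mul_le_mul_of_nonneg_left key1 (abs_nonneg u)
  have h5 : (|u| * δ) * (1 + 2 * T) ≤ 6 * w * (1 + 2 * T) := mul_le_mul_of_nonneg_right h3 (by linarith)
  nlinarith [mul_nonneg hw hT]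

theorem k4f_det_ge (a b a' b' δ : ℝ) (h1 : a ^ 2 + b ^ 2 = 1) (h2 : a' ^ 2 + b' ^ 2 = 1) (hor : 0 ≤ a * a' + b * b')
    (hδsq : δ ^ 2 ≤ (a - a') ^ 2 + (b - b') ^ 2) : δ ^ 2 / 2 ≤ (a * b' - b * a') ^ 2 := by
  have hlag : (a * b' - b * a') ^ 2 + (a * a' + b * b') ^ 2 = 1 := by
    have : (a * b' - b * a') ^ 2 + (a * a' + b * b') ^ 2 = (a ^ 2 + b ^ 2) * (a' ^ 2 + b' ^ 2) := by ring
    rw [this, h1, h2, one_mul]
  have e : (a - a') ^ 2 + (b - b') ^ 2 = 2 * (1 - (a * a' + b * b')) := by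
    have : (a - a') ^ 2 + (b - b') ^ 2 = (a ^ 2 + b ^ 2) + (a' ^ 2 + b' ^ 2) - 2 * (a * a' + b * b') := by ring
    rw [this, h1, h2]; ring
  have hc1 : a * a' + b * b' ≤ 1 := by linarith [sq_nonneg (a - a'), sq_nonneg (b - b')]
  generalize a * a' + b * b' = c at *
  generalize (a * b' - b * a') ^ 2 = D2 at *
  have := mul_nonneg hor (sub_nonneg.2 hc1)
  nlinarith

theorem k4f_two_strips_aux (a b a' b' β β' T w r x y x' y' : ℝ) (h1 : a ^ 2 + b ^ 2 = 1) (h2 : a' ^ 2 + b' ^ 2 = 1) (hor : 0 ≤ a * a' + b * b')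
    (hT : 0 ≤ T) (hw : 0 ≤ w) (hr : 0 < r) (hwr : 8 * w ≤ r) (hd : r ≤ max (max |a - a'| |b - b'|) |β - β'|)
    (e1 : |a * x + b * y - β| ≤ w) (e2 : |a' * x + b' * y - β'| ≤ w) (e3 : |a * x' + b * y' - β| ≤ w) (e4 : |a' * x' + b' * y' - β'| ≤ w)
    (hx : |x| ≤ T) (hy : |y| ≤ T) : |x - x'| ≤ 16 * (1 + T) * w / r ∧ |y - y'| ≤ 16 * (1 + T) * w / r := by
  obtain ⟨δ, hδ⟩ : ∃ δ, δ = max |a - a'| |b - b'| := ⟨_, rfl⟩
  rw [← hδ] at hd
  have hda : |a - a'| ≤ δ := hδ ▸ le_max_left _ _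
  have hdb : |b - b'| ≤ δ := hδ ▸ le_max_right _ _
  have hδ0 : 0 ≤ δ := (abs_nonneg _).trans hda
  have hδsq : δ ^ 2 ≤ (a - a') ^ 2 + (b - b') ^ 2 := by
    rcases max_choice |a - a'| |b - b'| with h | h
    · rw [hδ, h, sq_abs]; linarith [sq_nonneg (b - b')]
    · rw [hδ, h, sq_abs]; linarith [sq_nonneg (a - a')]
  have hβ : |β - β'| ≤ 2 * w + 2 * T * δ := by
    have e : β - β' = (a' * x + b' * y - β') - (a * x + b * y - β) + ((a - a') * x + (b - b') * y) := by ring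
    have ha : |(a - a') * x| ≤ δ * T := by
      rw [abs_mul]; exact mul_le_mul hda hx (abs_nonneg _) hδ0
    have hb : |(b - b') * y| ≤ δ * T := by
      rw [abs_mul]; exact mul_le_mul hdb hy (abs_nonneg _) hδ0
    rw [e]
    calc _ ≤ |(a' * x + b' * y - β') - (a * x + b * y - β)| + |(a - a') * x + (b - b') * y| := abs_add_le _ _
      _ ≤ (|a' * x + b' * y - β'| + |a * x + b * y - β|) + (|(a - a') * x| + |(b - b') * y|) := add_le_add (abs_sub _ _) (abs_add_le _ _)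
      _ ≤ 2 * w + 2 * T * δ := by linarith
  have key1 : 3 * r / 4 ≤ (1 + 2 * T) * δ := by
    have hTδ : 0 ≤ T * δ := mul_nonneg hT hδ0
    rcases le_max_iff.1 hd with h | h
    · linarith
    · linarith
  have hD := k4f_det_ge a b a' b' δ h1 h2 hor hδsq
  have hb1 : |b| ≤ 1 := (sq_le_one_iff_abs_le_one b).1 (by linarith [sq_nonneg a])
  have ha1 : |a| ≤ 1 := (sq_le_one_iff_abs_le_one a).1 (by linarith [sq_nonneg b])
  have hb1' : |b'| ≤ 1 := (sq_le_one_iff_abs_le_one b').1 (by linarith [sq_nonneg a'])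
  have ha1' : |a'| ≤ 1 := (sq_le_one_iff_abs_le_one a').1 (by linarith [sq_nonneg b'])
  have hp : |a * (x - x') + b * (y - y')| ≤ 2 * w := by
    have e : a * (x - x') + b * (y - y') = (a * x + b * y - β) - (a * x' + b * y' - β) := by ring
    rw [e]; exact (abs_sub _ _).trans (by linarith)
  have hq : |a' * (x - x') + b' * (y - y')| ≤ 2 * w := by
    have e : a' * (x - x') + b' * (y - y') = (a' * x + b' * y - β') - (a' * x' + b' * y' - β') := by ring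
    rw [e]; exact (abs_sub _ _).trans (by linarith)
  have hmul : ∀ s t : ℝ, |s| ≤ 2 * w → |t| ≤ 1 → |s * t| ≤ 2 * w := by
    intro s t hs ht
    rw [abs_mul]
    calc |s| * |t| ≤ (2 * w) * 1 := mul_le_mul hs ht (abs_nonneg _) (by linarith)
      _ = 2 * w := mul_one _
  constructor
  · refine k4f_cramer_bd (x - x') δ (a * b' - b * a') w r T ((a * (x - x') + b * (y - y')) * b' - (a' * (x - x') + b' * (y - y')) * b) hw hr hT hD (by ring) ?_ key1
    exact (abs_sub _ _).trans (by linarith [hmul _ _ hp hb1', hmul _ _ hq hb1])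
  · refine k4f_cramer_bd (y - y') δ (a * b' - b * a') w r T ((a' * (x - x') + b' * (y - y')) * a - (a * (x - x') + b * (y - y')) * a') hw hr hT hD (by ring) ?_ key1
    exact (abs_sub _ _).trans (by linarith [hmul _ _ hp ha1', hmul _ _ hq ha1])

/-- **L-252-S4F-G1** (~70 l.).  Oriented form: `0 ≤ n·n'`, `r ≤ d0`.   PLAN: `δ := max |n₀-n₀'| |n₁-n₁'|`.  (i) at the common point `v`: `|b-b'| ≤ 2w + 2Tδ`, so `(1+2T) δ ≥ r - 2w ≥ 3r/4` (cases of the `max` in `d0`).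
(ii) `det := n₀n₁' - n₁n₀'`, `c := n·n'`: `det² = 1 - c²  ≥ 1 - c = ((n₀-n₀')² + (n₁-n₁')²)/2 ≥ δ²/2` (`0 ≤ c ≤ 1`).   (iii) `u = v - v'`: `|n·u|, |n'·u| ≤ 2w`; Cramer `u₀ det = (n·u) n₁' - (n'·u) n₁`, `u₁ det = n₀ (n'·u) - n₀' (n·u)`,
so `|u_i| |det| ≤ 4w` (`k4f_unit_le`), `u_i² δ² ≤ 32 w²`, `|u_i| δ ≤ 6w`, `|u_i| ≤ 6w (1+2T) 4/(3r) ≤ 16 (1+T) w/r`. -/
theorem k4f_two_strips_or (l l' : K4fLine) (hl : l.IsUnit) (hl' : l'.IsUnit) (hor : 0 ≤ l.n 0 * l'.n 0 + l.n 1 * l'.n 1) (T w r : ℝ) (hT : 0 ≤ T)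
    (hw : 0 ≤ w) (hr : 0 < r) (hwr : 8 * w ≤ r) (hd : r ≤ l.d0 l') (v v' : Fin 2 → ℝ) (hv : v ∈ l.strip w ∩ l'.strip w)
    (hv' : v' ∈ l.strip w ∩ l'.strip w) (hvT : ∀ i, |v i| ≤ T) (i : Fin 2) : |v i - v' i| ≤ 16 * (1 + T) * w / r := by
  obtain ⟨hv1, hv2⟩ := hv
  obtain ⟨hv1', hv2'⟩ := hv'
  have h := k4f_two_strips_aux (l.n 0) (l.n 1) (l'.n 0) (l'.n 1) l.b l'.b T w r (v 0) (v 1) (v' 0) (v' 1) hl hl' hor hT hw hr hwr hd hv1 hv2 hv1' hv2'
    (hvT 0) (hvT 1)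
  match i with
  | 0 => exact h.1
  | 1 => exact h.2

/-- **(G)** two separated strips meet in a small set -/
theorem k4f_two_strips (l l' : K4fLine) (hl : l.IsUnit) (hl' : l'.IsUnit) (T w r : ℝ) (hT : 0 ≤ T) (hw : 0 ≤ w) (hr : 0 < r) (hwr : 8 * w ≤ r)
    (hd : r ≤ l.dist l') (v v' : Fin 2 → ℝ) (hv : v ∈ l.strip w ∩ l'.strip w) (hv' : v' ∈ l.strip w ∩ l'.strip w) (hvT : ∀ i, |v i| ≤ T)
    (i : Fin 2) : |v i - v' i| ≤ 16 * (1 + T) * w / r := by
  have h1 : r ≤ l.d0 l' := hd.trans (min_le_left _ _)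
  have h2 : r ≤ l.d0 l'.neg := hd.trans (min_le_right _ _)
  by_cases hor : 0 ≤ l.n 0 * l'.n 0 + l.n 1 * l'.n 1
  · exact k4f_two_strips_or l l' hl hl' hor T w r hT hw hr hwr h1 v v' hv hv' hvT i
  · refine k4f_two_strips_or l l'.neg hl (k4f_neg_unit hl') ?_ T w r hT hw hr hwr h2 v v' ?_ ?_ hvT i
    · have : l.n 0 * l'.neg.n 0 + l.n 1 * l'.neg.n 1 = -(l.n 0 * l'.n 0 + l.n 1 * l'.n 1) := by
        simp only [K4fLine.neg]; ring
      rw [this]
      linarith [not_le.1 hor]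
    · rwa [k4f_neg_strip]
    · rwa [k4f_neg_strip]

/-! ## 2. (C) The Cauchy-Schwarz count -/

/-- **L-252-S4F-C1** (~90 l.).  `f := ∑ i, (A i).indicator 1` (bounded, measurable, integrable: finite measure).  `∫ f = ∑ π.real (A i) ≥ M κ`;  `∫ f² = ∑_{i,j} π.real (A i ∩ A j) ≤ M + δ M²` (diagonal `≤ π.real univ ≤ 1`;
`Set.inter_indicator_mul` / `Set.indicator_mul_indicator..`);  `0 ≤ ∫ (f - t)²` at `t = ∫ f` gives `(∫ f)² (2 - π.real univ) ≤ ∫ f²`. -/
theorem k4f_count {Ω ι : Type*} [MeasurableSpace Ω] [Fintype ι] (π : Measure Ω) [IsFiniteMeasure π] (hπ : π.real Set.univ ≤ 1) (A : ι → Set Ω)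
    (hA : ∀ i, MeasurableSet (A i)) (κ δ : ℝ) (hκ0 : 0 ≤ κ) (hδ0 : 0 ≤ δ) (hκ : ∀ i, κ ≤ π.real (A i)) (hδ : ∀ i j, i ≠ j → π.real (A i ∩ A j) ≤ δ) :
    ((Fintype.card ι : ℝ) * κ) ^ 2 ≤ (Fintype.card ι : ℝ) + δ * (Fintype.card ι : ℝ) ^ 2 := by
  classical
  obtain ⟨M, hM⟩ : ∃ M : ℝ, M = (Fintype.card ι : ℝ) := ⟨_, rfl⟩
  obtain ⟨S, hS⟩ : ∃ S : ℝ, S = ∑ i, π.real (A i) := ⟨_, rfl⟩
  obtain ⟨Q, hQ⟩ : ∃ Q : ℝ, Q = ∑ i, ∑ j, π.real (A i ∩ A j) := ⟨_, rfl⟩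
  rw [← hM]
  have hM0 : 0 ≤ M := hM ▸ Nat.cast_nonneg _
  have hint : ∀ s : Set Ω, MeasurableSet s → Integrable (fun x => s.indicator (1 : Ω → ℝ) x) π :=
    fun s hs => (integrable_const (1 : ℝ)).indicator hs
  have key : ∀ t : ℝ, 0 ≤ Q - 2 * t * S + t ^ 2 * π.real Set.univ := by
    intro t
    have h1 : ∫ x, ((∑ i, (A i).indicator (1 : Ω → ℝ) x) - t) ^ 2 ∂π = Q - 2 * t * S + t ^ 2 * π.real Set.univ := by
      have e : ∀ x, ((∑ i, (A i).indicator (1 : Ω → ℝ) x) - t) ^ 2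
          = (∑ i, ∑ j, (A i ∩ A j).indicator (1 : Ω → ℝ) x) - 2 * t * (∑ i, (A i).indicator (1 : Ω → ℝ) x) + t ^ 2 := by
        intro x
        have : ∑ i, ∑ j, (A i ∩ A j).indicator (1 : Ω → ℝ) x
            = (∑ i, (A i).indicator (1 : Ω → ℝ) x) * (∑ j, (A j).indicator (1 : Ω → ℝ) x) := by
          rw [Finset.sum_mul_sum]
          refine Finset.sum_congr rfl fun i _ => Finset.sum_congr rfl fun j _ => ?_
          rw [Set.inter_indicator_one]; rfl
        rw [this]; ring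
      simp_rw [e]
      have i1 : Integrable (fun x => ∑ i, ∑ j, (A i ∩ A j).indicator (1 : Ω → ℝ) x) π :=
        integrable_finsetSum _ fun i _ => integrable_finsetSum _ fun j _ => hint _ ((hA i).inter (hA j))
      have i2 : Integrable (fun x => ∑ i, (A i).indicator (1 : Ω → ℝ) x) π :=
        integrable_finsetSum _ fun i _ => hint _ (hA i)
      have i3 : Integrable (fun x => 2 * t * ∑ i, (A i).indicator (1 : Ω → ℝ) x) π := i2.const_mul _
      have i4 : Integrable (fun x => ∑ i, ∑ j, (A i ∩ A j).indicator (1 : Ω → ℝ) x - 2 * t * ∑ i, (A i).indicator (1 : Ω → ℝ) x) π := i1.sub i3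
      rw [integral_add i4 (integrable_const _), integral_sub i1 i3, integral_const_mul,
        integral_finsetSum _ fun i _ => hint _ (hA i),
        integral_finsetSum _ fun i _ => integrable_finsetSum _ fun j _ => hint _ ((hA i).inter (hA j)), integral_const]
      have e1 : ∀ i, ∫ x, (A i).indicator (1 : Ω → ℝ) x ∂π = π.real (A i) := fun i => integral_indicator_one (hA i)
      have e2 : ∀ i, ∫ x, ∑ j, (A i ∩ A j).indicator (1 : Ω → ℝ) x ∂π = ∑ j, π.real (A i ∩ A j) := by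
        intro i
        rw [integral_finsetSum _ fun j _ => hint _ ((hA i).inter (hA j))]
        exact Finset.sum_congr rfl fun j _ => integral_indicator_one ((hA i).inter (hA j))
      simp_rw [e1, e2]
      rw [← hS, ← hQ, smul_eq_mul]
      ring
    rw [← h1]
    exact integral_nonneg fun x => sq_nonneg _
  have hSM : M * κ ≤ S := by
    calc M * κ = ∑ _i : ι, κ := by simp [hM]
      _ ≤ S := hS ▸ Finset.sum_le_sum fun i _ => hκ i
  have hQM : Q ≤ M + δ * M ^ 2 := by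
    have hrow : ∀ i, ∑ j, π.real (A i ∩ A j) ≤ 1 + δ * M := by
      intro i
      rw [← Finset.add_sum_erase _ _ (Finset.mem_univ i)]
      have h1 : π.real (A i ∩ A i) ≤ 1 := (measureReal_mono (Set.subset_univ _)).trans hπ
      have h2 : ∑ j ∈ Finset.univ.erase i, π.real (A i ∩ A j) ≤ ∑ _j ∈ Finset.univ.erase i, δ :=
        Finset.sum_le_sum fun j hj => hδ i j (Finset.ne_of_mem_erase hj).symm
      have h3 : ∑ _j ∈ Finset.univ.erase i, δ ≤ δ * M := by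
        rw [Finset.sum_const, nsmul_eq_mul, mul_comm, hM]
        exact mul_le_mul_of_nonneg_left (by exact_mod_cast Finset.card_le_univ _) hδ0
      linarith
    calc Q ≤ ∑ _i : ι, (1 + δ * M) := hQ ▸ Finset.sum_le_sum fun i _ => hrow i
      _ = M + δ * M ^ 2 := by
        rw [Finset.sum_const, nsmul_eq_mul, Finset.card_univ, ← hM]; ring
  have hk := key S
  have hS0 : 0 ≤ M * κ := mul_nonneg hM0 hκ0
  have h2 : (M * κ) ^ 2 ≤ S ^ 2 := pow_le_pow_left₀ hS0 hSM 2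
  have h3 : 0 ≤ S ^ 2 * (1 - π.real Set.univ) := mul_nonneg (sq_nonneg _) (sub_nonneg.2 hπ)
  nlinarith

/-- the number of heavy, pairwise almost disjoint events -/
theorem k4f_count_le {Ω ι : Type*} [MeasurableSpace Ω] [Fintype ι] (π : Measure Ω) [IsFiniteMeasure π] (hπ : π.real Set.univ ≤ 1) (A : ι → Set Ω)
    (hA : ∀ i, MeasurableSet (A i)) (κ δ : ℝ) (hκ0 : 0 < κ) (hκ : ∀ i, κ ≤ π.real (A i)) (hδ : ∀ i j, i ≠ j → π.real (A i ∩ A j) ≤ δ)
    (h2 : 2 * δ ≤ κ ^ 2) : (Fintype.card ι : ℝ) ≤ 2 / κ ^ 2 := by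
  have h := k4f_count π hπ A hA κ (max δ 0) hκ0.le (le_max_right _ _) hκ (fun i j hij => (hδ i j hij).trans (le_max_left _ _))
  have h2' : 2 * max δ 0 ≤ κ ^ 2 := by
    rcases le_total δ 0 with h0 | h0
    · rw [max_eq_right h0, mul_zero]; exact sq_nonneg κ
    · rwa [max_eq_left h0]
  have hM : (0 : ℝ) ≤ (Fintype.card ι : ℝ) := Nat.cast_nonneg _
  rw [le_div_iff₀ (by positivity)]
  by_contra hcon
  have hcon' : 2 < (Fintype.card ι : ℝ) * κ ^ 2 := not_le.1 hcon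
  have hMpos : 0 < (Fintype.card ι : ℝ) := by
    rcases hM.eq_or_lt with h0 | h0
    · rw [← h0] at hcon'; linarith
    · exact h0
  nlinarith [mul_pos hMpos hMpos]

theorem k4f_strip_meas (l : K4fLine) (w : ℝ) : MeasurableSet (l.strip w) := by
  have hc : Continuous fun v : Fin 2 → ℝ => |l.ev v| := by
    unfold K4fLine.ev
    fun_prop
  exact (isClosed_le hc continuous_const).measurableSet

theorem k4f_box_meas (c : Fin 2 → ℝ) (ρ : ℝ) : MeasurableSet (k4fBox c ρ) := by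
  have : k4fBox c ρ = ⋂ i, {v : Fin 2 → ℝ | |v i - c i| ≤ ρ} := by
    ext v; simp [k4fBox]
  rw [this]
  refine MeasurableSet.iInter fun i => ?_
  have hc : Continuous fun v : Fin 2 → ℝ => |v i - c i| := by fun_prop
  exact (isClosed_le hc continuous_const).measurableSet

/-- **L-252-S4F-C2** (~50 l.).  `k4f_count_le` with `ι = L` (`Fintype.card_coe`), `A l = l.strip w ∩ k4fBox 0 T`.  Pairs: if the intersection is empty, `0 ≤ δ` (from `hcap`, `measureReal_nonneg`); otherwise it contains some `v` and is contained in `k4fBox v ρ`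
(`k4f_two_strips`, `abs_sub_comm`), `measureReal_mono`. -/
theorem k4f_heavy_count (π : Measure (Fin 2 → ℝ)) [IsFiniteMeasure π] (hπ : π.real Set.univ ≤ 1) (L : Finset K4fLine) (hL : ∀ l ∈ L, l.IsUnit)
    (T w r ρ δ κ : ℝ) (hT : 0 ≤ T) (hw : 0 ≤ w) (hr : 0 < r) (hwr : 8 * w ≤ r) (hsep : ∀ l ∈ L, ∀ l' ∈ L, l ≠ l' → r ≤ l.dist l')
    (hρ : 16 * (1 + T) * w / r ≤ ρ) (hcap : ∀ c, π.real (k4fBox c ρ) ≤ δ) (hκ0 : 0 < κ) (hκ : ∀ l ∈ L, κ ≤ π.real (l.strip w ∩ k4fBox 0 T))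
    (h2 : 2 * δ ≤ κ ^ 2) : (L.card : ℝ) ≤ 2 / κ ^ 2 := by
  have hδ0 : 0 ≤ δ := measureReal_nonneg.trans (hcap 0)
  have h := k4f_count_le (ι := L) π hπ (fun l => (l : K4fLine).strip w ∩ k4fBox 0 T)
    (fun l => (k4f_strip_meas _ w).inter (k4f_box_meas 0 T)) κ δ hκ0 (fun l => hκ l l.2) ?_ h2
  · rwa [Fintype.card_coe] at h
  · intro l l' hll
    have hne : (l : K4fLine) ≠ (l' : K4fLine) := fun e => hll (Subtype.ext e)
    rcases Set.eq_empty_or_nonempty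
      (((l : K4fLine).strip w ∩ k4fBox 0 T) ∩ ((l' : K4fLine).strip w ∩ k4fBox 0 T)) with he | ⟨v, hv⟩
    · rw [he, measureReal_empty]; exact hδ0
    · refine (measureReal_mono (μ := π) (s₂ := k4fBox v ρ) ?_).trans (hcap v)
      intro v' hv' i
      have hvT : ∀ i, |v i| ≤ T := fun i => by simpa using hv.1.2 i
      have h := k4f_two_strips l l' (hL l l.2) (hL l' l'.2) T w r hT hw hr hwr (hsep l l.2 l' l'.2 hne) v v'
        ⟨hv.1.1, hv.2.1⟩ ⟨hv'.1.1, hv'.2.1⟩ hvT i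
      rw [abs_sub_comm]
      exact h.trans hρ

/-! ## 3. (S) Separated representatives -/

/-- **L-252-S4F-S1** (~40 l.).  A maximal element of `L.powerset.filter (separated)` for `⊆` (`Finset.exists_maximal` / induction on `L`); if `x ∈ L` has no close point in `R` then `insert x R` is separated. -/
theorem k4f_sep_exists {α : Type*} (d : α → α → ℝ) (hsym : ∀ x y, d x y = d y x) (L : Finset α) (r : ℝ) :
    ∃ R : Finset α, R ⊆ L ∧ (∀ x ∈ R, ∀ y ∈ R, x ≠ y → r ≤ d x y) ∧ ∀ x ∈ L, x ∈ R ∨ ∃ y ∈ R, d x y < r := by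
  classical
  induction L using Finset.induction_on with
  | empty => exact ⟨∅, by simp, by simp, by simp⟩
  | insert a L ha ih =>
    obtain ⟨R, hRL, hsep, hmax⟩ := ih
    by_cases hclose : ∃ y ∈ R, d a y < r
    · refine ⟨R, hRL.trans (Finset.subset_insert _ _), hsep, fun x hx => ?_⟩
      rcases Finset.mem_insert.1 hx with rfl | hx
      · exact Or.inr hclose
      · exact hmax x hx
    · have hfar : ∀ y ∈ R, r ≤ d a y := fun y hy => not_lt.1 fun h => hclose ⟨y, hy, h⟩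
      refine ⟨insert a R, Finset.insert_subset_insert _ hRL, ?_, ?_⟩
      · intro x hx y hy hxy
        rcases Finset.mem_insert.1 hx with hxa | hx' <;> rcases Finset.mem_insert.1 hy with hya | hy'
        · exact absurd (hxa.trans hya.symm) hxy
        · rw [hxa]
          exact hfar y hy'
        · rw [hya, hsym]
          exact hfar x hx'
        · exact hsep x hx' y hy' hxy
      · intro x hx
        rcases Finset.mem_insert.1 hx with rfl | hx
        · exact Or.inl (Finset.mem_insert_self _ _)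
        · rcases hmax x hx with h | ⟨y, hy, h⟩
          · exact Or.inl (Finset.mem_insert_of_mem h)
          · exact Or.inr ⟨y, Finset.mem_insert_of_mem hy, h⟩

/-- **L-252-S4F-S2** (the next five statements, ~80 l.): elementary properties of `d0`, `dist` (`max`, `min`, `abs_sub_comm`, triangle inequality coordinatewise; `d0 l.neg l'.neg = d0 l l'`). -/
theorem k4f_d0_comm (l l' : K4fLine) : l.d0 l' = l'.d0 l := by
  unfold K4fLine.d0
  rw [abs_sub_comm (l.n 0), abs_sub_comm (l.n 1), abs_sub_comm l.b]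

theorem k4f_d0_neg (l l' : K4fLine) : l.neg.d0 l'.neg = l.d0 l' := by
  unfold K4fLine.d0 K4fLine.neg
  have e : ∀ a b : ℝ, |-a - -b| = |a - b| := fun a b => by
    rw [← abs_neg (a - b)]
    congr 1
    ring
  simp only [e]

theorem k4f_d0_triangle (l l' l'' : K4fLine) : l.d0 l'' ≤ l.d0 l' + l'.d0 l'' := by
  unfold K4fLine.d0
  have t : ∀ a b c : ℝ, |a - c| ≤ |a - b| + |b - c| := fun a b c => abs_sub_le a b c
  refine max_le (max_le ?_ ?_) ?_
  · exact (t _ (l'.n 0) _).trans (add_le_add ((le_max_left _ _).trans (le_max_left _ _))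
      ((le_max_left _ _).trans (le_max_left _ _)))
  · exact (t _ (l'.n 1) _).trans (add_le_add ((le_max_right _ _).trans (le_max_left _ _))
      ((le_max_right _ _).trans (le_max_left _ _)))
  · exact (t _ l'.b _).trans (add_le_add (le_max_right _ _) (le_max_right _ _))

theorem k4f_dist_comm (l l' : K4fLine) : l.dist l' = l'.dist l := by
  unfold K4fLine.dist
  rw [k4f_d0_comm l l', ← k4f_d0_neg l l'.neg, k4f_neg_neg, k4f_d0_comm l.neg l']

theorem k4f_dist_triangle (l l' l'' : K4fLine) : l.dist l'' ≤ l.dist l' + l'.dist l'' := by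
  have h1 : l.dist l'' ≤ l.d0 l'' := min_le_left _ _
  have h2 : l.dist l'' ≤ l.d0 l''.neg := min_le_right _ _
  have e1 : l'.d0 l'' = l'.neg.d0 l''.neg := (k4f_d0_neg l' l'').symm
  have e2 : l'.d0 l''.neg = l'.neg.d0 l'' := by
    rw [← k4f_d0_neg l' l''.neg, k4f_neg_neg]
  have ta := k4f_d0_triangle l l' l''
  have tb := k4f_d0_triangle l l' l''.neg
  have tc := k4f_d0_triangle l l'.neg l''.neg
  have td := k4f_d0_triangle l l'.neg l''
  have c1 : l.dist l' = l.d0 l' ∨ l.dist l' = l.d0 l'.neg := min_choice _ _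
  have c2 : l'.dist l'' = l'.d0 l'' ∨ l'.dist l'' = l'.d0 l''.neg := min_choice _ _
  rcases c1 with c1 | c1 <;> rcases c2 with c2 | c2 <;> rw [c1, c2] <;> linarith

theorem k4f_dist_self (l : K4fLine) : l.dist l ≤ 0 := by
  refine (min_le_left _ _).trans ?_
  simp [K4fLine.d0]

/-- **L-252-S4F-S3** (~40 l.).  Oriented: `ev l' v = ev l v - ((n-n')·v) + (b - b')`, `|(n-n')·v| ≤ 2 T r`; the other orientation through `k4f_neg_strip`. -/
theorem k4f_enlarge (l l' : K4fLine) (T w r : ℝ) (hd : l.dist l' ≤ r) (v : Fin 2 → ℝ) (hv : v ∈ l.strip w) (hvT : ∀ i, |v i| ≤ T) :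
    v ∈ l'.strip (w + (1 + 2 * T) * r) := by
  have key : ∀ l'' : K4fLine, l.d0 l'' ≤ r → v ∈ l''.strip (w + (1 + 2 * T) * r) := by
    intro l'' h
    have h0 : |l.n 0 - l''.n 0| ≤ r := ((le_max_left _ _).trans (le_max_left _ _)).trans h
    have h1 : |l.n 1 - l''.n 1| ≤ r := ((le_max_right _ _).trans (le_max_left _ _)).trans h
    have h2 : |l.b - l''.b| ≤ r := (le_max_right _ _).trans h
    have hv' : |l.ev v| ≤ w := hv
    show |l''.ev v| ≤ w + (1 + 2 * T) * r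
    have e : l''.ev v = l.ev v - (l.n 0 - l''.n 0) * v 0 - (l.n 1 - l''.n 1) * v 1 + (l.b - l''.b) := by
      unfold K4fLine.ev; ring
    have a0 : |(l.n 0 - l''.n 0) * v 0| ≤ r * T := by
      rw [abs_mul]
      exact mul_le_mul h0 (hvT 0) (abs_nonneg _) ((abs_nonneg _).trans h0)
    have a1 : |(l.n 1 - l''.n 1) * v 1| ≤ r * T := by
      rw [abs_mul]
      exact mul_le_mul h1 (hvT 1) (abs_nonneg _) ((abs_nonneg _).trans h1)
    rw [e]
    rw [abs_le] at hv' a0 a1 h2 ⊢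
    constructor <;> linarith [hv'.1, hv'.2, a0.1, a0.2, a1.1, a1.2, h2.1, h2.2]
  rcases min_le_iff.1 hd with h | h
  · exact key l' h
  · have := key l'.neg h
    rwa [k4f_neg_strip] at this

/-! ## 4. (A) Assignment by the velocity alone -/

open Classical in
/-- the velocities which lie in the enlarged strips of two representatives more than `r₂` apart -/
def k4fBad (R : Finset K4fLine) (T W r₂ : ℝ) : Set (Fin 2 → ℝ) :=
  ⋃ l ∈ R, ⋃ l' ∈ R.filter (fun l' => r₂ < l.dist l'), l.strip W ∩ l'.strip W ∩ k4fBox 0 T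

/-- **L-252-S4F-A1** (~50 l.).  `measureReal_biUnion_finset_le` twice (or `measure_biUnion_finset_le` + `toReal`), each term `≤ δ₂` as in `k4f_heavy_count`, `Finset.card_filter_le`. -/
theorem k4f_bad_le (π : Measure (Fin 2 → ℝ)) [IsFiniteMeasure π] (R : Finset K4fLine) (hR : ∀ l ∈ R, l.IsUnit) (T W r₂ ρ δ₂ : ℝ) (hT : 0 ≤ T) (hW : 0 ≤ W)
    (hr : 0 < r₂) (hWr : 8 * W ≤ r₂) (hρ : 16 * (1 + T) * W / r₂ ≤ ρ) (hcap : ∀ c, π.real (k4fBox c ρ) ≤ δ₂) :
    π.real (k4fBad R T W r₂) ≤ (R.card : ℝ) ^ 2 * δ₂ := by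
  classical
  have hδ0 : 0 ≤ δ₂ := measureReal_nonneg.trans (hcap 0)
  have hterm : ∀ l ∈ R, ∀ l' ∈ R.filter (fun l' => r₂ < l.dist l'),
      π.real (l.strip W ∩ l'.strip W ∩ k4fBox 0 T) ≤ δ₂ := by
    intro l hl l' hl'
    rw [Finset.mem_filter] at hl'
    rcases Set.eq_empty_or_nonempty (l.strip W ∩ l'.strip W ∩ k4fBox 0 T) with he | ⟨v, hv⟩
    · rw [he, measureReal_empty]; exact hδ0
    · refine (measureReal_mono (μ := π) (s₂ := k4fBox v ρ) ?_).trans (hcap v)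
      intro v' hv' i
      have hvT : ∀ i, |v i| ≤ T := fun i => by simpa using hv.2 i
      have h := k4f_two_strips l l' (hR l hl) (hR l' hl'.1) T W r₂ hT hW hr hWr hl'.2.le v v' hv.1 hv'.1 hvT i
      rw [abs_sub_comm]
      exact h.trans hρ
  have h1 : π.real (k4fBad R T W r₂)
      ≤ ∑ l ∈ R, π.real (⋃ l' ∈ R.filter (fun l' => r₂ < l.dist l'), l.strip W ∩ l'.strip W ∩ k4fBox 0 T) := by
    unfold k4fBad
    exact measureReal_biUnion_finset_le R _
  have h2 : ∀ l ∈ R, π.real (⋃ l' ∈ R.filter (fun l' => r₂ < l.dist l'), l.strip W ∩ l'.strip W ∩ k4fBox 0 T)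
      ≤ (R.card : ℝ) * δ₂ := by
    intro l hl
    refine (measureReal_biUnion_finset_le _ _).trans ?_
    refine (Finset.sum_le_sum (hterm l hl)).trans ?_
    rw [Finset.sum_const, nsmul_eq_mul]
    exact mul_le_mul_of_nonneg_right (by exact_mod_cast Finset.card_filter_le _ _) hδ0
  refine h1.trans ((Finset.sum_le_sum h2).trans ?_)
  rw [Finset.sum_const, nsmul_eq_mul]
  exact le_of_eq (by ring)

/-- **L-252-S4F-A2** (~40 l.).  `l₀` = the predicted line, `l₁ ∈ R` a representative with `dist l₀ l₁ ≤ r₁` (maximality), so `v ∈ l₁.strip W` (`k4f_enlarge`); if `r₂ < dist l₁ l'` then `v ∈ k4fBad`; otherwise `k4f_dist_triangle`. -/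
theorem k4f_agree (R : Finset K4fLine) (T w r₁ r₂ : ℝ) (l₀ l₁ l' : K4fLine) (h1 : l₁ ∈ R) (h' : l' ∈ R) (hd : l₀.dist l₁ ≤ r₁) (v : Fin 2 → ℝ)
    (hvT : ∀ i, |v i| ≤ T) (hv : v ∈ l₀.strip w) (hv' : v ∈ l'.strip (w + (1 + 2 * T) * r₁)) (hbad : v ∉ k4fBad R T (w + (1 + 2 * T) * r₁) r₂) :
    l₀.dist l' ≤ r₁ + r₂ := by
  have hv1 : v ∈ l₁.strip (w + (1 + 2 * T) * r₁) := k4f_enlarge l₀ l₁ T w r₁ hd v hv hvT
  have hle : l₁.dist l' ≤ r₂ := by
    by_contra hcon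
    refine hbad ?_
    unfold k4fBad
    refine Set.mem_iUnion₂.2 ⟨l₁, h1, Set.mem_iUnion₂.2 ⟨l', Finset.mem_filter.2 ⟨h', not_le.1 hcon⟩, ⟨hv1, hv'⟩, fun i => ?_⟩⟩
    simpa using hvT i
  exact (k4f_dist_triangle l₀ l₁ l').trans (add_le_add hd hle)

/-! ## 5. (F) The narrower frame -/

/-- the frame `[τ̂ | r n̂]`, `τ̂ = (-n₁, n₀)` -/
def k4fD (l : K4fLine) (r : ℝ) : Matrix (Fin 2) (Fin 2) ℝ := !![-l.n 1, r * l.n 0; l.n 0, r * l.n 1]

/-- its inverse -/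
def k4fDi (l : K4fLine) (r : ℝ) : Matrix (Fin 2) (Fin 2) ℝ := !![-l.n 1, l.n 0; l.n 0 / r, l.n 1 / r]

/-- **L-252-S4F-F1** (the next two statements, ~30 l.; `Matrix.det_fin_two_of`, `Matrix.mul_fin_two`, `field_simp`, `h`). -/
theorem k4f_D_det (l : K4fLine) (h : l.IsUnit) (r : ℝ) : (k4fD l r).det = -r := by
  unfold K4fLine.IsUnit at h
  unfold k4fD
  rw [Matrix.det_fin_two_of]
  linear_combination (-r) * h

theorem k4f_D_inv (l : K4fLine) (h : l.IsUnit) (r : ℝ) (hr : r ≠ 0) : k4fD l r * k4fDi l r = 1 := by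
  unfold K4fLine.IsUnit at h
  unfold k4fD k4fDi
  rw [Matrix.mul_fin_two, Matrix.one_fin_two]
  have e1 : -l.n 1 * -l.n 1 + r * l.n 0 * (l.n 0 / r) = 1 := by
    field_simp
    linear_combination h
  have e2 : -l.n 1 * l.n 0 + r * l.n 0 * (l.n 1 / r) = 0 := by
    field_simp
    ring
  have e3 : l.n 0 * -l.n 1 + r * l.n 1 * (l.n 0 / r) = 0 := by
    field_simp
    ring
  have e4 : l.n 0 * l.n 0 + r * l.n 1 * (l.n 1 / r) = 1 := by
    field_simp
    linear_combination h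
  rw [e1, e2, e3, e4]

/-- **L-252-S4F-F2** (~60 l.).  **The box bound in the narrower frame.**  Trajectory `y(t) = y₀ + t V` in parent units, `|y(t)_i| ≤ K` on `[0,1]`, `|n̂·V - b̂| ≤ η`, `|n̂·y(1/2) - p| ≤ r`.  Centre `y_c(t) = (p + (t - 1/2) b̂) n̂`.
First coordinate of `Di (y - y_c)`: `τ̂·y(t)` (`τ̂·n̂ = 0`), `≤ 2K`.  Second: `(n̂·y(t) - p - (t-1/2) b̂)/r` (`n̂·n̂ = 1`) `= ((n̂·y(1/2) - p) + (t - 1/2)(n̂·V - b̂))/r`, `≤ (r + η/2)/r`. -/
theorem k4f_frame (l : K4fLine) (h : l.IsUnit) (r η K p : ℝ) (hr : 0 < r) (y₀ V : Fin 2 → ℝ) (hK : ∀ t ∈ Set.Icc (0 : ℝ) 1, ∀ i, |y₀ i + t * V i| ≤ K)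
    (hV : |l.ev V| ≤ η) (hp : |l.n 0 * (y₀ 0 + 1 / 2 * V 0) + l.n 1 * (y₀ 1 + 1 / 2 * V 1) - p| ≤ r) (t : ℝ) (ht : t ∈ Set.Icc (0 : ℝ) 1) (i : Fin 2) :
    |(k4fDi l r).mulVec (fun k => y₀ k + t * V k - (p + (t - 1 / 2) * l.b) * l.n k) i| ≤ max (2 * K) (1 + η / (2 * r)) := by
  have hu := h
  unfold K4fLine.IsUnit at hu
  have hK0 := hK t ht 0
  have hK1 := hK t ht 1
  have hn0 := k4f_unit_le h 0
  have hn1 := k4f_unit_le h 1
  have hKn : 0 ≤ K := (abs_nonneg _).trans hK0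
  match i with
  | 0 =>
    refine le_trans ?_ (le_max_left _ _)
    have e : (k4fDi l r).mulVec (fun k => y₀ k + t * V k - (p + (t - 1 / 2) * l.b) * l.n k) 0
        = -l.n 1 * (y₀ 0 + t * V 0) + l.n 0 * (y₀ 1 + t * V 1) := by
      simp only [k4fDi, Matrix.mulVec, dotProduct, Fin.sum_univ_two, Matrix.of_apply, Matrix.cons_val_zero,
        Matrix.cons_val_one]
      ring
    rw [e]
    calc |-l.n 1 * (y₀ 0 + t * V 0) + l.n 0 * (y₀ 1 + t * V 1)|
        ≤ |-l.n 1 * (y₀ 0 + t * V 0)| + |l.n 0 * (y₀ 1 + t * V 1)| := abs_add_le _ _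
      _ = |l.n 1| * |y₀ 0 + t * V 0| + |l.n 0| * |y₀ 1 + t * V 1| := by rw [abs_mul, abs_mul, abs_neg]
      _ ≤ 1 * K + 1 * K := add_le_add (mul_le_mul hn1 hK0 (abs_nonneg _) zero_le_one)
          (mul_le_mul hn0 hK1 (abs_nonneg _) zero_le_one)
      _ = 2 * K := by ring
  | 1 =>
    refine le_trans ?_ (le_max_right _ _)
    have e : (k4fDi l r).mulVec (fun k => y₀ k + t * V k - (p + (t - 1 / 2) * l.b) * l.n k) 1
        = ((l.n 0 * (y₀ 0 + 1 / 2 * V 0) + l.n 1 * (y₀ 1 + 1 / 2 * V 1) - p) + (t - 1 / 2) * l.ev V) / r := by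
      simp only [k4fDi, Matrix.mulVec, dotProduct, Fin.sum_univ_two, Matrix.of_apply, Matrix.cons_val_zero,
        Matrix.cons_val_one, K4fLine.ev]
      field_simp
      linear_combination (-2 * (p + (t - 1 / 2) * l.b)) * hu
    rw [e, abs_div, abs_of_pos hr, div_le_iff₀ hr]
    have h1 : |t - 1 / 2| ≤ 1 / 2 := by
      rw [abs_le]
      constructor <;> linarith [ht.1, ht.2]
    have h2 : |(t - 1 / 2) * l.ev V| ≤ 1 / 2 * η := by
      rw [abs_mul]
      exact mul_le_mul h1 hV (abs_nonneg _) (by norm_num)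
    have e2 : (1 + η / (2 * r)) * r = r + 1 / 2 * η := by
      field_simp
    rw [e2]
    exact (abs_add_le _ _).trans (add_le_add hp h2)

/-- the position at the middle of the block is predicted by the observed base `(t, y(t))` and the velocity prediction -/
theorem k4f_pos_pred (l : K4fLine) (η : ℝ) (y₀ V : Fin 2 → ℝ) (hV : |l.ev V| ≤ η) (t : ℝ) (ht : t ∈ Set.Icc (0 : ℝ) 1) :
    |(l.n 0 * (y₀ 0 + 1 / 2 * V 0) + l.n 1 * (y₀ 1 + 1 / 2 * V 1)) - (l.n 0 * (y₀ 0 + t * V 0) + l.n 1 * (y₀ 1 + t * V 1) + (1 / 2 - t) * l.b)| ≤ η / 2 := by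
  have e : (l.n 0 * (y₀ 0 + 1 / 2 * V 0) + l.n 1 * (y₀ 1 + 1 / 2 * V 1)) - (l.n 0 * (y₀ 0 + t * V 0) + l.n 1 * (y₀ 1 + t * V 1) + (1 / 2 - t) * l.b)
      = (1 / 2 - t) * l.ev V := by
    unfold K4fLine.ev; ring
  rw [e, abs_mul]
  have h1 : |1 / 2 - t| ≤ 1 / 2 := by
    rw [abs_le]; constructor <;> linarith [ht.1, ht.2]
  calc |1 / 2 - t| * |l.ev V| ≤ 1 / 2 * η := mul_le_mul h1 hV (abs_nonneg _) (by norm_num)
    _ = η / 2 := by ring

/-! ## 6. (B) Bins, (L) light strips -/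

/-- **L-252-S4F-B1** (~40 l.).  The bins `⌊x/r⌋` of the points within `C r` of `x₀` lie in `Finset.Icc (⌊x₀/r⌋ - ⌈C⌉ - 1) (⌊x₀/r⌋ + ⌈C⌉ + 1)` (`Int.floor_le`, `Int.lt_floor_add_one`, `Int.le_ceil`; `Int.card_Icc`). -/
theorem k4f_bins (r C x₀ : ℝ) (hr : 0 < r) (hC : 0 ≤ C) :
    ∃ B : Finset ℤ, (B.card : ℝ) ≤ 2 * C + 5 ∧ ∀ x : ℝ, |x - x₀| ≤ C * r → ⌊x / r⌋ ∈ B := by
  refine ⟨Finset.Icc (⌊x₀ / r⌋ - ⌈C⌉ - 1) (⌊x₀ / r⌋ + ⌈C⌉ + 1), ?_, fun x hx => ?_⟩
  · rw [Int.card_Icc]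
    have hc0 : 0 ≤ ⌈C⌉ := Int.ceil_nonneg hC
    have e : ⌊x₀ / r⌋ + ⌈C⌉ + 1 + 1 - (⌊x₀ / r⌋ - ⌈C⌉ - 1) = 2 * ⌈C⌉ + 3 := by ring
    rw [e]
    have h1 : (((2 * ⌈C⌉ + 3).toNat : ℤ) : ℝ) = ((2 * ⌈C⌉ + 3 : ℤ) : ℝ) := by
      rw [Int.toNat_of_nonneg (by omega)]
    have h2 : (((2 * ⌈C⌉ + 3).toNat : ℕ) : ℝ) = (((2 * ⌈C⌉ + 3).toNat : ℤ) : ℝ) := by
      push_cast
      rfl
    rw [h2, h1]
    push_cast
    have := Int.ceil_lt_add_one C
    linarith
  · have hd : |x / r - x₀ / r| ≤ C := by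
      rw [← sub_div, abs_div, abs_of_pos hr, div_le_iff₀ hr]
      exact hx
    obtain ⟨hd1, hd2⟩ := abs_le.1 hd
    have a1 := Int.floor_le (x / r)
    have a2 := Int.lt_floor_add_one (x / r)
    have b1 := Int.floor_le (x₀ / r)
    have b2 := Int.lt_floor_add_one (x₀ / r)
    have c1 := Int.le_ceil C
    rw [Finset.mem_Icc]
    constructor
    · have : ((⌊x₀ / r⌋ - ⌈C⌉ - 1 : ℤ) : ℝ) < ((⌊x / r⌋ + 1 : ℤ) : ℝ) := by
        push_cast
        linarith
      have := Int.cast_lt.1 this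
      omega
    · have : ((⌊x / r⌋ : ℤ) : ℝ) < ((⌊x₀ / r⌋ + ⌈C⌉ + 1 : ℤ) : ℝ) := by
        push_cast
        linarith
      have := Int.cast_lt.1 this
      omega

/-- **L-252-S4F-L1** (~30 l.).  **Light predicted strips cost little**: numerator ceiling `μ {s = s0, test s0} ≤ K π(s0) Ref(s0)` (the test of the state `s0` = its predicted strip), summed over the states with `π(s0) ≤ κ`.
`measure_biUnion_finset_le`-free: the events `{s = s0}` need no measurability: `μ (⋃ ..) ≤ ∑ μ ..` (`measure_biUnion_finset_le`), `mul_le_mul'`, `Finset.mul_sum`, `Finset.sum_le_sum_of_subset`. -/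
theorem k4f_light {Ω S : Type*} [MeasurableSpace Ω] [Fintype S] (μ : Measure Ω) (s : Ω → S) (Tst : S → Set Ω) (pal Ref : S → ℝ≥0∞) (K κ : ℝ≥0∞)
    (h : ∀ s0, μ (s ⁻¹' {s0} ∩ Tst s0) ≤ K * pal s0 * Ref s0) :
    μ {ω | ω ∈ Tst (s ω) ∧ pal (s ω) ≤ κ} ≤ K * κ * ∑ s0, Ref s0 := by
  classical
  have hsub : {ω | ω ∈ Tst (s ω) ∧ pal (s ω) ≤ κ} ⊆
      ⋃ s0 ∈ Finset.univ.filter (fun s0 => pal s0 ≤ κ), s ⁻¹' {s0} ∩ Tst s0 := by
    intro ω hω
    exact Set.mem_iUnion₂.2 ⟨s ω, Finset.mem_filter.2 ⟨Finset.mem_univ _, hω.2⟩, rfl, hω.1⟩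
  calc μ {ω | ω ∈ Tst (s ω) ∧ pal (s ω) ≤ κ}
      ≤ μ (⋃ s0 ∈ Finset.univ.filter (fun s0 => pal s0 ≤ κ), s ⁻¹' {s0} ∩ Tst s0) := measure_mono hsub
    _ ≤ ∑ s0 ∈ Finset.univ.filter (fun s0 => pal s0 ≤ κ), μ (s ⁻¹' {s0} ∩ Tst s0) := measure_biUnion_finset_le _ _
    _ ≤ ∑ s0 ∈ Finset.univ.filter (fun s0 => pal s0 ≤ κ), K * κ * Ref s0 :=
        Finset.sum_le_sum fun s0 hs0 => (h s0).trans
          (mul_le_mul' (mul_le_mul' le_rfl (Finset.mem_filter.1 hs0).2) le_rfl)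
    _ ≤ ∑ s0, K * κ * Ref s0 := Finset.sum_le_sum_of_subset (Finset.filter_subset _ _)
    _ = K * κ * ∑ s0, Ref s0 := (Finset.mul_sum _ _ _).symm

end

end Claimed.Agent.R252
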