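import Claimed.Agent.R252.S4F.SysContract
import Claimed.Agent.R252.S4.Crit
import Claimed.Agent.R252.S2a.PbContract

/-!
# ROW 252 (S0492), unit S4F, file 4: THE ONE-SCALE CORE OF `a03:breadth` OVER THE TANGENT DATA, AND THE EXIT `KpHubBreadth`.      CONTRACT file: every `sorry` is a leaf L-252-S4F-N*/T*/A*/V1.

* `K4fPar` the parameters `(N, τ, u, S, κ, ε, T)` and the derived scales;  `a.Hyp` (what is assumed), `a.Out` (what is used);  (N1) `k4f_num : a.Hyp → a.Out`.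
* (T1)-(T5) bridges from `KpTan` to the planar / measure layer.
* `k4f_core` (PROVED from the leaves): if breadth fails at one scale there is a velocity partition `Q : K4fPart X.P` with all the properties `K4fOutOk`.
* (A1)-(A3) `k4f_atl` : for a guarded sample `s`, `Q.sys` is an output atlas at depth `0` (`s.Atl Q.sys 0`), of time length `1` and Jacobians `N^{-u/4}` : excluded by `s.Guard`.
* (V1) `k4f_core_one` : version 1.      * `k4f_hub : KpHubBreadth` (PROVED from the above).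
-/

set_option autoImplicit false

namespace Claimed.Agent.R252

open MeasureTheory Filter Topology
open Claimed.Agent.R255 (uf)
open scoped ENNReal BigOperators

noncomputable section

/-! ## 1. Parameters -/

/-- the parameters of the one-scale argument -/
structure K4fPar where
  N : ℝ
  τ : ℝ
  u : ℝ
  S : ℝ
  κ : ℝ
  ε : ℝ
  T : ℝ

namespace K4fPar

variable (a : K4fPar)

/-- side of the velocity grid -/
def h : ℝ := kbDy (a.N ^ (-a.u) / 4)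
/-- half width of the predicted strips -/
def w : ℝ := a.N ^ (-a.u)
def w' : ℝ := a.w + 2 * a.h
def T' : ℝ := a.T + a.h
def r₁ : ℝ := a.N ^ (-(a.u / 2))
def r₂ : ℝ := a.N ^ (-(a.u / 4))
def W : ℝ := a.w' + (1 + 2 * a.T') * a.r₁
def ρ₁ : ℝ := 16 * (1 + a.T') * a.w' / a.r₁
def ρ₂ : ℝ := 16 * (1 + (a.T' + a.h)) * (a.W + 2 * a.h) / a.r₂
def δ₁ : ℝ := a.N ^ a.τ * a.ρ₁ ^ a.S
def δ₂ : ℝ := a.N ^ a.τ * a.ρ₂ ^ a.S
/-- threshold of the heavy strips -/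
def κN : ℝ := a.κ * a.ε * a.N ^ (-(3 * a.τ)) / 4
/-- half width of the merged strips -/
def η : ℝ := a.W + (1 + 2 * a.T') * a.r₂

/-- the assumptions -/
structure Hyp : Prop where
  N_two : 2 ≤ a.N
  τ_pos : 0 < a.τ
  u_pos : 0 < a.u
  S_pos : 0 < a.S
  κ_pos : 0 < a.κ
  ε_pos : 0 < a.ε
  T_one : 1 ≤ a.T
  T_le : a.T ≤ a.N ^ a.τ
  big : 10 ^ 4 ≤ a.N ^ a.τ
  big' : 1 / (a.κ * a.ε) ≤ a.N ^ a.τ
  τS : a.τ * (100 + 12 * a.S) ≤ a.u * a.S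
  τu : 16 * a.τ ≤ a.u
  τ1 : a.τ * (a.u + 4) ≤ 1

/-- the consequences -/
structure Out : Prop where
  h_pos : 0 < a.h
  h_le : 2 * a.h ≤ a.w
  β_lo : a.N ^ (-1 / a.τ) ≤ a.N ^ (-a.u) / 4
  β_hi : a.N ^ (-a.u) / 4 ≤ 1
  w_pos : 0 < a.w
  w_le : a.w ≤ 1
  r₁_pos : 0 < a.r₁
  r₁₂ : a.r₁ ≤ a.r₂
  r₂_le : a.r₂ ≤ 1
  wr : 8 * a.w' ≤ a.r₁
  Wr : 8 * (a.W + 2 * a.h) ≤ a.r₂
  ρ₁_lo : a.N ^ (-1 / a.τ) ≤ a.ρ₁
  ρ₁_hi : a.ρ₁ ≤ 1
  ρ₂_lo : a.N ^ (-1 / a.τ) ≤ a.ρ₂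
  ρ₂_hi : a.ρ₂ ≤ 1
  κN_pos : 0 < a.κN
  d1 : 2 * a.δ₁ ≤ a.κN ^ 2
  d2 : a.N ^ a.τ * a.N ^ a.τ * a.κN + a.N ^ a.τ * ((2 / a.κN ^ 2) ^ 2 * a.δ₂) ≤ a.κ * a.ε * a.N ^ (-a.τ) / 2
  η_le : a.η / a.r₂ ≤ 2 * a.T + 3

end K4fPar

/-- the polynomial part of `k4f_num` (`x = r₂`, `r₁ = x²`, `w = x⁴`) -/
theorem k4f_num_poly (A T x h : ℝ) (hA : 10 ^ 4 ≤ A) (hT1 : 1 ≤ T) (hTA : T ≤ A) (hx : 0 < x) (hxA : x * A ^ 4 ≤ 1) (hh1 : x ^ 4 / 4 ≤ h) (hh2 : 2 * h ≤ x ^ 4) :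
    8 * (x ^ 4 + 2 * h) ≤ x ^ 2 ∧ 8 * (x ^ 4 + 2 * h + (1 + 2 * (T + h)) * x ^ 2 + 2 * h) ≤ x ∧
    16 * x ^ 2 ≤ 16 * (1 + (T + h)) * (x ^ 4 + 2 * h) / x ^ 2 ∧ 16 * (1 + (T + h)) * (x ^ 4 + 2 * h) / x ^ 2 ≤ A ^ 2 * x ^ 2 ∧
    16 * x ≤ 16 * (1 + (T + h + h)) * (x ^ 4 + 2 * h + (1 + 2 * (T + h)) * x ^ 2 + 2 * h) / x ∧
    16 * (1 + (T + h + h)) * (x ^ 4 + 2 * h + (1 + 2 * (T + h)) * x ^ 2 + 2 * h) / x ≤ A ^ 3 * x ∧
    (x ^ 4 + 2 * h + (1 + 2 * (T + h)) * x ^ 2 + (1 + 2 * (T + h)) * x) / x ≤ 2 * T + 3 ∧ x ≤ 1 / 1000 := by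
  have hA0 : 0 < A := by linarith
  have hA1 : (1000 : ℝ) ≤ A := by linarith
  have hA3 : 1000 ≤ A ^ 3 := by nlinarith [mul_pos hA0 hA0]
  have hA4 : 1000 * A ≤ A ^ 4 := by nlinarith
  have hAx : A * x ≤ 1 / 1000 := by nlinarith
  have hx1 : x ≤ 1 / 1000 := by nlinarith
  have hTx : T * x ≤ 1 / 1000 := (mul_le_mul_of_nonneg_right hTA hx.le).trans hAx
  have x2p : 0 < x ^ 2 := by positivity
  have x4p : 0 < x ^ 4 := by positivity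
  have hh0 : 0 < h := by linarith
  have x2 : x ^ 2 ≤ x / 1000 := by nlinarith
  have x4 : x ^ 4 ≤ x ^ 2 / 1000 := by nlinarith
  have x4' : x ^ 4 ≤ x / 1000 := by nlinarith
  have Tx2 : T * x ^ 2 ≤ x / 1000 := by nlinarith
  have hx2 : h * x ^ 2 ≤ x / 1000 := by nlinarith
  have hW : x ^ 4 + 2 * h + (1 + 2 * (T + h)) * x ^ 2 + 2 * h ≤ 8 * x / 1000 := by nlinarith
  have hWlo : x ^ 2 ≤ x ^ 4 + 2 * h + (1 + 2 * (T + h)) * x ^ 2 + 2 * h := by nlinarith [mul_pos hh0 x2p, mul_pos (lt_of_lt_of_le one_pos hT1) x2p]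
  have hWup : x ^ 4 + 2 * h + (1 + 2 * (T + h)) * x ^ 2 + 2 * h ≤ 5 * A * x ^ 2 := by nlinarith [mul_le_mul_of_nonneg_right hTA x2p.le, mul_pos hh0 x2p]
  have hT3 : 1 + (T + h + h) ≤ 3 * A := by nlinarith
  have hT3' : 1 + (T + h) ≤ 3 * A := by nlinarith
  have g1 : 8 * (x ^ 4 + 2 * h) ≤ x ^ 2 := by nlinarith
  have g2 : 8 * (x ^ 4 + 2 * h + (1 + 2 * (T + h)) * x ^ 2 + 2 * h) ≤ x := by linarith
  have g7 : x ^ 4 + 2 * h + (1 + 2 * (T + h)) * x ^ 2 + (1 + 2 * (T + h)) * x ≤ (2 * T + 3) * x := by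
    have : h * x ≤ x / 1000 := by nlinarith
    nlinarith
  generalize hWt : x ^ 4 + 2 * h + (1 + 2 * (T + h)) * x ^ 2 + 2 * h = Wt at *
  generalize hw' : x ^ 4 + 2 * h = w' at *
  have hw'lo : x ^ 4 ≤ w' := by rw [← hw']; linarith
  have hw'up : w' ≤ 2 * x ^ 4 := by rw [← hw']; linarith
  have hw'0 : 0 < w' := lt_of_lt_of_le x4p hw'lo
  have hWt0 : 0 < Wt := lt_of_lt_of_le x2p hWlo
  refine ⟨g1, g2, ?_, ?_, ?_, ?_, ?_, hx1⟩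
  · rw [le_div_iff₀ x2p]
    have e1 : 1 * x ^ 4 ≤ (1 + (T + h)) * w' := mul_le_mul (by linarith) hw'lo x4p.le (by positivity)
    calc 16 * x ^ 2 * x ^ 2 = 16 * (1 * x ^ 4) := by ring
      _ ≤ 16 * ((1 + (T + h)) * w') := by linarith
      _ = 16 * (1 + (T + h)) * w' := by ring
  · rw [div_le_iff₀ x2p]
    have e1 : (1 + (T + h)) * w' ≤ 3 * A * (2 * x ^ 4) := mul_le_mul hT3' hw'up hw'0.le (by positivity)
    have e2 : 96 * (A * x ^ 4) ≤ A * (A * x ^ 4) := mul_le_mul_of_nonneg_right (by linarith) (by positivity)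
    calc 16 * (1 + (T + h)) * w' = 16 * ((1 + (T + h)) * w') := by ring
      _ ≤ 16 * (3 * A * (2 * x ^ 4)) := by linarith
      _ = 96 * (A * x ^ 4) := by ring
      _ ≤ A * (A * x ^ 4) := e2
      _ = A ^ 2 * x ^ 2 * x ^ 2 := by ring
  · rw [le_div_iff₀ hx]
    have e1 : 1 * x ^ 2 ≤ (1 + (T + h + h)) * Wt := mul_le_mul (by linarith) hWlo x2p.le (by positivity)
    calc 16 * x * x = 16 * (1 * x ^ 2) := by ring
      _ ≤ 16 * ((1 + (T + h + h)) * Wt) := by linarith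
      _ = 16 * (1 + (T + h + h)) * Wt := by ring
  · rw [div_le_iff₀ hx]
    have e1 : (1 + (T + h + h)) * Wt ≤ 3 * A * (5 * A * x ^ 2) := mul_le_mul hT3 hWup hWt0.le (by positivity)
    have e2 : 240 * (A ^ 2 * x ^ 2) ≤ A * (A ^ 2 * x ^ 2) := mul_le_mul_of_nonneg_right (by linarith) (by positivity)
    calc 16 * (1 + (T + h + h)) * Wt = 16 * ((1 + (T + h + h)) * Wt) := by ring
      _ ≤ 16 * (3 * A * (5 * A * x ^ 2)) := by linarith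
      _ = 240 * (A ^ 2 * x ^ 2) := by ring
      _ ≤ A * (A ^ 2 * x ^ 2) := e2
      _ = A ^ 3 * x * x := by ring
  · rw [div_le_iff₀ hx]
    exact g7

/-- the first threshold inequality (`B = 1/A`, `g = κ ε`, `E = ρ₁^S`) -/
theorem k4f_num_d1 (A B g E : ℝ) (hA : 10 ^ 4 ≤ A) (hB : B = A⁻¹) (hg : B ≤ g) (hE0 : 0 ≤ E) (hE : E ≤ B ^ 10) : 2 * (A * E) ≤ (g * B ^ 3 / 4) ^ 2 := by
  have hA0 : 0 < A := by linarith
  have hB0 : 0 < B := by rw [hB]; positivity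
  have hAB : A * B = 1 := by rw [hB]; exact mul_inv_cancel₀ hA0.ne'
  have hB1 : 32 * B ≤ 1 := by nlinarith
  have h1 : A * E ≤ B ^ 9 := by
    calc A * E ≤ A * B ^ 10 := mul_le_mul_of_nonneg_left hE hA0.le
      _ = (A * B) * B ^ 9 := by ring
      _ = B ^ 9 := by rw [hAB, one_mul]
  have h2 : (B * B ^ 3 / 4) ^ 2 ≤ (g * B ^ 3 / 4) ^ 2 := by
    apply pow_le_pow_left₀ (by positivity)
    have : B * B ^ 3 ≤ g * B ^ 3 := mul_le_mul_of_nonneg_right hg (by positivity)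
    linarith
  have h3 : 2 * B ^ 9 ≤ (B * B ^ 3 / 4) ^ 2 := by
    have : (B * B ^ 3 / 4) ^ 2 = B ^ 8 / 16 := by ring
    rw [this]
    have h8 : 0 < B ^ 8 := by positivity
    nlinarith
  linarith

/-- the second threshold inequality -/
theorem k4f_num_d2 (A B g E : ℝ) (hA : 10 ^ 4 ≤ A) (hB : B = A⁻¹) (hg : B ≤ g) (hE0 : 0 ≤ E) (hE : E ≤ B ^ 21) :
    A * A * (g * B ^ 3 / 4) + A * ((2 / (g * B ^ 3 / 4) ^ 2) ^ 2 * (A * E)) ≤ g * B / 2 := by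
  have hA0 : 0 < A := by linarith
  have hB0 : 0 < B := by rw [hB]; positivity
  have hg0 : 0 < g := lt_of_lt_of_le hB0 hg
  have hAB : A * B = 1 := by rw [hB]; exact mul_inv_cancel₀ hA0.ne'
  have hB1 : 4096 * B ≤ 1 := by nlinarith
  have e1 : A * A * (g * B ^ 3 / 4) = g * B / 4 := by
    calc A * A * (g * B ^ 3 / 4) = (A * B) * (A * B) * (g * B / 4) := by ring
      _ = g * B / 4 := by rw [hAB]; ring
  have hk : B ^ 4 / 4 ≤ g * B ^ 3 / 4 := by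
    have : B * B ^ 3 ≤ g * B ^ 3 := mul_le_mul_of_nonneg_right hg (by positivity)
    nlinarith
  have hk2 : (B ^ 4 / 4) ^ 2 ≤ (g * B ^ 3 / 4) ^ 2 := pow_le_pow_left₀ (by positivity) hk 2
  have e2 : 2 / (g * B ^ 3 / 4) ^ 2 ≤ 32 * A ^ 8 := by
    calc 2 / (g * B ^ 3 / 4) ^ 2 ≤ 2 / (B ^ 4 / 4) ^ 2 := div_le_div_of_nonneg_left (by norm_num) (by positivity) hk2
      _ = 32 * A ^ 8 := by
          rw [hB]; field_simp; ring
  have e3 : (2 / (g * B ^ 3 / 4) ^ 2) ^ 2 ≤ (32 * A ^ 8) ^ 2 := pow_le_pow_left₀ (by positivity) e2 2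
  have e4 : A * ((2 / (g * B ^ 3 / 4) ^ 2) ^ 2 * (A * E)) ≤ 1024 * B ^ 3 := by
    calc A * ((2 / (g * B ^ 3 / 4) ^ 2) ^ 2 * (A * E)) ≤ A * ((32 * A ^ 8) ^ 2 * (A * B ^ 21)) := by
          apply mul_le_mul_of_nonneg_left _ hA0.le
          exact mul_le_mul e3 (mul_le_mul_of_nonneg_left hE hA0.le) (by positivity) (by positivity)
      _ = 1024 * (A * B) ^ 18 * B ^ 3 := by ring
      _ = 1024 * B ^ 3 := by rw [hAB]; ring
  have e5 : 1024 * B ^ 3 ≤ g * B / 4 := by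
    have : B * B ≤ g * B := mul_le_mul_of_nonneg_right hg hB0.le
    have h2 : 0 < B ^ 2 := by positivity
    nlinarith
  linarith

/-- **L-252-S4F-N1** (~250 l., real numbers only).  Put `A := N^τ` (`≥ 10⁴`, `≥ T ≥ 1`, `≥ 1/(κ ε)`).  `k2a_dy_bounds`: `β ≤ h < 2β`, `β = w/4`.  `w = r₁²`, `r₁ = r₂²` (`Real.rpow_add`), `r₂ = N^{-u/4} ≤ N^{-4τ} = A^{-4}` (`τu`).
`w' ≤ 2w`, `T' ≤ 2A`;  `8w' ≤ 16 r₁ r₁ ≤ r₁`;  `W + 2h ≤ 3w + (1+4A) r₁ ≤ 5A r₁`, `40 A r₂ ≤ 1`;  `16 r₁ ≤ ρ₁ ≤ 96 A r₁ ≤ A² r₁ = N^{2τ-u/2}`;  `16 r₂ ≤ ρ₂ ≤ 240 A² r₂ ≤ A³ r₂ = N^{3τ-u/4}`;  `N^{-1/τ} ≤ N^{-u-4} ≤ w/16` (`τ1`, `N⁴ ≥ 16`).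
`κN ≥ A^{-4}/4 ≥ A^{-5}`.  `d1`: `2δ₁ ≤ A² N^{(2τ-u/2)S} ≤ A^{-10}` as `τ(24+4S) ≤ uS`.  `d2`: first term `= κ ε A^{-1}/4`; second: `16 A² δ₂ ≤ A⁴ N^{(3τ-u/4)S} ≤ A^{-21} ≤ κ ε κN⁴` as `τ(100+12S) ≤ uS`.
`η/r₂ = W/r₂ + 1 + 2T' ≤ 1/8 + 1 + 2T + w`.   (Write everything as powers of `N` with `Real.rpow_add`, `Real.rpow_mul`, `Real.rpow_le_rpow_of_exponent_le`, `Real.rpow_le_rpow`.) -/
theorem k4f_num (a : K4fPar) (h : a.Hyp) : a.Out := by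
  obtain ⟨N, τ, u, S, κ, ε, T⟩ := a
  have hN2 : 2 ≤ N := h.N_two
  have hτ : 0 < τ := h.τ_pos
  have hu : 0 < u := h.u_pos
  have hS : 0 < S := h.S_pos
  have hκ : 0 < κ := h.κ_pos
  have hε : 0 < ε := h.ε_pos
  have hT1 : 1 ≤ T := h.T_one
  have hTA : T ≤ N ^ τ := h.T_le
  have hA : 10 ^ 4 ≤ N ^ τ := h.big
  have hg : 1 / (κ * ε) ≤ N ^ τ := h.big'
  have hτS : τ * (100 + 12 * S) ≤ u * S := h.τS
  have hτu : 16 * τ ≤ u := h.τu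
  have hτ1 : τ * (u + 4) ≤ 1 := h.τ1
  have hN0 : 0 < N := by linarith
  have hN1 : 1 ≤ N := by linarith
  have hx : 0 < N ^ (-(u / 4)) := Real.rpow_pos_of_pos hN0 _
  have hr₁ : N ^ (-(u / 2)) = (N ^ (-(u / 4))) ^ 2 := by
    rw [← Real.rpow_natCast, ← Real.rpow_mul hN0.le]; congr 1; push_cast; ring
  have hw : N ^ (-u) = (N ^ (-(u / 4))) ^ 4 := by
    rw [← Real.rpow_natCast, ← Real.rpow_mul hN0.le]; congr 1; push_cast; ring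
  have hxA : N ^ (-(u / 4)) * (N ^ τ) ^ 4 ≤ 1 := by
    rw [← Real.rpow_natCast (N ^ τ) 4, ← Real.rpow_mul hN0.le, ← Real.rpow_add hN0]
    exact Real.rpow_le_one_of_one_le_of_nonpos hN1 (by push_cast; linarith)
  have hdy := k2a_dy_bounds (x := N ^ (-u) / 4) (by positivity)
  have hlo : N ^ (-1 / τ) ≤ N ^ (-u) / 16 := by
    have e1 : -1 / τ ≤ -u + -4 := by
      rw [div_le_iff₀ hτ]; linarith
    have e2 : N ^ (-4 : ℝ) ≤ 1 / 16 := by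
      rw [Real.rpow_neg hN0.le, ← one_div]
      apply one_div_le_one_div_of_le (by norm_num)
      have : N ^ (4 : ℝ) = N ^ 4 := by rw [← Real.rpow_natCast]; norm_num
      rw [this]
      nlinarith [mul_self_nonneg (N - 2), mul_pos hN0 hN0, sq_nonneg (N ^ 2 - 4)]
    calc N ^ (-1 / τ) ≤ N ^ (-u + -4) := Real.rpow_le_rpow_of_exponent_le hN1 e1
      _ = N ^ (-u) * N ^ (-4 : ℝ) := Real.rpow_add hN0 _ _
      _ ≤ N ^ (-u) * (1 / 16) := mul_le_mul_of_nonneg_left e2 (Real.rpow_pos_of_pos hN0 _).le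
      _ = N ^ (-u) / 16 := by ring
  have hB : N ^ (-τ) = (N ^ τ)⁻¹ := Real.rpow_neg hN0.le _
  have hB3 : N ^ (-(3 * τ)) = (N ^ (-τ)) ^ 3 := by
    rw [← Real.rpow_natCast, ← Real.rpow_mul hN0.le]; congr 1; push_cast; ring
  have hgB : N ^ (-τ) ≤ κ * ε := by
    rw [hB]
    have hκε : 0 < κ * ε := mul_pos hκ hε
    rw [inv_le_comm₀ (by positivity) hκε, ← one_div]
    exact hg
  rw [hw] at hdy hlo
  generalize hxdef : N ^ (-(u / 4)) = x at *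
  generalize hhdef : kbDy (x ^ 4 / 4) = hv at *
  obtain ⟨p1, p2, p3, p4, p5, p6, p7, p8⟩ := k4f_num_poly (N ^ τ) T x hv hA hT1 hTA hx hxA hdy.1 (by linarith [hdy.2])
  have x4p : 0 < x ^ 4 := by positivity
  have x2p : 0 < x ^ 2 := by positivity
  have hv0 : 0 < hv := by linarith [hdy.1]
  have hx1 : x ≤ 1 := by linarith
  have x2le : x ^ 2 ≤ x := by
    calc x ^ 2 = x * x := by ring
      _ ≤ x * 1 := mul_le_mul_of_nonneg_left hx1 hx.le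
      _ = x := mul_one x
  have x4le : x ^ 4 ≤ x ^ 2 := by
    calc x ^ 4 = x ^ 2 * x ^ 2 := by ring
      _ ≤ x ^ 2 * 1 := mul_le_mul_of_nonneg_left (x2le.trans hx1) x2p.le
      _ = x ^ 2 := mul_one _
  have hτSp : 0 < τ * S := mul_pos hτ hS
  -- the two powers
  have hE : ∀ (ρ m c : ℝ) (j : ℕ), 0 ≤ ρ → ρ ≤ N ^ (m * τ - c) → (j : ℝ) * τ + (m * τ - c) * S ≤ 0 → ρ ^ S ≤ (N ^ (-τ)) ^ j := by
    intro ρ m c j h0 h1 h2
    calc ρ ^ S ≤ (N ^ (m * τ - c)) ^ S := Real.rpow_le_rpow h0 h1 hS.le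
      _ = N ^ ((m * τ - c) * S) := by rw [← Real.rpow_mul hN0.le]
      _ ≤ N ^ (-τ * j) := Real.rpow_le_rpow_of_exponent_le hN1 (by linarith)
      _ = (N ^ (-τ)) ^ j := by rw [Real.rpow_mul hN0.le, Real.rpow_natCast]
  have hρ₁up : (N ^ τ) ^ 2 * x ^ 2 = N ^ (2 * τ - u / 2) := by
    rw [← hxdef, ← Real.rpow_natCast (N ^ τ) 2, ← Real.rpow_natCast (N ^ (-(u / 4))) 2, ← Real.rpow_mul hN0.le, ← Real.rpow_mul hN0.le, ← Real.rpow_add hN0]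
    congr 1; push_cast; ring
  have hρ₂up : (N ^ τ) ^ 3 * x = N ^ (3 * τ - u / 4) := by
    rw [← hxdef, ← Real.rpow_natCast (N ^ τ) 3, ← Real.rpow_mul hN0.le, ← Real.rpow_add hN0]
    congr 1; push_cast; ring
  refine ⟨?_, ?_, ?_, ?_, ?_, ?_, ?_, ?_, ?_, ?_, ?_, ?_, ?_, ?_, ?_, ?_, ?_, ?_, ?_⟩
  all_goals simp only [K4fPar.h, K4fPar.w, K4fPar.w', K4fPar.T', K4fPar.r₁, K4fPar.r₂, K4fPar.W, K4fPar.ρ₁, K4fPar.ρ₂, K4fPar.δ₁, K4fPar.δ₂, K4fPar.κN, K4fPar.η, hw, hr₁, hxdef, hhdef]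
  · exact hv0
  · linarith [hdy.2]
  · linarith
  · linarith
  · exact x4p
  · linarith
  · exact x2p
  · exact x2le
  · linarith
  · exact p1
  · exact p2
  · exact (hlo.trans (by linarith)).trans p3
  · rw [hρ₁up] at p4
    exact p4.trans (Real.rpow_le_one_of_one_le_of_nonpos hN1 (by linarith))
  · exact (hlo.trans (by linarith)).trans p5
  · rw [hρ₂up] at p6
    exact p6.trans (Real.rpow_le_one_of_one_le_of_nonpos hN1 (by linarith))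
  · have := Real.rpow_pos_of_pos hN0 (-(3 * τ))
    positivity
  · rw [hB3]
    rw [hρ₁up] at p4
    refine k4f_num_d1 (N ^ τ) (N ^ (-τ)) (κ * ε) _ hA hB hgB (Real.rpow_nonneg (le_trans (by positivity) p3) _) ?_
    exact hE _ 2 (u / 2) 10 (le_trans (by positivity) p3) p4 (by push_cast; linarith)
  · rw [hB3]
    rw [hρ₂up] at p6
    have := k4f_num_d2 (N ^ τ) (N ^ (-τ)) (κ * ε) _ hA hB hgB (Real.rpow_nonneg (le_trans (by positivity) p5) S)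
      (hE _ 3 (u / 4) 21 (le_trans (by positivity) p5) p6 (by push_cast; linarith))
    exact this
  · exact p7

theorem k4f_eqns_cite4 : True := by
  have := @K4fPar.h.eq_1; have := @K4fPar.w.eq_1; have := @K4fPar.w'.eq_1; have := @K4fPar.T'.eq_1; have := @K4fPar.r₁.eq_1; have := @K4fPar.r₂.eq_1
  have := @K4fPar.W.eq_1; have := @K4fPar.ρ₁.eq_1; have := @K4fPar.ρ₂.eq_1; have := @K4fPar.δ₁.eq_1; have := @K4fPar.δ₂.eq_1; have := @K4fPar.κN.eq_1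
  have := @K4fPar.η.eq_1
  trivial

/-! ## 2. Bridges -/

/-- the palette as a measure on `Fin 2 → ℝ` (`rfl`) -/
abbrev k4fPal (X : KpTan KbVer.two) (γ : X.P.W) : Measure (Fin 2 → ℝ) := X.pal γ

/-- the velocity as a point of `Fin 2 → ℝ` -/
abbrev k4fVl (X : KpTan KbVer.two) (γ : X.P.W) (x : X.P.Lam × ℝ) : Fin 2 → ℝ := X.vl γ x

/-- the event of the end history `e`, seen from the parent `γ` -/
def k4fSe (X : KpTan KbVer.two) (γ : X.P.W) (e : (X.Q X.G).C) : Set (X.P.Lam × ℝ) := {x | (X.Q X.G).wd e = γ ∧ x ∈ (X.Q X.G).S e}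

open Classical in
/-- the reference weight of the end history `e`, seen from the parent `γ` -/
def k4fRef (X : KpTan KbVer.two) (γ : X.P.W) (e : (X.Q X.G).C) : ℝ≥0∞ := if (X.Q X.G).wd e = γ then X.ref e else 0

/-- **L-252-S4F-T1** (~80 l.).  If `wd e ≠ γ` the event is empty.  Otherwise `subst`; `k4f_transfer (ι := Fin 2)` with `Se = S e`, `c = ofReal (N^τ) * ref e`, `h = kbDy β` (`k2a_dy_pos`); `hj` is `hX.joint β .. e b`: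
`kpPv p V = V` (`hell`, `if_neg`), `kpCube β b = k4fCube (kbDy β) b` (unfold `kpCube`, `kbBin`, `k4fCube`: `rfl`); reorder the product (`mul_right_comm`). -/
theorem k4f_tan_ceiling (X : KpTan KbVer.two) (p : KpPrm) (hell : p.ell = 0) (τ : ℝ) (hX : X.Ok p τ) (β : ℝ) (hβ : X.N ^ (-1 / τ) ≤ β) (hβ1 : β ≤ 1)
    (γ : X.P.W) (e : (X.Q X.G).C) (T₁ : ℝ) (A : Set (Fin 2 → ℝ)) (hA : ∀ v ∈ A, ∀ i, |v i| ≤ T₁) :
    X.P.mu γ (k4fSe X γ e ∩ {x | k4fVl X γ x ∈ A}) ≤ ENNReal.ofReal (X.N ^ τ) * k4fPal X γ (k4fThick A (kbDy β)) * k4fRef X γ e := by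
  by_cases hw : (X.Q X.G).wd e = γ
  · subst hw
    have hSe : k4fSe X ((X.Q X.G).wd e) e = (X.Q X.G).S e := by
      ext x; simp [k4fSe]
    have hRef : k4fRef X ((X.Q X.G).wd e) e = X.ref e := by simp [k4fRef]
    rw [hSe, hRef]
    have hpv : ∀ V : KbB KbVer.two, kpPv p V = V := by
      intro V
      unfold kpPv
      rw [if_neg (by rw [hell]; exact lt_irrefl 0)]
    have key := k4f_transfer (ι := Fin 2) (X.P.mu ((X.Q X.G).wd e)) (k4fPal X ((X.Q X.G).wd e)) (k4fVl X ((X.Q X.G).wd e)) ((X.Q X.G).S e)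
      (ENNReal.ofReal (X.N ^ τ) * X.ref e) (kbDy β) (k2a_dy_pos β) (by
        intro b
        have := hX.joint β hβ hβ1 e b
        simp only [hpv] at this
        calc _ ≤ ENNReal.ofReal (X.N ^ τ) * X.pal ((X.Q X.G).wd e) (kpCube β b) * X.ref e := this
          _ = ENNReal.ofReal (X.N ^ τ) * X.ref e * k4fPal X ((X.Q X.G).wd e) (k4fCube (kbDy β) b) := by
              rw [mul_right_comm]; rfl) T₁ A hA
    calc _ ≤ ENNReal.ofReal (X.N ^ τ) * X.ref e * k4fPal X ((X.Q X.G).wd e) (k4fThick A (kbDy β)) := key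
      _ = _ := by rw [mul_right_comm]
  · have hSe : k4fSe X γ e = ∅ := by
      ext x; simp [k4fSe, hw]
    rw [hSe, Set.empty_inter, measure_empty]
    exact zero_le

/-- **L-252-S4F-T2** (~50 l.).  `k4fBox c ρ = Metric.closedBall c ρ` (`closedBall_pi _ hρ0`, `Real.closedBall_eq_Icc` or `dist_pi_le_iff`, `Real.dist_eq`); `hX.pal_cap`; `Measure.real`, `ENNReal.toReal_le_of_le_ofReal`. -/
theorem k4f_tan_cap (X : KpTan KbVer.two) (p : KpPrm) (τ : ℝ) (hX : X.Ok p τ) (γ : X.P.W) (ρ : ℝ) (hρ : X.N ^ (-1 / τ) ≤ ρ) (hρ1 : ρ ≤ 1) (c : Fin 2 → ℝ) :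
    (k4fPal X γ).real (k4fBox c ρ) ≤ X.N ^ τ * ρ ^ p.S := by
  have hN : 0 < X.N := by linarith [hX.N_two]
  have hρ0 : 0 < ρ := lt_of_lt_of_le (Real.rpow_pos_of_pos hN _) hρ
  have hbox : k4fBox c ρ = Metric.closedBall c ρ := by
    ext v
    simp only [k4fBox, Set.mem_ofPred_eq, Metric.mem_closedBall, dist_pi_le_iff hρ0.le, Real.dist_eq]
  have h := hX.pal_cap γ ρ hρ hρ1 c
  rw [hbox]
  exact ENNReal.toReal_le_of_le_ofReal (by positivity) h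

/-- **L-252-S4F-T3** (this and the next two statements, ~80 l.).  `KpTan.vl`, `kbV`; `hP.co_meas`;   `hT.base` at `t = x.2` (`hP.Ev_sub`), `norm_le_pi_norm`;   `hX.cover X.G le_rfl γ`, `KbSys.sel`, `Set.mem_iUnion`. -/
theorem k4f_tan_vel_meas (X : KpTan KbVer.two) (hP : X.P.WF) (γ : X.P.W) : Measurable (k4fVl X γ) := by
  have h := hP.co_meas γ
  show Measurable fun x : X.P.Lam × ℝ => (X.P.co γ x.1).2.1
  exact ((h.comp measurable_fst).snd).fst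

theorem k4f_tan_vel_box (X : KpTan KbVer.two) (hP : X.P.WF) (T : ℝ) (hT : X.P.Ntv T) (γ : X.P.W) (x : X.P.Lam × ℝ) (hx : x ∈ X.P.Ev γ) : k4fVl X γ x ∈ k4fBox 0 T := by
  have hx' := hP.Ev_sub γ hx
  have hb := hT.base γ x.1 hx'.1 x.2 hx'.2
  intro i
  have h1 : ‖kbV (X.P.co γ x.1)‖ ≤ T := by
    have := norm_nonneg (kbY (X.P.co γ x.1) x.2)
    linarith
  have h2 : ‖kbV (X.P.co γ x.1) i‖ ≤ ‖kbV (X.P.co γ x.1)‖ := norm_le_pi_norm _ i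
  simp only [Pi.zero_apply, sub_zero]
  exact (h2.trans h1)

theorem k4f_tan_cover (X : KpTan KbVer.two) (p : KpPrm) (τ : ℝ) (hX : X.Ok p τ) (γ : X.P.W) : X.P.Ev γ ⊆ ⋃ e, k4fSe X γ e := by
  intro x hx
  have := hX.cover X.G le_rfl γ hx
  simp only [KbSys.sel, Set.mem_iUnion] at this
  obtain ⟨e, he, hxe⟩ := this
  exact Set.mem_iUnion.2 ⟨e, he, hxe⟩

/-- **L-252-S4F-T4** (~40 l.).  `l := ⟨n, b⟩`; `n ⬝ᵥ n = n 0 ^ 2 + n 1 ^ 2`, `n ⬝ᵥ V - b = l.ev V` (`dotProduct`, `Fin.sum_univ_two`; the index type is `Fin KbVer.two.j`, `= Fin 2` by `rfl`: start with `change`/`show`). -/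
theorem k4f_narrow_line (X : KpTan KbVer.two) (Rs : X.P.W → Set (X.P.Lam × ℝ)) {D : Type} (ℓ : X.P.Lab D) (κ w : ℝ) (γ : X.P.W) (d : D) (h : X.NarrowAt Rs ℓ κ w γ d) :
    ∃ l : K4fLine, l.IsUnit ∧ ENNReal.ofReal κ * X.P.mu γ (Rs γ ∩ ℓ γ ⁻¹' {d}) ≤ X.P.mu γ (Rs γ ∩ ℓ γ ⁻¹' {d} ∩ {x | k4fVl X γ x ∈ l.strip w}) := by
  obtain ⟨n, b, hn, hm⟩ := h
  have hdot : ∀ a c : Fin 2 → ℝ, a ⬝ᵥ c = a 0 * c 0 + a 1 * c 1 := by
    intro a c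
    simp [dotProduct, Fin.sum_univ_two]
  have h2 : k4fC n ⬝ᵥ k4fC n = 1 := hn
  rw [hdot] at h2
  refine ⟨⟨k4fC n, b⟩, ?_, ?_⟩
  · show k4fC n 0 ^ 2 + k4fC n 1 ^ 2 = 1
    nlinarith
  · refine hm.trans (le_of_eq ?_)
    congr 2
    ext x
    show |k4fC n ⬝ᵥ (k4fVl X γ x) - b| ≤ w ↔ |k4fC n 0 * k4fVl X γ x 0 + k4fC n 1 * k4fVl X γ x 1 - b| ≤ w
    rw [hdot]

/-- a heavy strip meets the box, so its offset is bounded -/
theorem k4f_offset (l : K4fLine) (hl : l.IsUnit) (w T : ℝ) (h : (l.strip w ∩ k4fBox 0 T).Nonempty) : |l.b| ≤ 2 * T + w := by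
  obtain ⟨v, hv, hvT⟩ := h
  have h0 := hvT 0
  have h1 := hvT 1
  simp only [Pi.zero_apply, sub_zero] at h0 h1
  have hv' : |l.n 0 * v 0 + l.n 1 * v 1 - l.b| ≤ w := hv
  have a0 : |l.n 0 * v 0| ≤ T := by
    rw [abs_mul]
    calc |l.n 0| * |v 0| ≤ 1 * T := mul_le_mul (k4f_unit_le hl 0) h0 (abs_nonneg _) (by norm_num)
      _ = T := one_mul T
  have a1 : |l.n 1 * v 1| ≤ T := by
    rw [abs_mul]
    calc |l.n 1| * |v 1| ≤ 1 * T := mul_le_mul (k4f_unit_le hl 1) h1 (abs_nonneg _) (by norm_num)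
      _ = T := one_mul T
  rw [abs_le] at *
  constructor <;> linarith [hv'.1, hv'.2, a0.1, a0.2, a1.1, a1.2]

/-! ## 3. The core -/

/-- what the failure of breadth produces -/
structure K4fOutOk (X : KpTan KbVer.two) (a : K4fPar) (r : ℕ) (Q : K4fPart X.P) (D : Type) (ℓ : X.P.Lab D) (occ : Finset D)
    (Λ : X.P.W → D → Finset (Fin 3 → ℤ)) : Prop where
  r_eq : Q.r = a.r₂
  ok : Q.Ok a.T a.η
  M_le : (Q.M : ℝ) ≤ 2 * a.T / a.r₂ + 2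
  card : ∀ γ, ((Q.ι γ).card : ℝ) ≤ 2 / a.κN ^ 2
  off : ∀ γ, ∀ β ∈ Q.ι γ, |(Q.hat γ β).b| ≤ 2 * a.T + 3
  act : X.Act r D ℓ
  occ : ∀ γ, ∀ x ∈ Q.Es γ, ℓ γ x ∈ occ
  Λ_card : ∀ γ d, ((Λ γ d).card : ℝ) ≤ 1458
  Λ_mem : ∀ γ, ∀ x ∈ Q.Es γ, ∃ β ∈ Λ γ (ℓ γ x), β ∈ Q.ι γ ∧ k4fC (kbV (X.P.co γ x.1)) ∈ Q.A γ β
  mass : ENNReal.ofReal (a.κ * a.ε / 2) * X.P.tot ≤ X.P.mass Q.Es


/-- summation over the parents -/
theorem k4f_sum_parents (P : KbPb KbVer.two) (hP : P.WF) (F G : P.W → ℝ≥0∞) (κ c : ℝ≥0∞) (R : P.W → ℝ≥0∞) (hR : ∀ γ, R γ ≤ 1) (C : P.W → ℝ≥0∞) (hC : ∀ γ, C γ ≤ c)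
    (h : ∀ γ, κ * F γ ≤ G γ + C γ * R γ) : κ * ∑ γ, P.om γ * F γ ≤ ∑ γ, P.om γ * G γ + c := by
  calc κ * ∑ γ, P.om γ * F γ = ∑ γ, P.om γ * (κ * F γ) := by
        rw [Finset.mul_sum]
        exact Finset.sum_congr rfl fun γ _ => by ring
    _ ≤ ∑ γ, P.om γ * (G γ + c) := by
        refine Finset.sum_le_sum fun γ _ => mul_le_mul_right ((h γ).trans (add_le_add_right ?_ _)) _
        calc C γ * R γ ≤ c * 1 := mul_le_mul' (hC γ) (hR γ)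
          _ = c := mul_one c
    _ = ∑ γ, P.om γ * G γ + (∑ γ, P.om γ) * c := by
        rw [Finset.sum_mul, ← Finset.sum_add_distrib]
        exact Finset.sum_congr rfl fun γ _ => by ring
    _ = ∑ γ, P.om γ * G γ + c := by rw [hP.om_sum, one_mul]

/-- the final arithmetic -/
theorem k4f_final (tot mE nar cst : ℝ≥0∞) (κ ε A : ℝ) (hκ : 0 < κ) (hε : 0 < ε) (hA : 0 < A) (htot : tot ≤ 1) (h1 : 1 ≤ ENNReal.ofReal A * tot)
    (hn : ENNReal.ofReal ε * tot < nar) (hs : ENNReal.ofReal κ * nar ≤ mE + cst) (hc : cst ≤ ENNReal.ofReal (κ * ε * A⁻¹ / 2)) :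
    ENNReal.ofReal (κ * ε / 2) * tot ≤ mE := by
  have htop : ENNReal.ofReal (κ * ε / 2) * tot ≠ ⊤ := ENNReal.mul_ne_top ENNReal.ofReal_ne_top (htot.trans_lt ENNReal.one_lt_top).ne
  have hc2 : cst ≤ ENNReal.ofReal (κ * ε / 2) * tot := by
    calc cst ≤ ENNReal.ofReal (κ * ε * A⁻¹ / 2) := hc
      _ = ENNReal.ofReal (κ * ε / 2) * ENNReal.ofReal A⁻¹ * 1 := by
          rw [mul_one, ← ENNReal.ofReal_mul (by positivity)]
          congr 1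
          ring
      _ ≤ ENNReal.ofReal (κ * ε / 2) * ENNReal.ofReal A⁻¹ * (ENNReal.ofReal A * tot) := mul_le_mul_right h1 _
      _ = ENNReal.ofReal (κ * ε / 2) * tot := by
          rw [mul_assoc, ← mul_assoc (ENNReal.ofReal A⁻¹), ← ENNReal.ofReal_mul (by positivity), inv_mul_cancel₀ hA.ne', ENNReal.ofReal_one, one_mul]
  have h2 : ENNReal.ofReal (κ * ε / 2) * tot + ENNReal.ofReal (κ * ε / 2) * tot ≤ mE + ENNReal.ofReal (κ * ε / 2) * tot := by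
    calc ENNReal.ofReal (κ * ε / 2) * tot + ENNReal.ofReal (κ * ε / 2) * tot = ENNReal.ofReal κ * (ENNReal.ofReal ε * tot) := by
          rw [← add_mul, ← ENNReal.ofReal_add (by positivity) (by positivity), ← mul_assoc, ← ENNReal.ofReal_mul hκ.le]
          congr 2
          ring
      _ ≤ ENNReal.ofReal κ * nar := mul_le_mul_right hn.le _
      _ ≤ mE + cst := hs
      _ ≤ mE + ENNReal.ofReal (κ * ε / 2) * tot := add_le_add_right hc2 _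
  exact (ENNReal.add_le_add_iff_right htop).1 h2

/-- **the one-scale core of `a03:breadth`** (version 2, `ell = 0`) -/
theorem k4f_core (X : KpTan KbVer.two) (p : KpPrm) (hell : p.ell = 0) (a : K4fPar) (hN : a.N = X.N) (hS : a.S = p.S) (ha : a.Hyp) (r : ℕ)
    (hX : X.Ok p a.τ) (hT : X.P.Ntv a.T) (hB : ¬ X.Brd a.κ a.u a.ε r (X.N ^ a.τ)) :
    ∃ (Q : K4fPart X.P) (D : Type) (ℓ : X.P.Lab D) (occ : Finset D) (Λ : X.P.W → D → Finset (Fin 3 → ℤ)), K4fOutOk X a r Q D ℓ occ Λ := by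
  classical
  have o := k4f_num a ha
  have hP := hX.wf
  unfold KpTan.Brd at hB
  push Not at hB
  obtain ⟨Rs, D, ℓ, hRes, hℓ, hAct, hAmb, hmass⟩ := hB
  choose L hLc hLs using hAmb
  -- the predicted lines
  have hline : ∀ γ d, ∃ l : K4fLine, l.IsUnit ∧ (X.NarrowAt Rs ℓ a.κ (X.N ^ (-a.u)) γ d →
      ENNReal.ofReal a.κ * X.P.mu γ (Rs γ ∩ ℓ γ ⁻¹' {d}) ≤ X.P.mu γ (Rs γ ∩ ℓ γ ⁻¹' {d} ∩ {x | k4fVl X γ x ∈ l.strip a.w})) := by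
    intro γ d
    by_cases hn : X.NarrowAt Rs ℓ a.κ (X.N ^ (-a.u)) γ d
    · obtain ⟨l, hl, hl2⟩ := k4f_narrow_line X Rs ℓ _ _ γ d hn
      refine ⟨l, hl, fun _ => ?_⟩
      have : a.w = X.N ^ (-a.u) := by rw [K4fPar.w, hN]
      rw [this]; exact hl2
    · exact ⟨⟨![1, 0], 0⟩, by simp [K4fLine.IsUnit], fun h => absurd h hn⟩
  choose lin hlinU hlinN using hline
  have hh : a.h = kbDy (X.N ^ (-a.u) / 4) := by rw [K4fPar.h, hN]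
  have hβ0 : X.N ^ (-1 / a.τ) ≤ X.N ^ (-a.u) / 4 := by rw [← hN]; exact o.β_lo
  have hβ1 : X.N ^ (-a.u) / 4 ≤ 1 := by rw [← hN]; exact o.β_hi
  have hr₂ : 0 < a.r₂ := lt_of_lt_of_le o.r₁_pos o.r₁₂
  have hT0 : 0 ≤ a.T := by linarith [ha.T_one]
  have hTT' : a.T ≤ a.T' := by rw [K4fPar.T']; linarith [o.h_pos]
  have hww' : a.w ≤ a.w' := by rw [K4fPar.w']; linarith [o.h_pos]
  set occ : Finset D := Finset.univ.biUnion L with hocc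
  set c : ℝ≥0∞ := ENNReal.ofReal (X.N ^ a.τ) with hc
  set pw : X.P.W → D → ℝ≥0∞ := fun γ d => k4fPal X γ ((lin γ d).strip a.w' ∩ k4fBox 0 a.T') with hpw
  set κN' : ℝ≥0∞ := ENNReal.ofReal a.κN with hκN'
  set H : X.P.W → Finset K4fLine := fun γ => (occ.filter (fun d => κN' ≤ pw γ d)).image (lin γ) with hH
  have hprob : ∀ γ, IsProbabilityMeasure (k4fPal X γ) := hX.pal_prob
  have hHunit : ∀ γ, ∀ l ∈ H γ, l.IsUnit := by
    intro γ l hl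
    obtain ⟨d, -, rfl⟩ := Finset.mem_image.1 hl
    exact hlinU γ d
  have hheavy : ∀ γ, ∀ l ∈ H γ, a.κN ≤ (k4fPal X γ).real (l.strip a.w' ∩ k4fBox 0 a.T') := by
    intro γ l hl
    obtain ⟨d, hd, rfl⟩ := Finset.mem_image.1 hl
    exact (ENNReal.ofReal_le_iff_le_toReal (measure_ne_top _ _)).1 (Finset.mem_filter.1 hd).2
  have hcap₁ : ∀ γ c, (k4fPal X γ).real (k4fBox c a.ρ₁) ≤ a.δ₁ := by
    intro γ c
    have := k4f_tan_cap X p a.τ hX γ a.ρ₁ (by rw [← hN]; exact o.ρ₁_lo) o.ρ₁_hi c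
    rwa [← hN, ← hS] at this
  have hcap₂ : ∀ γ c, (k4fPal X γ).real (k4fBox c a.ρ₂) ≤ a.δ₂ := by
    intro γ c
    have := k4f_tan_cap X p a.τ hX γ a.ρ₂ (by rw [← hN]; exact o.ρ₂_lo) o.ρ₂_hi c
    rwa [← hN, ← hS] at this
  have hpart := fun γ => k4f_partition (k4fPal X γ) (by rw [probReal_univ]) (H γ) (hHunit γ) a.T' a.w' a.r₁ a.r₂ a.h a.ρ₁ a.δ₁ a.ρ₂ a.δ₂ a.κN
    (hT0.trans hTT') (o.w_pos.le.trans hww') o.h_pos.le o.r₁_pos o.r₁₂ o.wr le_rfl (hcap₁ γ) o.κN_pos (hheavy γ) o.d1 o.Wr le_rfl (hcap₂ γ)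
  choose ι hat A Bad Λ hcard hhatH hAm hAd hAs hBm hBs hBth hΛc hΛι hfind using hpart
  -- one parent
  have hSeEv : ∀ γ e x, x ∈ k4fSe X γ e → x ∈ X.P.Ev γ := by
    rintro γ e x ⟨rfl, hx⟩
    exact ((hX.sys_wf X.G le_rfl).S_sub e hx).1
  have hcov : ∀ γ, Rs γ ⊆ ⋃ e, k4fSe X γ e := fun γ => (hRes γ).2.trans (k4f_tan_cover X p a.τ hX γ)
  have hL' : ∀ e, ((L e).card : ℝ≥0∞) ≤ c := by
    intro e
    rw [hc, ← ENNReal.ofReal_natCast]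
    exact ENNReal.ofReal_le_ofReal (hLc e)
  have hLs' : ∀ γ e, ∀ x ∈ Rs γ ∩ k4fSe X γ e, ℓ γ x ∈ L e := by
    rintro γ e x ⟨hx, rfl, hxS⟩
    exact hLs e x ⟨hx, hxS⟩
  have h1 : ∀ γ e d, X.P.mu γ (k4fSe X γ e ∩ {x | k4fVl X γ x ∈ (lin γ d).strip a.w}) ≤ c * pw γ d * k4fRef X γ e := by
    intro γ e d
    calc X.P.mu γ (k4fSe X γ e ∩ {x | k4fVl X γ x ∈ (lin γ d).strip a.w})
        ≤ X.P.mu γ (k4fSe X γ e ∩ {x | k4fVl X γ x ∈ (lin γ d).strip a.w ∩ k4fBox 0 a.T}) :=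
          measure_mono fun x hx => ⟨hx.1, hx.2, k4f_tan_vel_box X hP a.T hT γ x (hSeEv γ e x hx.1)⟩
      _ ≤ c * k4fPal X γ (k4fThick ((lin γ d).strip a.w ∩ k4fBox 0 a.T) (kbDy (X.N ^ (-a.u) / 4))) * k4fRef X γ e :=
          k4f_tan_ceiling X p hell a.τ hX _ hβ0 hβ1 γ e a.T _ fun v hv i => by simpa using hv.2 i
      _ ≤ c * pw γ d * k4fRef X γ e := by
          rw [← hh]
          exact mul_le_mul_left (mul_le_mul_right (measure_mono (k4f_thick_strip _ (hlinU γ d) _ _ _)) _) _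
  have h2 : ∀ γ e, X.P.mu γ (k4fSe X γ e ∩ {x | k4fVl X γ x ∈ Bad γ}) ≤ c * k4fPal X γ (k4fThick (Bad γ) a.h) * k4fRef X γ e := by
    intro γ e
    rw [hh]
    exact k4f_tan_ceiling X p hell a.τ hX _ hβ0 hβ1 γ e a.T' _ fun v hv i => by simpa using hBs γ hv i
  have hpar := fun γ => k4f_parent (X.P.mu γ) (k4fVl X γ) (k4f_tan_vel_meas X hP γ) (ℓ γ) (hℓ γ) (Rs γ) (hRes γ).1 (k4fSe X γ) (hcov γ) (k4fRef X γ) L c hL'
    (hLs' γ) c (fun d => (lin γ d).strip a.w) (fun d => k4f_strip_meas _ _) (pw γ) (h1 γ) {d | X.NarrowAt Rs ℓ a.κ (X.N ^ (-a.u)) γ d} (ENNReal.ofReal a.κ)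
    (fun d hd => hlinN γ d hd) κN' (Bad γ) (hBm γ) (k4fPal X γ (k4fThick (Bad γ) a.h)) (h2 γ)
  set Es : X.P.W → Set (X.P.Lam × ℝ) := fun γ => k4fEs (k4fVl X γ) (ℓ γ) (Rs γ) (fun d => (lin γ d).strip a.w) {d | X.NarrowAt Rs ℓ a.κ (X.N ^ (-a.u)) γ d}
    {d | κN' ≤ pw γ d} (Bad γ) with hEs
  have hoccm : ∀ γ, ∀ x ∈ Rs γ, ℓ γ x ∈ occ := by
    intro γ x hx
    obtain ⟨e, he⟩ := Set.mem_iUnion.1 (hcov γ hx)
    exact Finset.mem_biUnion.2 ⟨e, Finset.mem_univ _, hLs' γ e x ⟨hx, he⟩⟩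
  have hboxm : k4fBox 0 a.T ⊆ k4fBox 0 a.T' := fun v hv i => (hv i).trans hTT'
  refine ⟨{ r := a.r₂, M := ⌈2 * a.T / a.r₂ + 1⌉₊, ι := ι, hat := hat, A := A, Es := Es }, D, ℓ, occ, fun γ d => Λ γ (lin γ d), ?_⟩
  refine ⟨rfl, ⟨hr₂, o.r₂_le, Nat.le_ceil _, fun γ β hβ => hHunit γ _ (hhatH γ β hβ), hAm, hAd, fun γ β hβ v hv => hAs γ β hβ ⟨hv.1, hboxm hv.2⟩,
    fun γ => (hpar γ).1, fun γ x hx => (hRes γ).2 hx.1⟩, ?_, hcard, ?_, hAct, fun γ x hx => hoccm γ x hx.1, fun γ d => hΛc γ _, ?_, ?_⟩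
  · have : (0 : ℝ) ≤ 2 * a.T / a.r₂ + 1 := by positivity
    have := Nat.ceil_lt_add_one this
    show ((⌈2 * a.T / a.r₂ + 1⌉₊ : ℕ) : ℝ) ≤ _
    linarith
  · intro γ β hβ
    have hl := hhatH γ β hβ
    have hne : ((hat γ β).strip a.w' ∩ k4fBox 0 a.T').Nonempty := by
      by_contra hcon
      have h0 := hheavy γ _ hl
      rw [Set.not_nonempty_iff_eq_empty.1 hcon, measureReal_empty] at h0
      linarith [o.κN_pos]
    have := k4f_offset _ (hHunit γ _ hl) _ _ hne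
    show |(hat γ β).b| ≤ _
    rw [K4fPar.T', K4fPar.w'] at this
    linarith [o.h_le, o.w_le]
  · rintro γ x ⟨hxR, hxN, hxH, hxS, hxB⟩
    have hmem : lin γ (ℓ γ x) ∈ H γ := Finset.mem_image.2 ⟨ℓ γ x, Finset.mem_filter.2 ⟨hoccm γ x hxR, hxH⟩, rfl⟩
    have hV : k4fVl X γ x ∈ (lin γ (ℓ γ x)).strip a.w' ∩ k4fBox 0 a.T' :=
      ⟨le_trans (show |(lin γ (ℓ γ x)).ev (k4fVl X γ x)| ≤ a.w from hxS) hww', hboxm (k4f_tan_vel_box X hP a.T hT γ x ((hRes γ).2 hxR))⟩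
    obtain ⟨β, hβ, hVA⟩ := hfind γ _ hmem _ hV hxB
    exact ⟨β, hβ, hΛι γ _ hβ, hVA⟩
  · have hA0 : 0 < X.N ^ a.τ := Real.rpow_pos_of_pos (by linarith [hX.N_two]) _
    have hC : ∀ γ, c * c * κN' + c * k4fPal X γ (k4fThick (Bad γ) a.h) ≤ ENNReal.ofReal (a.N ^ a.τ * a.N ^ a.τ * a.κN + a.N ^ a.τ * ((2 / a.κN ^ 2) ^ 2 * a.δ₂)) := by
      intro γ
      have hδ : 0 ≤ (2 / a.κN ^ 2) ^ 2 * a.δ₂ := measureReal_nonneg.trans (hBth γ)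
      have hb : k4fPal X γ (k4fThick (Bad γ) a.h) ≤ ENNReal.ofReal ((2 / a.κN ^ 2) ^ 2 * a.δ₂) := by
        rw [← ofReal_measureReal (measure_ne_top _ _)]
        exact ENNReal.ofReal_le_ofReal (hBth γ)
      rw [hN, ENNReal.ofReal_add (by have := o.κN_pos; positivity) (by positivity), ENNReal.ofReal_mul (by positivity), ENNReal.ofReal_mul hA0.le,
        ENNReal.ofReal_mul hA0.le]
      exact add_le_add_right (mul_le_mul_right hb _) _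
    have hsum := k4f_sum_parents X.P hP (fun γ => X.P.mu γ (Rs γ ∩ {x | ℓ γ x ∈ {d | X.NarrowAt Rs ℓ a.κ (X.N ^ (-a.u)) γ d}})) (fun γ => X.P.mu γ (Es γ))
      (ENNReal.ofReal a.κ) _ (fun γ => ∑ e, k4fRef X γ e) (fun γ => hX.ref_sum γ) _ hC (fun γ => (hpar γ).2)
    refine k4f_final X.P.tot (X.P.mass Es) _ _ a.κ a.ε (X.N ^ a.τ) ha.κ_pos ha.ε_pos hA0 (k2a_tot_le hP) hX.ntv.mass hmass hsum ?_
    refine ENNReal.ofReal_le_ofReal ?_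
    have := o.d2
    rw [Real.rpow_neg (by linarith [ha.N_two])] at this
    rw [← hN]
    exact this

/-! ## 4. The output atlas of a guarded sample -/

/-- **L-252-S4F-A1** (~90 l.).  Composition of lists THROUGH FINITELY MANY STATES (`occ`; `D` may be uncountable, so the union in the measurability clause must be finite).
`Lst γ d₀ o := ((Lst₁ γ d₀ o).filter (· ∈ occ)).biUnion fun d => Lst₂ γ d o` (classical).  `Finset.card_biUnion_le`, `Finset.sum_le_card_nsmul`, `Finset.card_filter_le`.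
`{o | c ∈ Lst γ d₀ o} = ⋃ d ∈ occ, {o | d ∈ Lst₁ γ d₀ o} ∩ {o | c ∈ Lst₂ γ d o}` (`Finset.measurableSet_biUnion`). -/
theorem k4f_known_comp {v : KbVer} (P : KbPb v) (Y : KbSys P) {D₀ D : Type} (ℓ₀ : P.Lab D₀) (ℓ : P.Lab D) (K₁ K₂ : ℝ) (occ : Finset D) (hK₂ : 0 ≤ K₂)
    (h1 : kpKnown P ℓ₀ ℓ K₁) (h2 : Y.Known ℓ K₂) (hS : ∀ c, Y.S c ⊆ P.Ev (Y.wd c)) (hocc : ∀ c, ∀ x ∈ Y.S c, ℓ (Y.wd c) x ∈ occ) : Y.Known ℓ₀ (K₁ * K₂) := by
  classical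
  obtain ⟨L₁, a1, a2, a3⟩ := h1
  obtain ⟨L₂, b1, b2, b3⟩ := h2
  refine ⟨fun γ d₀ o => ((L₁ γ d₀ o).filter (· ∈ occ)).biUnion fun d => L₂ γ d o, ?_, ?_, ?_⟩
  · intro γ d₀ o
    have c1 : ((((L₁ γ d₀ o).filter (· ∈ occ)).biUnion fun d => L₂ γ d o).card : ℝ) ≤ ∑ d ∈ (L₁ γ d₀ o).filter (· ∈ occ), ((L₂ γ d o).card : ℝ) := by
      exact_mod_cast Finset.card_biUnion_le
    have c2 : ∑ d ∈ (L₁ γ d₀ o).filter (· ∈ occ), ((L₂ γ d o).card : ℝ) ≤ ∑ _d ∈ (L₁ γ d₀ o).filter (· ∈ occ), K₂ :=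
      Finset.sum_le_sum fun d _ => b1 γ d o
    have c3 : (((L₁ γ d₀ o).filter (· ∈ occ)).card : ℝ) ≤ K₁ := by
      refine le_trans ?_ (a1 γ d₀ o)
      exact_mod_cast Finset.card_filter_le _ _
    calc _ ≤ ∑ _d ∈ (L₁ γ d₀ o).filter (· ∈ occ), K₂ := c1.trans c2
      _ = (((L₁ γ d₀ o).filter (· ∈ occ)).card : ℝ) * K₂ := by rw [Finset.sum_const, nsmul_eq_mul]
      _ ≤ K₁ * K₂ := mul_le_mul_of_nonneg_right c3 hK₂
  · intro γ d₀ c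
    have e : {o | c ∈ ((L₁ γ d₀ o).filter (· ∈ occ)).biUnion fun d => L₂ γ d o} = ⋃ d ∈ occ, {o | d ∈ L₁ γ d₀ o} ∩ {o | c ∈ L₂ γ d o} := by
      ext o
      simp only [Set.mem_ofPred_eq, Finset.mem_biUnion, Finset.mem_filter, Set.mem_iUnion, Set.mem_inter_iff, exists_prop]
      constructor
      · rintro ⟨d, ⟨hd1, hd2⟩, hc⟩
        exact ⟨d, hd2, hd1, hc⟩
      · rintro ⟨d, hd2, hd1, hc⟩
        exact ⟨d, ⟨hd1, hd2⟩, hc⟩
    rw [e]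
    exact Finset.measurableSet_biUnion _ fun d _ => (a2 γ d₀ d).inter (b2 γ d c)
  · intro c x hx
    exact Finset.mem_biUnion.2 ⟨ℓ (Y.wd c) x, Finset.mem_filter.2 ⟨a3 _ x (hS c hx), hocc c x hx⟩, b3 c x hx⟩

/-- **L-252-S4F-A2** (~120 l.).  `card`: `Fintype.card_sigma`, `Fintype.card_prod`, `Fintype.card_coe`, `Int.card_Icc` (`= 2M+1`), `Finset.sum_le_card_nsmul`.  `q = kbQ 0 = 1`.  `J = r` (`k4f_sys_J`).
`cen`: `pi_norm_le_iff_of_nonneg`; `|y0 i| ≤ (M r + bB / 2) * 1`, `|y1 i| ≤ bB` (`k4f_unit_le`, `|m| ≤ M` from `Finset.mem_Icc`). -/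
theorem k4f_sys_tmp {P : KbPb KbVer.two} (Q : K4fPart P) (T η : ℝ) (hQ : Q.Ok T η) (cB bB Qb : ℝ) (hcard : ∀ γ, ((Q.ι γ).card : ℝ) ≤ cB)
    (hoff : ∀ γ, ∀ β ∈ Q.ι γ, |(Q.hat γ β).b| ≤ bB) (h1 : (Fintype.card P.W : ℝ) * cB * (2 * Q.M + 1) ≤ Qb) (h2 : 1 ≤ Qb * Q.r) (h3 : Q.M * Q.r + 2 * bB ≤ Qb) (h4 : 1 ≤ Qb) :
    Q.sys.Tmp Qb := by
  have hM0 : (0 : ℝ) ≤ Q.M := Nat.cast_nonneg _
  refine ⟨?_, ?_, fun c => ?_, fun c => ?_⟩
  · refine le_trans ?_ h1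
    show ((Fintype.card Q.Lb : ℕ) : ℝ) ≤ _
    rw [Fintype.card_sigma]
    push_cast
    have e : ∀ γ : P.W, ((Fintype.card ({β // β ∈ Q.ι γ} × {m : ℤ // m ∈ Finset.Icc (-(Q.M : ℤ)) (Q.M : ℤ)}) : ℕ) : ℝ) ≤ cB * (2 * Q.M + 1) := by
      intro γ
      rw [Fintype.card_prod, Fintype.card_coe, Fintype.card_coe, Int.card_Icc]
      push_cast
      have e2 : (((Q.M : ℤ) + 1 - -(Q.M : ℤ)).toNat : ℝ) = 2 * Q.M + 1 := by
        have : ((Q.M : ℤ) + 1 - -(Q.M : ℤ)).toNat = 2 * Q.M + 1 := by omega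
        rw [this]; push_cast; ring
      rw [e2]
      exact mul_le_mul_of_nonneg_right (hcard γ) (by positivity)
    calc ∑ γ : P.W, ((Fintype.card ({β // β ∈ Q.ι γ} × {m : ℤ // m ∈ Finset.Icc (-(Q.M : ℤ)) (Q.M : ℤ)}) : ℕ) : ℝ)
        ≤ ∑ _γ : P.W, cB * (2 * Q.M + 1) := Finset.sum_le_sum fun γ _ => e γ
      _ = (Fintype.card P.W : ℝ) * cB * (2 * Q.M + 1) := by
          rw [Finset.sum_const, Finset.card_univ, nsmul_eq_mul]; ring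
  · have : Q.sys.q = 1 := by simp [KbSys.q, kbQ, k4f_sys_n]
    rw [this, mul_one]; exact h4
  · rw [k4f_sys_J Q T η hQ c]; exact h2
  · obtain ⟨γ, ⟨β, hβ⟩, ⟨m, hm⟩⟩ := c
    have hu := hQ.unit γ β hβ
    have hb := hoff γ β hβ
    have hbB : 0 ≤ bB := (abs_nonneg _).trans hb
    have hm' := Finset.mem_Icc.1 hm
    have hmM : |(m : ℝ)| ≤ Q.M := by
      rw [abs_le]
      constructor
      · have : (-(Q.M : ℤ) : ℤ) ≤ m := hm'.1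
        exact_mod_cast this
      · exact_mod_cast hm'.2
    have hr := hQ.r_pos
    have n0 : ‖(Q.sys.ch ⟨γ, ⟨β, hβ⟩, ⟨m, hm⟩⟩).y0‖ ≤ Q.M * Q.r + bB / 2 := by
      rw [pi_norm_le_iff_of_nonneg (by positivity)]
      intro i
      show ‖((m : ℝ) * Q.r - (Q.hat γ β).b / 2) * (Q.hat γ β).n i‖ ≤ _
      rw [Real.norm_eq_abs, abs_mul]
      have a1 : |(m : ℝ) * Q.r - (Q.hat γ β).b / 2| ≤ Q.M * Q.r + bB / 2 := by
        calc |(m : ℝ) * Q.r - (Q.hat γ β).b / 2| ≤ |(m : ℝ) * Q.r| + |(Q.hat γ β).b / 2| := abs_sub _ _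
          _ = |(m : ℝ)| * Q.r + |(Q.hat γ β).b| / 2 := by rw [abs_mul, abs_of_pos hr, abs_div]; norm_num
          _ ≤ Q.M * Q.r + bB / 2 := by nlinarith
      calc _ ≤ (Q.M * Q.r + bB / 2) * 1 := mul_le_mul a1 (k4f_unit_le hu i) (abs_nonneg _) (by positivity)
        _ = _ := mul_one _
    have n1 : ‖(Q.sys.ch ⟨γ, ⟨β, hβ⟩, ⟨m, hm⟩⟩).y1‖ ≤ bB := by
      rw [pi_norm_le_iff_of_nonneg hbB]
      intro i
      show ‖(Q.hat γ β).b * (Q.hat γ β).n i‖ ≤ _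
      rw [Real.norm_eq_abs, abs_mul]
      calc _ ≤ bB * 1 := mul_le_mul hb (k4f_unit_le hu i) (abs_nonneg _) hbB
        _ = _ := mul_one _
    linarith

/-- monotonicity of `Geo` in the slack -/
theorem k4f_geo_mono {v : KbVer} {P : KbPb v} (hP : P.WF) {Y : KbSys P} {K K' a : ℝ} (h : Y.Geo K a) (hK : K ≤ K') (ha : 0 ≤ a) : Y.Geo K' a := by
  have hq : 0 ≤ Y.q := by unfold KbSys.q kbQ; positivity
  refine ⟨fun c => (h.size c).trans (mul_le_mul_of_nonneg_left hK hq), fun c l hl t ht => (h.box c l hl t ht).trans hK,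
    fun c l hl t ht => (h.val c l hl t ht).trans (mul_le_mul_of_nonneg_right hK ha),
    fun c l hl t ht => (h.dw c l hl t ht).trans (mul_le_mul_of_nonneg_right hK (hP.B_pos _).le),
    fun c x hx => (h.dw_low c x hx).trans (mul_le_mul_of_nonneg_right hK (abs_nonneg _)),
    fun c t y w => (h.dww c t y w).trans (mul_le_mul_of_nonneg_right hK (by positivity))⟩

theorem k4f_known_mono {v : KbVer} {P : KbPb v} {Y : KbSys P} {D : Type} {ℓ : P.Lab D} {K K' : ℝ} (h : Y.Known ℓ K) (hK : K ≤ K') : Y.Known ℓ K' := by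
  obtain ⟨Lst, h1, h2, h3⟩ := h
  exact ⟨Lst, fun γ d o => (h1 γ d o).trans hK, h2, h3⟩

/-- the tolerance -/
structure K4fTol (τ κ u ε S : ℝ) (r : ℕ) : Prop where
  τ_pos : 0 < τ
  κ_pos : 0 < κ
  u_pos : 0 < u
  ε_pos : 0 < ε
  S_pos : 0 < S
  τS : τ * (100 + 12 * S) ≤ u * S
  τu : 16 * τ ≤ u
  τ1 : τ * (u + 4) ≤ 1
  τr : (r : ℝ) + 2 ≤ 1 / τ
  τ100 : 100 ≤ 1 / τ
  τκ : 2 / (κ * ε) ≤ 1 / τ

/-- the numbers of a guarded sample -/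
structure K4fSamNum (N0 eps Kp Mp Mg th τ : ℝ) (n : ℕ) : Prop where
  N0_pos : 0 < N0
  eps_pos : 0 < eps
  eps_le : eps ≤ τ
  th_le : th ≤ τ * eps
  stage : 1 / τ ≤ (n : ℝ)
  slack : (Kp * Real.log N0) ^ n ≤ (N0 ^ eps) ^ τ
  logN : 1 ≤ τ * Real.log N0
  Kp_two : 2 ≤ Kp
  Mp_one : 1 ≤ Mp
  Mg_ge : (2 : ℝ) ^ ((Mp + n) ^ 2) ≤ Mg

/-- what the verification of `Atl` uses -/
structure K4fSamOut (a : K4fPar) (N0 Kp Mp Mg th : ℝ) (n r : ℕ) : Prop where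
  geo : max (4 * a.T) (1 + a.η / (2 * a.r₂)) ≤ (Kp * Real.log N0) ^ n
  lst : (Kp * Real.log N0) ^ r * (1458 * (a.η / a.r₂ + 3)) ≤ (Kp * Real.log N0) ^ n
  card : ∀ cW M : ℝ, 0 ≤ cW → cW ≤ N0 ^ Mp → 0 ≤ M → M ≤ 2 * a.T / a.r₂ + 2 → cW * (2 / a.κN ^ 2) * (2 * M + 1) ≤ N0 ^ Mg
  jac : 1 ≤ N0 ^ Mg * a.r₂
  cen : ∀ M : ℝ, M ≤ 2 * a.T / a.r₂ + 2 → M * a.r₂ + 2 * (2 * a.T + 3) ≤ N0 ^ Mg
  one : 1 ≤ N0 ^ Mg
  mass : 2 / (a.κ * a.ε) ≤ Real.log N0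
  gain : N0 ^ th ≤ 1 / a.r₂

/-- **L-252-S4F-N2** (~60 l.): `Kp ≤ Kp log N₀ ≤ (Kp log N₀)^n ≤ (N₀^eps)^τ` (`log N₀ ≥ 1/τ ≥ 100`, `n ≥ 1/τ ≥ 1`, `le_self_pow₀`). -/
theorem k4f_sam_T (N0 eps Kp Mp Mg th τ : ℝ) (n : ℕ) (hτ : 0 < τ) (hτ100 : 100 ≤ 1 / τ) (h : K4fSamNum N0 eps Kp Mp Mg th τ n) : Kp ≤ (N0 ^ eps) ^ τ := by
  have hlog : 100 ≤ Real.log N0 := by
    have h1 := h.logN
    have h2 : 1 / τ ≤ Real.log N0 := by
      rw [div_le_iff₀ hτ]; linarith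
    linarith
  have hKp := h.Kp_two
  have hn : 1 ≤ n := by
    have h1 := h.stage
    have : (1 : ℝ) ≤ n := by linarith
    exact_mod_cast this
  have hX : 1 ≤ Kp * Real.log N0 := by nlinarith
  calc Kp ≤ Kp * Real.log N0 := le_mul_of_one_le_right (by linarith) (by linarith)
    _ ≤ (Kp * Real.log N0) ^ n := le_self_pow₀ hX (by omega)
    _ ≤ (N0 ^ eps) ^ τ := h.slack

/-- **L-252-S4F-N3** (~250 l., real numbers only).  `a = ⟨N₀^eps, τ, u, S, κ, ε, Kp⟩`, `A := a.N^τ`, `L := log N₀ ≥ 1/τ ≥ 100` (so `N₀ > 1`), `n ≥ 1/τ ≥ r + 2`.   `o.η_le : η/r₂ ≤ 2Kp + 3`.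
`geo`: `1 + (2Kp+3)/2 ≤ 4Kp ≤ Kp L ≤ (Kp L)^n`.   `lst`: `1458 (2Kp+6) ≤ 7290 Kp ≤ (Kp L)²`, `(Kp L)^r (Kp L)^2 ≤ (Kp L)^n` (`pow_le_pow_right₀`).
`card`: `2/κN² = 32 A⁶/(κε)² ≤ 32 A⁸ ≤ A⁹`, `2M+1 ≤ 9T/r₂ ≤ A²/r₂`, `A^{11}/r₂ = N₀^{eps (11τ + u/4)} ≤ N₀`, `Mp + 1 ≤ 1 + (Mp+n)² ≤ 2^{(Mp+n)²} ≤ Mg` (`one_add_mul_self_le_rpow_one_add`).
`jac`: `r₂ = N₀^{-eps u/4} ≥ N₀^{-1}`.   `cen`: `≤ 6T + 8 ≤ 10T ≤ A² ≤ N₀`.   `mass`: `τκ`.   `gain`: `th ≤ τ eps ≤ eps u/4`, `1/r₂ = N₀^{eps u/4}` (`Real.rpow_mul`, `Real.rpow_neg`). -/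
theorem k4f_sam_num (N0 eps Kp Mp Mg th τ κ u ε S : ℝ) (n r : ℕ) (ht : K4fTol τ κ u ε S r) (h : K4fSamNum N0 eps Kp Mp Mg th τ n)
    (ha : (K4fPar.mk (N0 ^ eps) τ u S κ ε Kp).Hyp) (o : (K4fPar.mk (N0 ^ eps) τ u S κ ε Kp).Out) :
    K4fSamOut (K4fPar.mk (N0 ^ eps) τ u S κ ε Kp) N0 Kp Mp Mg th n r := by
  have hτ := ht.τ_pos
  have hN0 := h.N0_pos
  have he := h.eps_pos
  have hu := ht.u_pos
  have hKp := h.Kp_two
  have hL1 : 1 / τ ≤ Real.log N0 := by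
    rw [div_le_iff₀ hτ, mul_comm]; exact h.logN
  have hL : 100 ≤ Real.log N0 := ht.τ100.trans hL1
  have hN1 : 1 ≤ N0 := by
    by_contra hcon
    have := Real.log_nonpos hN0.le (not_le.1 hcon).le
    linarith
  have hτ100 : τ ≤ 1 / 100 := by
    have := ht.τ100
    rw [le_div_iff₀ hτ] at this
    linarith
  have hmono : ∀ x y : ℝ, x ≤ y → N0 ^ x ≤ N0 ^ y := fun x y hxy => Real.rpow_le_rpow_of_exponent_le hN1 hxy
  have hadd : ∀ x y : ℝ, N0 ^ x * N0 ^ y = N0 ^ (x + y) := fun x y => (Real.rpow_add hN0 x y).symm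
  have hEpos : ∀ x : ℝ, 0 < N0 ^ x := fun x => Real.rpow_pos_of_pos hN0 x
  -- the stage
  have hn1 : (r : ℝ) + 2 ≤ n := ht.τr.trans h.stage
  have hn2 : r + 2 ≤ n := by exact_mod_cast hn1
  have hX : 200 ≤ Kp * Real.log N0 := by
    calc (200 : ℝ) = 2 * 100 := by norm_num
      _ ≤ Kp * Real.log N0 := mul_le_mul hKp hL (by norm_num) (by linarith)
  have h4K : 4 * Kp ≤ Kp * Real.log N0 := by
    calc 4 * Kp = Kp * 4 := by ring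
      _ ≤ Kp * Real.log N0 := mul_le_mul_of_nonneg_left (by linarith) (by linarith)
  have hX1 : 1 ≤ Kp * Real.log N0 := by linarith
  have hXn : Kp * Real.log N0 ≤ (Kp * Real.log N0) ^ n := le_self_pow₀ hX1 (by omega)
  -- the scales
  obtain ⟨A, hA⟩ : ∃ A, A = (N0 ^ eps) ^ τ := ⟨_, rfl⟩
  have hAE : A = N0 ^ (eps * τ) := by rw [hA, ← Real.rpow_mul hN0.le]
  have hA4 : 10 ^ 4 ≤ A := by rw [hA]; exact ha.big
  have hTA : Kp ≤ A := by rw [hA]; exact ha.T_le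
  have hcA : 1 / (κ * ε) ≤ A := by rw [hA]; exact ha.big'
  have hr₂ : (K4fPar.mk (N0 ^ eps) τ u S κ ε Kp).r₂ = N0 ^ (-(eps * u / 4)) := by
    show (N0 ^ eps) ^ (-(u / 4)) = _
    rw [← Real.rpow_mul hN0.le]
    congr 1; ring
  have hκN : (K4fPar.mk (N0 ^ eps) τ u S κ ε Kp).κN = κ * ε * (A ^ 3)⁻¹ / 4 := by
    show κ * ε * (N0 ^ eps) ^ (-(3 * τ)) / 4 = _
    congr 2
    rw [hAE, ← Real.rpow_mul hN0.le, ← Real.rpow_natCast, ← Real.rpow_mul hN0.le, ← Real.rpow_neg hN0.le]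
    congr 1; push_cast; ring
  have hTeq : (K4fPar.mk (N0 ^ eps) τ u S κ ε Kp).T = Kp := rfl
  obtain ⟨ρ, hρ⟩ : ∃ ρ, ρ = N0 ^ (eps * u / 4) := ⟨_, rfl⟩
  have hρr : N0 ^ (-(eps * u / 4)) = ρ⁻¹ := by rw [hρ, Real.rpow_neg hN0.le]
  have hρ1 : 1 ≤ ρ := by
    rw [hρ]
    exact Real.one_le_rpow hN1 (by positivity)
  have hρ0 : 0 < ρ := by linarith
  have hτu : τ * u ≤ 1 := by
    have h1 := ht.τ1
    have e : τ * (u + 4) = τ * u + 4 * τ := by ring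
    linarith
  have heu : eps * u ≤ 1 := le_trans (mul_le_mul_of_nonneg_right h.eps_le hu.le) hτu
  have heτ : eps * τ ≤ 1 / 10000 := by
    calc eps * τ ≤ τ * τ := mul_le_mul_of_nonneg_right h.eps_le hτ.le
      _ ≤ 1 / 100 * (1 / 100) := mul_le_mul hτ100 hτ100 hτ.le (by norm_num)
      _ = 1 / 10000 := by norm_num
  have hη := o.η_le
  rw [hTeq] at hη
  -- Mg
  have hMg : Mp + 2 ≤ Mg := by
    have hnn : (1 : ℝ) ≤ n := by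
      have : (0 : ℝ) ≤ r := Nat.cast_nonneg r
      linarith
    have hy : 1 ≤ Mp + n := by linarith [h.Mp_one]
    have hy2 : Mp + n ≤ (Mp + n) ^ 2 := le_self_pow₀ hy (by norm_num)
    have hx : Mp + 1 ≤ (Mp + n) ^ 2 := by linarith
    have hb := one_add_mul_self_le_rpow_one_add (s := (1 : ℝ)) (by norm_num) (p := (Mp + n) ^ 2) (by linarith)
    have e2 : (1 : ℝ) + 1 = 2 := by norm_num
    rw [e2, mul_one] at hb
    linarith [h.Mg_ge]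
  have hN0Mg : N0 ≤ N0 ^ Mg := by
    calc N0 = N0 ^ (1 : ℝ) := (Real.rpow_one N0).symm
      _ ≤ N0 ^ Mg := hmono _ _ (by linarith [h.Mp_one])
  have hA0 : 0 < A := by linarith
  refine ⟨?_, ?_, ?_, ?_, ?_, ?_, ?_, ?_⟩
  · -- geo
    refine le_trans (max_le ?_ ?_) hXn
    · rw [hTeq]; exact h4K
    · have e : (K4fPar.mk (N0 ^ eps) τ u S κ ε Kp).η / (2 * (K4fPar.mk (N0 ^ eps) τ u S κ ε Kp).r₂)
          = (K4fPar.mk (N0 ^ eps) τ u S κ ε Kp).η / (K4fPar.mk (N0 ^ eps) τ u S κ ε Kp).r₂ / 2 := by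
        rw [div_div, mul_comm]
      rw [e]
      linarith
  · -- lst
    have h1 : 1458 * ((K4fPar.mk (N0 ^ eps) τ u S κ ε Kp).η / (K4fPar.mk (N0 ^ eps) τ u S κ ε Kp).r₂ + 3) ≤ (Kp * Real.log N0) ^ 2 := by
      have : 7290 * Kp ≤ (Kp * Real.log N0) ^ 2 := by
        calc 7290 * Kp ≤ 200 * (Kp * 100) := by linarith
          _ ≤ (Kp * Real.log N0) * (Kp * Real.log N0) :=
            mul_le_mul hX (mul_le_mul_of_nonneg_left hL (by linarith)) (by linarith) (by linarith)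
          _ = (Kp * Real.log N0) ^ 2 := by ring
      linarith
    calc _ ≤ (Kp * Real.log N0) ^ r * (Kp * Real.log N0) ^ 2 := mul_le_mul_of_nonneg_left h1 (by positivity)
      _ = (Kp * Real.log N0) ^ (r + 2) := (pow_add _ _ _).symm
      _ ≤ _ := pow_le_pow_right₀ hX1 hn2
  · -- card
    intro cW M hcW0 hcW hM0 hM
    rw [hκN]
    rw [hTeq, hr₂, hρr] at hM
    have hκε : 0 < κ * ε := mul_pos ht.κ_pos ht.ε_pos
    obtain ⟨c, hc⟩ : ∃ c, c = 1 / (κ * ε) := ⟨_, rfl⟩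
    have hc0 : 0 < c := by rw [hc]; positivity
    have e1 : 2 / (κ * ε * (A ^ 3)⁻¹ / 4) ^ 2 = 32 * A ^ 6 * c ^ 2 := by
      rw [hc]
      field_simp
      ring
    rw [← hc] at hcA
    have b1 : 2 / (κ * ε * (A ^ 3)⁻¹ / 4) ^ 2 ≤ 32 * A ^ 8 := by
      rw [e1]
      have : c ^ 2 ≤ A ^ 2 := pow_le_pow_left₀ hc0.le hcA 2
      calc 32 * A ^ 6 * c ^ 2 ≤ 32 * A ^ 6 * A ^ 2 := mul_le_mul_of_nonneg_left this (by positivity)
        _ = 32 * A ^ 8 := by ring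
    have b2 : 2 * M + 1 ≤ 9 * A * ρ := by
      have e2 : 2 * Kp / ρ⁻¹ = 2 * Kp * ρ := by rw [div_inv_eq_mul]
      rw [e2] at hM
      have h3 : Kp * ρ ≤ A * ρ := mul_le_mul_of_nonneg_right hTA hρ0.le
      have h4 : 1 ≤ A * ρ := one_le_mul_of_one_le_of_one_le (by linarith) hρ1
      linarith
    have b3 : A ^ 10 * ρ ≤ N0 := by
      have e3 : A ^ 10 * ρ = N0 ^ (eps * τ * 10 + eps * u / 4) := by
        rw [hAE, hρ, ← Real.rpow_natCast, ← Real.rpow_mul hN0.le, hadd]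
        norm_num
      rw [e3]
      calc N0 ^ (eps * τ * 10 + eps * u / 4) ≤ N0 ^ (1 : ℝ) := hmono _ _ (by linarith)
        _ = N0 := Real.rpow_one N0
    have b0 : 0 ≤ 2 / (κ * ε * (A ^ 3)⁻¹ / 4) ^ 2 := by positivity
    calc cW * (2 / (κ * ε * (A ^ 3)⁻¹ / 4) ^ 2) * (2 * M + 1)
        ≤ N0 ^ Mp * (32 * A ^ 8) * (9 * A * ρ) := by
          refine mul_le_mul (mul_le_mul hcW b1 b0 (hEpos _).le) b2 (by linarith) (by positivity)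
      _ = N0 ^ Mp * (288 * A ^ 9 * ρ) := by ring
      _ ≤ N0 ^ Mp * (A ^ 10 * ρ) := by
          refine mul_le_mul_of_nonneg_left ?_ (hEpos _).le
          refine mul_le_mul_of_nonneg_right ?_ hρ0.le
          have : 288 * A ^ 9 ≤ A * A ^ 9 := mul_le_mul_of_nonneg_right (by linarith) (by positivity)
          calc 288 * A ^ 9 ≤ A * A ^ 9 := this
            _ = A ^ 10 := by ring
      _ ≤ N0 ^ Mp * N0 ^ (1 : ℝ) := by
          rw [Real.rpow_one]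
          exact mul_le_mul_of_nonneg_left b3 (hEpos _).le
      _ = N0 ^ (Mp + 1) := hadd _ _
      _ ≤ N0 ^ Mg := hmono _ _ (by linarith)
  · -- jac
    rw [hr₂, hadd]
    exact Real.one_le_rpow hN1 (by linarith [h.Mp_one])
  · -- cen
    intro M hM
    rw [hTeq, hr₂, hρr] at *
    have hρi : 0 < ρ⁻¹ := inv_pos.2 hρ0
    have hρi1 : ρ⁻¹ ≤ 1 := inv_le_one_of_one_le₀ hρ1
    have h1 : M * ρ⁻¹ ≤ (2 * Kp / ρ⁻¹ + 2) * ρ⁻¹ := mul_le_mul_of_nonneg_right hM hρi.le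
    have h2 : (2 * Kp / ρ⁻¹ + 2) * ρ⁻¹ = 2 * Kp + 2 * ρ⁻¹ := by
      field_simp
    have h3 : A ^ 2 ≤ N0 := by
      have e3 : A ^ 2 = N0 ^ (eps * τ * 2) := by
        rw [hAE, ← Real.rpow_natCast, ← Real.rpow_mul hN0.le]
        norm_num
      rw [e3]
      calc N0 ^ (eps * τ * 2) ≤ N0 ^ (1 : ℝ) := hmono _ _ (by linarith)
        _ = N0 := Real.rpow_one N0
    have h4 : 10 * A ≤ A ^ 2 := by
      calc 10 * A ≤ A * A := mul_le_mul_of_nonneg_right (by linarith) hA0.le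
        _ = A ^ 2 := by ring
    linarith
  · -- one
    exact Real.one_le_rpow hN1 (by linarith [h.Mp_one])
  · -- mass
    exact ht.τκ.trans hL1
  · -- gain
    rw [hr₂, hρr, one_div, inv_inv, hρ]
    refine hmono _ _ (h.th_le.trans ?_)
    have h1 : τ ≤ u / 4 := by linarith [ht.τu]
    calc τ * eps ≤ u / 4 * eps := mul_le_mul_of_nonneg_right h1 he.le
      _ = eps * u / 4 := by ring

theorem k4f_sam_of_ok (s : KpSam KbVer.two) (p : KpPrm) (τ : ℝ) (hτ : 0 < τ) (hs : s.Ok p τ) : K4fSamNum s.N0 s.eps s.Kp s.Mp s.Mg s.th τ s.n := by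
  have hlog : 1 ≤ τ * Real.log s.N0 := by
    have := hs.nodes
    have hG : (0 : ℝ) ≤ s.G := Nat.cast_nonneg _
    linarith
  have hlog0 : 0 < Real.log s.N0 := by
    by_contra hcon
    have : τ * Real.log s.N0 ≤ 0 := mul_nonpos_of_nonneg_of_nonpos hτ.le (not_lt.1 hcon)
    linarith
  have hN0 : 0 < s.N0 := by
    have h1 := hs.small
    have h2 : 0 < s.Kp * Real.log s.N0 := mul_pos (by linarith [hs.Kp_one]) hlog0
    by_contra hcon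
    have : τ * s.N0 ≤ 0 := mul_nonpos_of_nonneg_of_nonpos hτ.le (not_lt.1 hcon)
    linarith
  exact ⟨hN0, hs.eps_pos, hs.eps_le, hs.th_le, hs.stage, hs.slack, hlog, hs.Kp_one, hs.Mp_one, hs.Mg_ge⟩

/-- **breadth at one guarded sample** (version 2, `ell = 0`) -/
theorem k4f_sample (s : KpSam KbVer.two) (p : KpPrm) (hell : p.ell = 0) (τ κ u ε : ℝ) (r : ℕ) (ht : K4fTol τ κ u ε p.S r) (hs : s.Ok p τ)
    (hbig : 10 ^ 4 ≤ (s.N0 ^ s.eps) ^ τ) (hbig' : 1 / (κ * ε) ≤ (s.N0 ^ s.eps) ^ τ) : s.tan.Brd κ u ε r (s.tan.N ^ τ) := by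
  by_contra hB
  have hn := k4f_sam_of_ok s p τ ht.τ_pos hs
  set a : K4fPar := K4fPar.mk (s.N0 ^ s.eps) τ u p.S κ ε s.Kp with ha_def
  have ha : a.Hyp := ⟨hs.tan.N_two, ht.τ_pos, ht.u_pos, ht.S_pos, ht.κ_pos, ht.ε_pos, by linarith [hs.Kp_one],
    k4f_sam_T _ _ _ _ _ _ _ _ ht.τ_pos ht.τ100 hn, hbig, hbig', ht.τS, ht.τu, ht.τ1⟩
  have o := k4f_num a ha
  have so := k4f_sam_num s.N0 s.eps s.Kp s.Mp s.Mg s.th τ κ u ε p.S s.n r ht hn ha o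
  obtain ⟨Q, D, ℓ, occ, Λ, hQ⟩ : ∃ (Q : K4fPart s.P) (D : Type) (ℓ : s.P.Lab D) (occ : Finset D) (Λ : s.P.W → D → Finset (Fin 3 → ℤ)),
      K4fOutOk s.tan a r Q D ℓ occ Λ := k4f_core s.tan p hell a rfl rfl ha r hs.tan hs.ntv hB
  have hP : s.P.WF := hs.tan.wf
  have hη0 : 0 ≤ a.η := by
    have h1 := o.h_pos; have h2 := o.w_pos; have h3 := o.r₁_pos; have h4 : 0 < a.r₂ := lt_of_lt_of_le o.r₁_pos o.r₁₂
    have h5 : 0 ≤ a.T := by linarith [ha.T_one]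
    simp only [K4fPar.η, K4fPar.W, K4fPar.w', K4fPar.T']
    positivity
  have hwf : Q.sys.WF := k4f_sys_wf Q hP a.T a.η hQ.ok
  have hgeo : Q.sys.Geo s.Ks 1 := by
    have := k4f_sys_geo Q hP a.T a.η ha.T_one hs.ntv hQ.ok
    rw [hQ.r_eq] at this
    exact k4f_geo_mono hP this so.geo zero_le_one
  have hkn : Q.sys.Known (s.P.hid s.aL) s.Ks := by
    have h1 := k4f_sys_known Q hP a.T a.η hs.ntv hQ.ok hη0 ℓ Λ 1458 hQ.Λ_card (fun γ x hx => by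
      obtain ⟨β, hβ, -, hV⟩ := hQ.Λ_mem γ x hx
      exact ⟨β, hβ, hV⟩)
    rw [hQ.r_eq] at h1
    have hr₂ : 0 < a.r₂ := lt_of_lt_of_le o.r₁_pos o.r₁₂
    have h2 := k4f_known_comp s.P Q.sys (s.P.hid s.aL) ℓ _ _ occ (by positivity) hQ.act h1 (fun c x hx => (hwf.S_sub c hx).1) (fun c x hx => hQ.occ _ x hx.1)
    exact k4f_known_mono h2 so.lst
  have htmp : Q.sys.Tmp (s.N0 ^ s.Mg) := by
    refine k4f_sys_tmp Q a.T a.η hQ.ok _ _ _ hQ.card hQ.off (so.card _ _ (Nat.cast_nonneg _) hs.tmp.card (Nat.cast_nonneg _) hQ.M_le) ?_ ?_ so.one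
    · rw [hQ.r_eq]; exact so.jac
    · rw [hQ.r_eq]; exact so.cen _ hQ.M_le
  have hmass : s.P.tot ≤ ENNReal.ofReal (Real.log s.N0) * Q.sys.mass := by
    have h1 : ENNReal.ofReal (κ * ε / 2) * s.P.tot ≤ Q.sys.mass := hQ.mass.trans (k4f_sys_mass Q hP a.T a.η hs.ntv hQ.ok (fun γ x hx => by
      obtain ⟨β, -, hβ, hV⟩ := hQ.Λ_mem γ x hx
      exact ⟨β, hβ, hV⟩))
    have hκε : 0 < κ * ε := mul_pos ht.κ_pos ht.ε_pos
    calc s.P.tot = ENNReal.ofReal (2 / (κ * ε)) * (ENNReal.ofReal (κ * ε / 2) * s.P.tot) := by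
          rw [← mul_assoc, ← ENNReal.ofReal_mul (by positivity)]
          have : 2 / (κ * ε) * (κ * ε / 2) = 1 := by
            rw [div_mul_div_comm, mul_comm 2, div_self (mul_pos hκε two_pos).ne']
          rw [this, ENNReal.ofReal_one, one_mul]
      _ ≤ ENNReal.ofReal (Real.log s.N0) * Q.sys.mass := mul_le_mul' (ENNReal.ofReal_le_ofReal so.mass) h1
  have hatl : s.Atl Q.sys 0 := ⟨hwf, by rw [neg_zero, Real.rpow_zero]; exact hgeo, hkn, htmp, hmass⟩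
  have hq : Q.sys.q = 1 := by simp [KbSys.q, kbQ, k4f_sys_n]
  obtain ⟨-, hg⟩ := hs.guard Q.sys 0 le_rfl (by linarith [hs.Lr_lo]) hatl
  have hN1 : 1 ≤ s.N0 := by
    by_contra hcon
    have := Real.log_nonpos hn.N0_pos.le (not_le.1 hcon).le
    have h2 := hn.logN
    nlinarith [ht.τ_pos]
  obtain ⟨c, hc⟩ := hg rfl (by
    rw [hq]
    exact Real.rpow_le_one_of_one_le_of_nonpos hN1 (by linarith [hs.thc_pos]))
  rw [hq, k4f_sys_J Q a.T a.η hQ.ok c, hQ.r_eq, hell, zero_mul, zero_add, one_pow] at hc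
  exact absurd so.gain (not_le.2 hc)

/-! ## 5. Version 1, and the exit -/

theorem k4f_one_num (N τ κ u ε S : ℝ) (r : ℕ) (ht : K4fTol τ κ u ε S r) (hN : 2 ≤ N) (hbig : 10 ^ 4 ≤ N ^ τ) (hbig' : 1 / (κ * ε) ≤ N ^ τ) :
    N ^ (-1 / τ) ≤ N ^ (-u) / 4 ∧ N ^ (-u) / 4 ≤ 1 ∧ N ^ (-1 / τ) ≤ N ^ (-u) + kbDy (N ^ (-u) / 4) ∧ N ^ (-u) + kbDy (N ^ (-u) / 4) ≤ 1 ∧
      N ^ τ * N ^ τ * (2 * (N ^ τ * (N ^ (-u) + kbDy (N ^ (-u) / 4)) ^ S)) ≤ κ * ε * (N ^ τ)⁻¹ := by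
  have hτ := ht.τ_pos
  have hu := ht.u_pos
  have hS := ht.S_pos
  have hN0 : 0 < N := by linarith
  have hN1 : 1 ≤ N := by linarith
  have hmono : ∀ x y : ℝ, x ≤ y → N ^ x ≤ N ^ y := fun x y hxy => Real.rpow_le_rpow_of_exponent_le hN1 hxy
  have hadd : ∀ x y : ℝ, N ^ x * N ^ y = N ^ (x + y) := fun x y => (Real.rpow_add hN0 x y).symm
  obtain ⟨A, hA⟩ : ∃ A, A = N ^ τ := ⟨_, rfl⟩
  obtain ⟨w, hw⟩ : ∃ w, w = N ^ (-u) := ⟨_, rfl⟩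
  obtain ⟨h, hh⟩ : ∃ h, h = kbDy (w / 4) := ⟨_, rfl⟩
  rw [← hA, ← hw, ← hh]
  rw [← hA] at hbig hbig'
  have hw0 : 0 < w := by rw [hw]; exact Real.rpow_pos_of_pos hN0 _
  have hA0 : 0 < A := by linarith
  obtain ⟨hh1, hh2⟩ := k2a_dy_bounds (x := w / 4) (by linarith)
  rw [← hh] at hh1 hh2
  have hwA : w ≤ A⁻¹ := by
    rw [hw, hA, ← Real.rpow_neg hN0.le]
    exact hmono _ _ (by linarith [ht.τu])
  have hAi : A⁻¹ ≤ 1 / 10 ^ 4 := by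
    rw [one_div]
    exact inv_anti₀ (by norm_num) hbig
  have h1 : N ^ (-1 / τ) ≤ w / 4 := by
    have e1 : u + 4 ≤ 1 / τ := by
      rw [le_div_iff₀ hτ, mul_comm]; exact ht.τ1
    have e2 : N ^ (-1 / τ) ≤ N ^ (-u + -4) := hmono _ _ (by rw [neg_div]; linarith)
    have e3 : N ^ (-4 : ℝ) ≤ 1 / 16 := by
      rw [Real.rpow_neg hN0.le, one_div]
      refine inv_anti₀ (by norm_num) ?_
      have : (N : ℝ) ^ (4 : ℝ) = N ^ (4 : ℕ) := by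
        rw [← Real.rpow_natCast]; norm_num
      rw [this]
      calc (16 : ℝ) = 2 ^ 4 := by norm_num
        _ ≤ N ^ 4 := pow_le_pow_left₀ (by norm_num) hN 4
    rw [← hadd, ← hw] at e2
    have e4 : w * N ^ (-4 : ℝ) ≤ w * (1 / 16) := mul_le_mul_of_nonneg_left e3 hw0.le
    linarith
  refine ⟨h1, by linarith, by linarith, by linarith, ?_⟩
  have hκε : 0 < κ * ε := mul_pos ht.κ_pos ht.ε_pos
  have hκA : A⁻¹ ≤ κ * ε := by
    rw [div_le_iff₀ hκε] at hbig'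
    rw [inv_le_iff_one_le_mul₀ hA0]
    linarith
  have b1 : w + h ≤ N ^ (τ + -u) := by
    rw [← hadd, ← hA, ← hw]
    have : 2 * w ≤ A * w := mul_le_mul_of_nonneg_right (by linarith) hw0.le
    linarith
  have b2 : (w + h) ^ S ≤ N ^ ((τ + -u) * S) := by
    rw [Real.rpow_mul hN0.le]
    exact Real.rpow_le_rpow (by linarith) b1 hS.le
  have b3 : A ^ 6 * N ^ ((τ + -u) * S) ≤ 1 := by
    have e3 : A ^ 6 * N ^ ((τ + -u) * S) = N ^ (τ * 6 + (τ + -u) * S) := by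
      rw [hA, ← Real.rpow_natCast, ← Real.rpow_mul hN0.le, hadd]
      norm_num
    rw [e3]
    refine Real.rpow_le_one_of_one_le_of_nonpos hN1 ?_
    have := ht.τS
    nlinarith
  have hP0 : 0 ≤ N ^ ((τ + -u) * S) := (Real.rpow_pos_of_pos hN0 _).le
  have b4 : A * A * (2 * (A * N ^ ((τ + -u) * S))) ≤ A⁻¹ * A⁻¹ := by
    have e5 : A * A * (2 * (A * N ^ ((τ + -u) * S))) = A⁻¹ * A⁻¹ * (2 * A ^ 5 * N ^ ((τ + -u) * S)) := by
      field_simp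
    rw [e5]
    have e6 : 2 * A ^ 5 * N ^ ((τ + -u) * S) ≤ 1 := by
      refine le_trans (mul_le_mul_of_nonneg_right ?_ hP0) b3
      calc 2 * A ^ 5 ≤ A * A ^ 5 := mul_le_mul_of_nonneg_right (by linarith) (by positivity)
        _ = A ^ 6 := by ring
    calc A⁻¹ * A⁻¹ * (2 * A ^ 5 * N ^ ((τ + -u) * S)) ≤ A⁻¹ * A⁻¹ * 1 := mul_le_mul_of_nonneg_left e6 (by positivity)
      _ = A⁻¹ * A⁻¹ := mul_one _
  calc A * A * (2 * (A * (w + h) ^ S)) ≤ A * A * (2 * (A * N ^ ((τ + -u) * S))) := by gcongr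
    _ ≤ A⁻¹ * A⁻¹ := b4
    _ ≤ κ * ε * A⁻¹ := mul_le_mul_of_nonneg_right hκA (by positivity)

theorem k4f_sum_parents_gen {v : KbVer} (P : KbPb v) (hP : P.WF) (F G : P.W → ℝ≥0∞) (κ c : ℝ≥0∞) (R : P.W → ℝ≥0∞) (hR : ∀ γ, R γ ≤ 1) (C : P.W → ℝ≥0∞) (hC : ∀ γ, C γ ≤ c)
    (h : ∀ γ, κ * F γ ≤ G γ + C γ * R γ) : κ * ∑ γ, P.om γ * F γ ≤ ∑ γ, P.om γ * G γ + c := by
  calc κ * ∑ γ, P.om γ * F γ = ∑ γ, P.om γ * (κ * F γ) := by
        rw [Finset.mul_sum]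
        exact Finset.sum_congr rfl fun γ _ => by ring
    _ ≤ ∑ γ, P.om γ * (G γ + c) := by
        refine Finset.sum_le_sum fun γ _ => mul_le_mul_right ((h γ).trans (add_le_add_right ?_ _)) _
        calc C γ * R γ ≤ c * 1 := mul_le_mul' (hC γ) (hR γ)
          _ = c := mul_one c
    _ = ∑ γ, P.om γ * G γ + (∑ γ, P.om γ) * c := by
        rw [Finset.sum_mul, ← Finset.sum_add_distrib]
        exact Finset.sum_congr rfl fun γ _ => by ring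
    _ = ∑ γ, P.om γ * G γ + c := by rw [hP.om_sum, one_mul]

open Classical in
theorem k4f_gen_ceiling {v : KbVer} (X : KpTan v) (p : KpPrm) (hell : p.ell = 0) (τ : ℝ) (hX : X.Ok p τ) (β : ℝ) (hβ : X.N ^ (-1 / τ) ≤ β) (hβ1 : β ≤ 1)
    (γ : X.P.W) (e : (X.Q X.G).C) (T₁ : ℝ) (A : Set (KbB v)) (hA : ∀ v ∈ A, ∀ i, |v i| ≤ T₁) :
    X.P.mu γ ({x | (X.Q X.G).wd e = γ ∧ x ∈ (X.Q X.G).S e} ∩ {x | X.vl γ x ∈ A})
      ≤ ENNReal.ofReal (X.N ^ τ) * X.pal γ (k4fThick A (kbDy β)) * (if (X.Q X.G).wd e = γ then X.ref e else 0) := by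
  by_cases hw : (X.Q X.G).wd e = γ
  · subst hw
    have hSe : {x | (X.Q X.G).wd e = (X.Q X.G).wd e ∧ x ∈ (X.Q X.G).S e} = (X.Q X.G).S e := by
      ext x; simp
    rw [hSe, if_pos rfl]
    have hpv : ∀ V : KbB v, kpPv p V = V := by
      intro V
      unfold kpPv
      rw [if_neg (by rw [hell]; exact lt_irrefl 0)]
    have key := k4f_transfer (ι := Fin v.j) (X.P.mu ((X.Q X.G).wd e)) (X.pal ((X.Q X.G).wd e)) (X.vl ((X.Q X.G).wd e)) ((X.Q X.G).S e)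
      (ENNReal.ofReal (X.N ^ τ) * X.ref e) (kbDy β) (k2a_dy_pos β) (by
        intro b
        have := hX.joint β hβ hβ1 e b
        simp only [hpv] at this
        calc _ ≤ ENNReal.ofReal (X.N ^ τ) * X.pal ((X.Q X.G).wd e) (kpCube β b) * X.ref e := this
          _ = ENNReal.ofReal (X.N ^ τ) * X.ref e * X.pal ((X.Q X.G).wd e) (k4fCube (kbDy β) b) := by
              rw [mul_right_comm]; rfl) T₁ A hA
    calc _ ≤ ENNReal.ofReal (X.N ^ τ) * X.ref e * X.pal ((X.Q X.G).wd e) (k4fThick A (kbDy β)) := key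
      _ = _ := by rw [mul_right_comm]
  · have hSe : {x | (X.Q X.G).wd e = γ ∧ x ∈ (X.Q X.G).S e} = ∅ := by
      ext x; simp [hw]
    rw [hSe, Set.empty_inter, measure_empty]
    exact zero_le

theorem k4f_one_ball (n : Fin 1 → ℝ) (b w h T : ℝ) (hn : n ⬝ᵥ n = 1) (hwh : 0 ≤ w + h) :
    k4fThick ({v : Fin 1 → ℝ | |n ⬝ᵥ v - b| ≤ w} ∩ {v | ∀ i, |v i| ≤ T}) h ⊆ Metric.closedBall (fun _ => n 0 * b) (w + h) := by
  have hdot : ∀ a c : Fin 1 → ℝ, a ⬝ᵥ c = a 0 * c 0 := by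
    intro a c
    simp [dotProduct]
  rw [hdot] at hn
  rintro v ⟨a, ⟨ha, -⟩, hva⟩
  have ha' : |n 0 * a 0 - b| ≤ w := by
    have : |n ⬝ᵥ a - b| ≤ w := ha
    rwa [hdot] at this
  rw [Metric.mem_closedBall, dist_pi_le_iff hwh]
  intro i
  have hi : i = 0 := Subsingleton.elim i 0
  subst hi
  rw [Real.dist_eq]
  have e1 : |a 0 - n 0 * b| = |n 0 * a 0 - b| := by
    rw [← sq_eq_sq_iff_abs_eq_abs]
    linear_combination (b ^ 2 - a 0 ^ 2) * hn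
  calc |v 0 - n 0 * b| = |(v 0 - a 0) + (a 0 - n 0 * b)| := by congr 1; ring
    _ ≤ |v 0 - a 0| + |a 0 - n 0 * b| := abs_add_le _ _
    _ ≤ h + w := add_le_add (hva 0) (e1 ▸ ha')
    _ = w + h := add_comm _ _

/-- **L-252-S4F-V1** (~300 l.).  **Breadth in version 1** (intervals; from the angular cap alone, no output).   PLAN.  Unfold `KpTan.Brd`; let `Rs, D, ℓ` be given, `L e` the lists of `Amb` (`choose`).  `w := N^{-u}`, `h := kbDy (w/4)` (`k2a_dy_bounds`), `c := ofReal (N^τ)`.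
For every `(γ, d)` choose `(n, b)` from `NarrowAt` (default `n = 1`, `b = 0`), `Tst γ d := {v | |n ⬝ᵥ v - b| ≤ w}` (closed, measurable); `n ⬝ᵥ n = 1` means `n 0 = ± 1` (index type `Fin KbVer.one.j`, `= Fin 1` by `rfl`).
(i) ceiling: for `wd e = γ`: `μ_γ (S e ∩ {vl ∈ Tst γ d}) ≤ c * pal γ (k4fThick (Tst γ d ∩ {|v| ≤ N^τ}) h) * ref e` by `k4f_transfer (ι := Fin KbVer.one.j)` and `hX.joint` (`kpPv p V = V` as `ell = 0`; `kpCube β b = k4fCube (kbDy β) b` by `rfl`;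
velocities are bounded by `hX.ntv.base`, `S e ⊆ Ev ⊆ Sp × Icc 0 1`).   (ii) the thickened set lies in `Metric.closedBall (fun _ => n 0 * b) (w + h)`, so `pal γ (..) ≤ cap := ofReal (N^τ (w+h)^S)` (`hX.pal_cap`, `N^{-1/τ} ≤ w + h ≤ 1`).
(iii) `k4f_parent` with `S := fun e => {x | wd e = γ ∧ x ∈ S e}`, `ref := fun e => if wd e = γ then ref e else 0`, `K = c`, `pw d := pal γ (thick ..)`, `κN := 2 * cap` (`cap > 0`), `Bad = ∅`, `pb = 0`: no state is heavy, so `k4fEs .. = ∅` and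
`κ μ_γ (Rs γ ∩ {ℓ ∈ Nar}) ≤ c c (2 cap) ∑ ref`.   (iv) sum over `γ` as in `k4f_sum_parents` (same proof for `KbVer.one`), `hX.ref_sum`, `hX.wf.om_sum`: `κ mass(narrow) ≤ 2 N^{3τ} (w+h)^S ≤ κ ε N^{-τ} ≤ κ ε tot` (`hX.ntv.mass`);
numerics: `w + h ≤ 2w ≤ N^{τ-u}`, `2 N^{4τ} N^{(τ-u)S} ≤ N^{-τ} ≤ κ ε` from `τ (100 + 12 S) ≤ u S`, `N^τ ≥ 10⁴`, `N^τ ≥ 1/(κ ε)`.   (v) cancel `ofReal κ` (`ENNReal.mul_le_mul_left`). -/
theorem k4f_one (X : KpTan KbVer.one) (p : KpPrm) (hell : p.ell = 0) (τ κ u ε : ℝ) (r : ℕ) (ht : K4fTol τ κ u ε p.S r) (hX : X.Ok p τ)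
    (hbig : 10 ^ 4 ≤ X.N ^ τ) (hbig' : 1 / (κ * ε) ≤ X.N ^ τ) : X.Brd κ u ε r (X.N ^ τ) := by
  classical
  have hP := hX.wf
  obtain ⟨hβ0, hβ1, hw0, hw1, hnum⟩ := k4f_one_num X.N τ κ u ε p.S r ht hX.N_two hbig hbig'
  have hN0 : 0 < X.N := by linarith [hX.N_two]
  have hA0 : 0 < X.N ^ τ := Real.rpow_pos_of_pos hN0 _
  intro Rs D ℓ hRes hℓ hAct hAmb
  choose L hLc hLs using hAmb
  obtain ⟨wh, hwh⟩ : ∃ wh, wh = X.N ^ (-u) + kbDy (X.N ^ (-u) / 4) := ⟨_, rfl⟩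
  rw [← hwh] at hw0 hw1 hnum
  have hwh0 : 0 < wh := lt_of_lt_of_le (Real.rpow_pos_of_pos hN0 _) hw0
  -- the predicted lines
  have hline : ∀ γ d, ∃ (n : KbB KbVer.one) (b : ℝ), n ⬝ᵥ n = 1 ∧ (X.NarrowAt Rs ℓ κ (X.N ^ (-u)) γ d →
      ENNReal.ofReal κ * X.P.mu γ (Rs γ ∩ ℓ γ ⁻¹' {d}) ≤ X.P.mu γ (Rs γ ∩ ℓ γ ⁻¹' {d} ∩ {x | |n ⬝ᵥ X.vl γ x - b| ≤ X.N ^ (-u)})) := by
    intro γ d
    by_cases hn : X.NarrowAt Rs ℓ κ (X.N ^ (-u)) γ d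
    · obtain ⟨n, b, h1, h2⟩ := hn
      exact ⟨n, b, h1, fun _ => h2⟩
    · refine ⟨fun _ => 1, 0, ?_, fun h => absurd h hn⟩
      show (fun _ : Fin 1 => (1 : ℝ)) ⬝ᵥ (fun _ : Fin 1 => (1 : ℝ)) = 1
      simp [dotProduct]
  choose nn bb hnn hnar using hline
  obtain ⟨c, hc⟩ : ∃ c : ℝ≥0∞, c = ENNReal.ofReal (X.N ^ τ) := ⟨_, rfl⟩
  obtain ⟨cap, hcap⟩ : ∃ cap : ℝ≥0∞, cap = ENNReal.ofReal (X.N ^ τ * wh ^ p.S) := ⟨_, rfl⟩
  have hcap0 : cap ≠ 0 := by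
    rw [hcap, Ne, ENNReal.ofReal_eq_zero, not_le]
    positivity
  have hcapt : cap ≠ ⊤ := by rw [hcap]; exact ENNReal.ofReal_ne_top
  obtain ⟨Tst, hTst⟩ : ∃ Tst : X.P.W → D → Set (KbB KbVer.one), Tst = fun γ d => {v | |nn γ d ⬝ᵥ v - bb γ d| ≤ X.N ^ (-u)} := ⟨_, rfl⟩
  obtain ⟨Bx, hBx⟩ : ∃ Bx : Set (KbB KbVer.one), Bx = {v | ∀ i, |v i| ≤ X.N ^ τ} := ⟨_, rfl⟩
  obtain ⟨pw, hpw⟩ : ∃ pw : X.P.W → D → ℝ≥0∞, pw = fun γ d => X.pal γ (k4fThick (Tst γ d ∩ Bx) (kbDy (X.N ^ (-u) / 4))) := ⟨_, rfl⟩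
  have hTm : ∀ γ d, MeasurableSet (Tst γ d) := by
    intro γ d
    rw [hTst]
    have hm : Measurable fun v : KbB KbVer.one => |nn γ d ⬝ᵥ v - bb γ d| := by
      unfold dotProduct
      fun_prop
    exact hm measurableSet_Iic
  have hpwle : ∀ γ d, pw γ d ≤ cap := by
    intro γ d
    rw [hpw, hcap, hTst, hBx]
    refine le_trans (measure_mono ?_) (hX.pal_cap γ wh hw0 hw1 (fun _ => nn γ d (0 : Fin 1) * bb γ d))
    rw [hwh]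
    exact k4f_one_ball (nn γ d) (bb γ d) _ _ _ (hnn γ d) (by rw [← hwh]; exact hwh0.le)
  have hvm : ∀ γ, Measurable (X.vl γ) := by
    intro γ
    have h := hP.co_meas γ
    show Measurable fun x : X.P.Lam × ℝ => (X.P.co γ x.1).2.1
    exact ((h.comp measurable_fst).snd).fst
  have hvb : ∀ γ, ∀ x ∈ X.P.Ev γ, X.vl γ x ∈ Bx := by
    intro γ x hx
    have hx' := hP.Ev_sub γ hx
    have hb := hX.ntv.base γ x.1 hx'.1 x.2 hx'.2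
    rw [hBx]
    intro i
    have h1 : ‖kbV (X.P.co γ x.1)‖ ≤ X.N ^ τ := by
      have := norm_nonneg (kbY (X.P.co γ x.1) x.2)
      linarith
    exact (norm_le_pi_norm (kbV (X.P.co γ x.1)) i).trans h1
  obtain ⟨Se, hSe⟩ : ∃ Se : X.P.W → (X.Q X.G).C → Set (X.P.Lam × ℝ), Se = fun γ e => {x | (X.Q X.G).wd e = γ ∧ x ∈ (X.Q X.G).S e} := ⟨_, rfl⟩
  obtain ⟨Rf, hRf⟩ : ∃ Rf : X.P.W → (X.Q X.G).C → ℝ≥0∞, Rf = fun γ e => if (X.Q X.G).wd e = γ then X.ref e else 0 := ⟨_, rfl⟩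
  have hSeEv : ∀ γ e x, x ∈ Se γ e → x ∈ X.P.Ev γ := by
    intro γ e x hx
    rw [hSe] at hx
    obtain ⟨rfl, hx⟩ := hx
    exact ((hX.sys_wf X.G le_rfl).S_sub e hx).1
  have hcov : ∀ γ, Rs γ ⊆ ⋃ e, Se γ e := by
    intro γ x hx
    have := hX.cover X.G le_rfl γ ((hRes γ).2 hx)
    simp only [KbSys.sel, Set.mem_iUnion] at this
    obtain ⟨e, he, hxe⟩ := this
    rw [hSe]
    exact Set.mem_iUnion.2 ⟨e, he, hxe⟩
  have hL' : ∀ e, ((L e).card : ℝ≥0∞) ≤ c := by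
    intro e
    rw [hc, ← ENNReal.ofReal_natCast]
    exact ENNReal.ofReal_le_ofReal (hLc e)
  have hLs' : ∀ γ e, ∀ x ∈ Rs γ ∩ Se γ e, ℓ γ x ∈ L e := by
    intro γ e x hx
    rw [hSe] at hx
    obtain ⟨hx, rfl, hxS⟩ := hx
    exact hLs e x ⟨hx, hxS⟩
  have h1 : ∀ γ e d, X.P.mu γ (Se γ e ∩ {x | X.vl γ x ∈ Tst γ d}) ≤ c * pw γ d * Rf γ e := by
    intro γ e d
    calc X.P.mu γ (Se γ e ∩ {x | X.vl γ x ∈ Tst γ d})
        ≤ X.P.mu γ (Se γ e ∩ {x | X.vl γ x ∈ Tst γ d ∩ Bx}) :=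
          measure_mono fun x hx => ⟨hx.1, hx.2, hvb γ x (hSeEv γ e x hx.1)⟩
      _ ≤ c * pw γ d * Rf γ e := by
          rw [hSe, hc, hpw, hRf]
          refine k4f_gen_ceiling X p hell τ hX _ hβ0 hβ1 γ e (X.N ^ τ) _ fun v hv i => ?_
          have := hv.2
          rw [hBx] at this
          exact this i
  have hpar := fun γ => k4f_parent (X.P.mu γ) (X.vl γ) (hvm γ) (ℓ γ) (hℓ γ) (Rs γ) (hRes γ).1 (Se γ) (hcov γ) (Rf γ) L c hL'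
    (hLs' γ) c (Tst γ) (hTm γ) (pw γ) (h1 γ) {d | X.NarrowAt Rs ℓ κ (X.N ^ (-u)) γ d} (ENNReal.ofReal κ)
    (fun d hd => by rw [hTst]; exact hnar γ d hd) (2 * cap) ∅ MeasurableSet.empty 0 (fun e => by simp)
  have hempty : ∀ γ, k4fEs (X.vl γ) (ℓ γ) (Rs γ) (Tst γ) {d | X.NarrowAt Rs ℓ κ (X.N ^ (-u)) γ d} {d | 2 * cap ≤ pw γ d} ∅ = ∅ := by
    intro γ
    rw [Set.eq_empty_iff_forall_notMem]
    rintro x ⟨-, -, hH, -⟩
    have h2 : 2 * cap ≤ cap := le_trans hH (hpwle γ _)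
    have h3 : cap < 2 * cap := by
      rw [two_mul]
      exact ENNReal.lt_add_right hcapt hcap0
    exact absurd h2 (not_le.2 h3)
  have hsum := k4f_sum_parents_gen X.P hP (fun γ => X.P.mu γ (Rs γ ∩ {x | ℓ γ x ∈ {d | X.NarrowAt Rs ℓ κ (X.N ^ (-u)) γ d}})) (fun _ => 0)
    (ENNReal.ofReal κ) (c * c * (2 * cap) + c * 0) (fun γ => ∑ e, Rf γ e) (fun γ => by rw [hRf]; exact hX.ref_sum γ) (fun _ => c * c * (2 * cap) + c * 0) (fun _ => le_rfl)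
    (fun γ => by
      have := (hpar γ).2
      rw [hempty γ, measure_empty] at this
      exact this)
  have hcst : c * c * (2 * cap) + c * 0 ≤ ENNReal.ofReal (κ * ε * (X.N ^ τ)⁻¹) := by
    rw [mul_zero, add_zero, hc, hcap]
    have e2 : (2 : ℝ≥0∞) = ENNReal.ofReal 2 := by simp
    rw [e2, ← ENNReal.ofReal_mul hA0.le, ← ENNReal.ofReal_mul (by norm_num), ← ENNReal.ofReal_mul (by positivity)]
    exact ENNReal.ofReal_le_ofReal hnum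
  have hinv : ENNReal.ofReal (X.N ^ τ)⁻¹ ≤ X.P.tot := by
    calc ENNReal.ofReal (X.N ^ τ)⁻¹ = ENNReal.ofReal (X.N ^ τ)⁻¹ * 1 := (mul_one _).symm
      _ ≤ ENNReal.ofReal (X.N ^ τ)⁻¹ * (ENNReal.ofReal (X.N ^ τ) * X.P.tot) := mul_le_mul_right hX.ntv.mass _
      _ = X.P.tot := by
          rw [← mul_assoc, ← ENNReal.ofReal_mul (by positivity), inv_mul_cancel₀ hA0.ne', ENNReal.ofReal_one, one_mul]
  have hκ0 : ENNReal.ofReal κ ≠ 0 := by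
    rw [Ne, ENNReal.ofReal_eq_zero, not_le]; exact ht.κ_pos
  have hfin : ENNReal.ofReal κ * X.P.mass (fun γ => Rs γ ∩ {x | X.NarrowAt Rs ℓ κ (X.N ^ (-u)) γ (ℓ γ x)})
      ≤ ENNReal.ofReal κ * (ENNReal.ofReal ε * X.P.tot) := by
    calc ENNReal.ofReal κ * X.P.mass (fun γ => Rs γ ∩ {x | X.NarrowAt Rs ℓ κ (X.N ^ (-u)) γ (ℓ γ x)})
        ≤ ∑ γ, X.P.om γ * 0 + (c * c * (2 * cap) + c * 0) := hsum
      _ = c * c * (2 * cap) + c * 0 := by simp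
      _ ≤ ENNReal.ofReal (κ * ε * (X.N ^ τ)⁻¹) := hcst
      _ = ENNReal.ofReal κ * (ENNReal.ofReal ε * ENNReal.ofReal (X.N ^ τ)⁻¹) := by
          rw [mul_assoc, ENNReal.ofReal_mul ht.κ_pos.le, ENNReal.ofReal_mul ht.ε_pos.le]
      _ ≤ ENNReal.ofReal κ * (ENNReal.ofReal ε * X.P.tot) := by gcongr
  exact (ENNReal.mul_le_mul_iff_right hκ0 ENNReal.ofReal_ne_top).1 hfin

theorem k4f_tol_exists (κ u ε S : ℝ) (r : ℕ) (hκ : 0 < κ) (hu : 0 < u) (hε : 0 < ε) (hS : 0 < S) : ∃ τ, K4fTol τ κ u ε S r := by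
  have hr : (0 : ℝ) ≤ r := Nat.cast_nonneg _
  set τ : ℝ := min (min (u * S / (100 + 12 * S)) (u / 16)) (min (min (1 / (u + 4)) (1 / ((r : ℝ) + 2))) (min (1 / 100) (κ * ε / 2))) with hτ
  have h1 : τ ≤ u * S / (100 + 12 * S) := (min_le_left _ _).trans (min_le_left _ _)
  have h2 : τ ≤ u / 16 := (min_le_left _ _).trans (min_le_right _ _)
  have h3 : τ ≤ 1 / (u + 4) := (min_le_right _ _).trans ((min_le_left _ _).trans (min_le_left _ _))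
  have h4 : τ ≤ 1 / ((r : ℝ) + 2) := (min_le_right _ _).trans ((min_le_left _ _).trans (min_le_right _ _))
  have h5 : τ ≤ 1 / 100 := (min_le_right _ _).trans ((min_le_right _ _).trans (min_le_left _ _))
  have h6 : τ ≤ κ * ε / 2 := (min_le_right _ _).trans ((min_le_right _ _).trans (min_le_right _ _))
  have h0 : 0 < τ := by
    rw [hτ]
    refine lt_min (lt_min ?_ ?_) (lt_min (lt_min ?_ ?_) (lt_min ?_ ?_)) <;> positivity
  refine ⟨τ, h0, hκ, hu, hε, hS, ?_, ?_, ?_, ?_, ?_, ?_⟩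
  · rwa [le_div_iff₀ (by positivity)] at h1
  · linarith
  · rwa [le_div_iff₀ (by positivity)] at h3
  · rw [le_div_iff₀ h0]
    rw [le_div_iff₀ (by positivity)] at h4
    linarith
  · rw [le_div_iff₀ h0]
    linarith
  · rw [le_div_iff₀ h0, div_mul_eq_mul_div, div_le_one (by positivity)]
    linarith

/-- **the exit of S4F** -/
theorem k4f_hub : KpHubBreadth := by
  intro v
  cases v
  · intro p R s hp hell hs κ u ε r hκ hu hε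
    obtain ⟨τ, ht⟩ := k4f_tol_exists κ u ε p.S r hκ hu hε hp.S_pos
    refine ⟨τ, ht.τ_pos, ?_⟩
    filter_upwards [hs.2 τ ht.τ_pos, (kb_rpow_tendsto R ht.τ_pos).eventually_ge_atTop (10 ^ 4),
      (kb_rpow_tendsto R ht.τ_pos).eventually_ge_atTop (1 / (κ * ε))] with n h1 h2 h3
    rw [hs.1 n] at h2 h3
    exact k4f_one (s n).tan p hell τ κ u ε r ht h1.tan h2 h3
  · intro p R s hp hell hs κ u ε r hκ hu hε
    obtain ⟨τ, ht⟩ := k4f_tol_exists κ u ε p.S r hκ hu hε hp.S_pos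
    refine ⟨τ, ht.τ_pos, ?_⟩
    filter_upwards [hs.2 τ ht.τ_pos, (kb_rpow_tendsto R ht.τ_pos).eventually_ge_atTop (10 ^ 4),
      (kb_rpow_tendsto R ht.τ_pos).eventually_ge_atTop (1 / (κ * ε))] with n h1 h2 h3
    rw [hs.1 n] at h2 h3
    exact k4f_sample (s n) p hell τ κ u ε r ht h1 h2 h3

end

end Claimed.Agent.R252
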