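import Claimed.Agent.R252.S4F.Contract

/-!
# ROW 252 (S0492), unit S4F, file 2: PLANAR + MEASURE LAYER of `a03:breadth`.      CONTRACT file: every `sorry` is a leaf L-252-S4F-P* / E*.      Mathlib + `S4F/Contract` only, paper-free.

* `k4fCube h b`, `k4fThick A h`; (P1) `k4f_transfer` : a ceiling known on the cubes of ONE grid passes to every bounded set, at the price of thickening it.
* (P2) `k4f_thick_strip`, `k4f_thick_bad`;   (P3) `k4f_first` : disjoint first-hit refinement of a finite measurable cover;   (P4) `k4f_near_bins` : boundedly many parameter bins near a prediction.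
* (P5) `k4f_partition` : **the velocity partition of one parent** (representatives, assignment by the velocity alone, merging in `r₂`-bins, bounded lists given the prediction, small bad set).
* (E1) `k4f_parent`    : **the mass bookkeeping in one parent** (narrow events, light strips, bad overlaps).
-/

set_option autoImplicit false

namespace Claimed.Agent.R252

open MeasureTheory
open scoped ENNReal BigOperators

noncomputable section

/-- the cube with index `b` of the grid of side `h` -/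
def k4fCube {ι : Type*} (h : ℝ) (b : ι → ℤ) : Set (ι → ℝ) := {u | ∀ i, ⌊u i / h⌋ = b i}

/-- the `h`-thickening (sup distance) -/
def k4fThick {ι : Type*} (A : Set (ι → ℝ)) (h : ℝ) : Set (ι → ℝ) := {v | ∃ a ∈ A, ∀ i, |v i - a i| ≤ h}

/-- the `r`-bin of the parameters of a line -/
def k4fPB (r : ℝ) (l : K4fLine) : Fin 3 → ℤ := ![⌊l.n 0 / r⌋, ⌊l.n 1 / r⌋, ⌊l.b / r⌋]

theorem k4f_cube_meas {ι : Type*} [Fintype ι] (h : ℝ) (b : ι → ℤ) : MeasurableSet (k4fCube h b) := by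
  have e : k4fCube h b = ⋂ i, {u : ι → ℝ | ⌊u i / h⌋ = b i} := by
    ext u; simp [k4fCube]
  rw [e]
  refine MeasurableSet.iInter fun i => ?_
  have hm0 : Measurable fun u : ι → ℝ => u i / h := by fun_prop
  have hm : Measurable fun u : ι → ℝ => ⌊u i / h⌋ := Int.measurable_floor.comp hm0
  exact hm (measurableSet_singleton (b i))

/-- **L-252-S4F-P1** (~90 l.).  Any finite index type `ι` (used for `Fin 1`, `Fin 2`).  `F := Fintype.piFinset fun _ => Finset.Icc ⌊-T/h⌋ ⌊T/h⌋`, filtered by `(k4fCube h b ∩ A).Nonempty` (classical).  `A ⊆ ⋃ b ∈ F, cube b` (`Int.floor_le_floor`), so `μ (..) ≤ ∑ b ∈ F, μ (Se ∩ vel⁻¹ cube b)`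
(`measure_biUnion_finset_le` + `measure_mono`) `≤ c * ∑ π (cube b) = c * π (⋃ b ∈ F, cube b)` (`measure_biUnion_finset`: cubes are pairwise disjoint and measurable: `measurable_pi_apply`, `Int.measurable_floor`/`measurableSet_eq_fun`)
`≤ c * π (thick A h)`: two points `u, a` of one cube have `|u i - a i| ≤ h` (`Int.floor_le`, `Int.lt_floor_add_one`, multiply by `h`). -/
theorem k4f_transfer {Ω ι : Type*} [MeasurableSpace Ω] [Fintype ι] (μ : Measure Ω) (π : Measure (ι → ℝ)) (vel : Ω → ι → ℝ) (Se : Set Ω) (c : ℝ≥0∞) (h : ℝ) (hh : 0 < h)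
    (hj : ∀ b, μ (Se ∩ {x | vel x ∈ k4fCube h b}) ≤ c * π (k4fCube h b)) (T : ℝ) (A : Set (ι → ℝ)) (hA : ∀ a ∈ A, ∀ i, |a i| ≤ T) :
    μ (Se ∩ {x | vel x ∈ A}) ≤ c * π (k4fThick A h) := by
  classical
  set F : Finset (ι → ℤ) := (Fintype.piFinset fun _ : ι => Finset.Icc ⌊-T / h⌋ ⌊T / h⌋).filter (fun b => (k4fCube h b ∩ A).Nonempty) with hF
  have hcov : Se ∩ {x | vel x ∈ A} ⊆ ⋃ b ∈ F, (Se ∩ {x | vel x ∈ k4fCube h b}) := by
    rintro x ⟨hxS, hxA⟩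
    have hxA' : vel x ∈ A := hxA
    refine Set.mem_iUnion₂.2 ⟨fun i => ⌊vel x i / h⌋, ?_, hxS, fun i => rfl⟩
    rw [hF, Finset.mem_filter, Fintype.mem_piFinset]
    refine ⟨fun i => ?_, ⟨vel x, fun i => rfl, hxA'⟩⟩
    obtain ⟨h1, h2⟩ := abs_le.1 (hA _ hxA' i)
    rw [Finset.mem_Icc]
    exact ⟨Int.floor_le_floor (by gcongr), Int.floor_le_floor (by gcongr)⟩
  have hdisj : Set.PairwiseDisjoint (↑F) (fun b : ι → ℤ => k4fCube h b) := by
    intro b _ b' _ hbb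
    refine Set.disjoint_left.2 fun u hu hu' => hbb ?_
    funext i
    exact (hu i).symm.trans (hu' i)
  have hsub : (⋃ b ∈ F, k4fCube h b) ⊆ k4fThick A h := by
    intro u hu
    obtain ⟨b, hb, hub⟩ := Set.mem_iUnion₂.1 hu
    obtain ⟨a, hab, haA⟩ := (Finset.mem_filter.1 hb).2
    refine ⟨a, haA, fun i => ?_⟩
    have h1 := Int.floor_le (u i / h)
    have h2 := Int.lt_floor_add_one (u i / h)
    have h3 := Int.floor_le (a i / h)
    have h4 := Int.lt_floor_add_one (a i / h)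
    rw [hub i] at h1 h2
    rw [hab i] at h3 h4
    have h5 : |u i / h - a i / h| ≤ 1 := by
      rw [abs_le]; constructor <;> linarith
    have h6 : u i - a i = (u i / h - a i / h) * h := by field_simp
    rw [h6, abs_mul, abs_of_pos hh]
    nlinarith
  calc μ (Se ∩ {x | vel x ∈ A}) ≤ μ (⋃ b ∈ F, (Se ∩ {x | vel x ∈ k4fCube h b})) := measure_mono hcov
    _ ≤ ∑ b ∈ F, μ (Se ∩ {x | vel x ∈ k4fCube h b}) := measure_biUnion_finset_le _ _
    _ ≤ ∑ b ∈ F, c * π (k4fCube h b) := Finset.sum_le_sum fun b _ => hj b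
    _ = c * ∑ b ∈ F, π (k4fCube h b) := by rw [Finset.mul_sum]
    _ = c * π (⋃ b ∈ F, k4fCube h b) := by
        rw [measure_biUnion_finset hdisj fun b _ => k4f_cube_meas h b]
    _ ≤ c * π (k4fThick A h) := by gcongr

theorem k4f_ev_diff (l : K4fLine) (hl : l.IsUnit) (h : ℝ) (v a : Fin 2 → ℝ) (hva : ∀ i, |v i - a i| ≤ h) : |l.ev v| ≤ |l.ev a| + 2 * h := by
  have e : l.ev v = l.ev a + (l.n 0 * (v 0 - a 0) + l.n 1 * (v 1 - a 1)) := by
    unfold K4fLine.ev; ring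
  have h0 : |l.n 0 * (v 0 - a 0)| ≤ h := by
    rw [abs_mul]
    calc |l.n 0| * |v 0 - a 0| ≤ 1 * |v 0 - a 0| := by gcongr; exact k4f_unit_le hl 0
      _ ≤ h := by rw [one_mul]; exact hva 0
  have h1 : |l.n 1 * (v 1 - a 1)| ≤ h := by
    rw [abs_mul]
    calc |l.n 1| * |v 1 - a 1| ≤ 1 * |v 1 - a 1| := by gcongr; exact k4f_unit_le hl 1
      _ ≤ h := by rw [one_mul]; exact hva 1
  rw [e]
  calc |l.ev a + (l.n 0 * (v 0 - a 0) + l.n 1 * (v 1 - a 1))| ≤ |l.ev a| + |l.n 0 * (v 0 - a 0) + l.n 1 * (v 1 - a 1)| := abs_add_le _ _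
    _ ≤ |l.ev a| + (|l.n 0 * (v 0 - a 0)| + |l.n 1 * (v 1 - a 1)|) := by gcongr; exact abs_add_le _ _
    _ ≤ |l.ev a| + 2 * h := by linarith

theorem k4f_box_diff (T h : ℝ) (v a : Fin 2 → ℝ) (hva : ∀ i, |v i - a i| ≤ h) (ha : a ∈ k4fBox 0 T) : v ∈ k4fBox 0 (T + h) := by
  intro i
  have h1 := ha i
  have h2 := hva i
  simp only [Pi.zero_apply, sub_zero] at h1 ⊢
  calc |v i| = |a i + (v i - a i)| := by congr 1; ring
    _ ≤ |a i| + |v i - a i| := abs_add_le _ _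
    _ ≤ T + h := by linarith

/-- **L-252-S4F-P2** (this and the next statement, ~70 l.).  `|ev l v - ev l a| ≤ |n₀| h + |n₁| h ≤ 2 h` (`k4f_unit_le`). -/
theorem k4f_thick_strip (l : K4fLine) (hl : l.IsUnit) (w T h : ℝ) : k4fThick (l.strip w ∩ k4fBox 0 T) h ⊆ l.strip (w + 2 * h) ∩ k4fBox 0 (T + h) := by
  rintro v ⟨a, ⟨has, haT⟩, hva⟩
  refine ⟨?_, k4f_box_diff T h v a hva haT⟩
  have h1 : |l.ev a| ≤ w := has
  have h2 := k4f_ev_diff l hl h v a hva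
  show |l.ev v| ≤ w + 2 * h
  linarith

theorem k4f_thick_bad (R : Finset K4fLine) (hR : ∀ l ∈ R, l.IsUnit) (T W r₂ h : ℝ) : k4fThick (k4fBad R T W r₂) h ⊆ k4fBad R (T + h) (W + 2 * h) r₂ := by
  rintro v ⟨a, ha, hva⟩
  simp only [k4fBad, Set.mem_iUnion] at ha ⊢
  obtain ⟨l, hl, l', hl', ⟨ha1, ha2⟩, haT⟩ := ha
  refine ⟨l, hl, l', hl', ⟨?_, ?_⟩, k4f_box_diff T h v a hva haT⟩
  · have h1 : |l.ev a| ≤ W := ha1
    have h2 := k4f_ev_diff l (hR l hl) h v a hva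
    show |l.ev v| ≤ W + 2 * h
    linarith
  · have h1 : |l'.ev a| ≤ W := ha2
    have h2 := k4f_ev_diff l' (hR l' (Finset.mem_filter.1 hl').1) h v a hva
    show |l'.ev v| ≤ W + 2 * h
    linarith

theorem k4f_bad_meas (R : Finset K4fLine) (T W r₂ : ℝ) : MeasurableSet (k4fBad R T W r₂) := by
  unfold k4fBad
  refine Finset.measurableSet_biUnion _ fun l _ => Finset.measurableSet_biUnion _ fun l' _ => ?_
  exact ((k4f_strip_meas l W).inter (k4f_strip_meas l' W)).inter (k4f_box_meas 0 T)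

theorem k4f_bad_sub (R : Finset K4fLine) (T W r₂ : ℝ) : k4fBad R T W r₂ ⊆ k4fBox 0 T := by
  intro v hv
  simp only [k4fBad, Set.mem_iUnion] at hv
  obtain ⟨l, _, l', _, hv⟩ := hv
  exact hv.2

/-- **L-252-S4F-P3** (~50 l.).  `Finset.induction_on R`: for `insert a R` keep the old `B'` on `R` and put `B' a := B a \ ⋃ i ∈ R, B i` (`Function.update`, classical). -/
theorem k4f_first {α β : Type*} [MeasurableSpace α] (R : Finset β) (B : β → Set α) (hB : ∀ i ∈ R, MeasurableSet (B i)) :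
    ∃ B' : β → Set α, (∀ i, MeasurableSet (B' i)) ∧ (∀ i, B' i ⊆ B i) ∧ (∀ i, i ∉ R → B' i = ∅) ∧ (∀ i j, i ≠ j → Disjoint (B' i) (B' j)) ∧
      (⋃ i ∈ R, B' i) = ⋃ i ∈ R, B i := by
  classical
  induction R using Finset.induction_on with
  | empty =>
    exact ⟨fun _ => ∅, fun _ => MeasurableSet.empty, fun _ => Set.empty_subset _, fun _ _ => rfl, fun _ _ _ => Set.disjoint_empty _, by simp⟩
  | insert a R haR ih =>
    obtain ⟨B', hm, hs, he, hd, hu⟩ := ih fun i hi => hB i (Finset.mem_insert_of_mem hi)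
    have hBa : MeasurableSet (B a \ ⋃ i ∈ R, B i) :=
      (hB a (Finset.mem_insert_self a R)).diff (Finset.measurableSet_biUnion _ fun i hi => hB i (Finset.mem_insert_of_mem hi))
    have hsubU : ∀ j, j ≠ a → B' j ⊆ ⋃ i ∈ R, B i := by
      intro j _
      by_cases hjR : j ∈ R
      · rw [← hu]
        exact Set.subset_biUnion_of_mem (u := fun i => B' i) (show j ∈ (↑R : Set β) from hjR)
      · rw [he j hjR]; exact Set.empty_subset _
    refine ⟨Function.update B' a (B a \ ⋃ i ∈ R, B i), fun i => ?_, fun i => ?_, fun i hi => ?_, fun i j hij => ?_, ?_⟩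
    · by_cases hia : i = a
      · subst hia; rw [Function.update_self]; exact hBa
      · rw [Function.update_of_ne hia]; exact hm i
    · by_cases hia : i = a
      · subst hia; rw [Function.update_self]; exact Set.sdiff_subset
      · rw [Function.update_of_ne hia]; exact hs i
    · have hia : i ≠ a := fun e => hi (e ▸ Finset.mem_insert_self a R)
      rw [Function.update_of_ne hia]
      exact he i fun hiR => hi (Finset.mem_insert_of_mem hiR)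
    · by_cases hia : i = a
      · subst hia
        have hja : j ≠ i := fun e => hij e.symm
        rw [Function.update_self, Function.update_of_ne hja]
        exact Set.disjoint_left.2 fun x hx hx' => hx.2 (hsubU j hja hx')
      · rw [Function.update_of_ne hia]
        by_cases hja : j = a
        · subst hja
          rw [Function.update_self]
          exact Set.disjoint_left.2 fun x hx hx' => hx'.2 (hsubU i hia hx)
        · rw [Function.update_of_ne hja]; exact hd i j hij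
    · have e1 : (⋃ i ∈ R, Function.update B' a (B a \ ⋃ i ∈ R, B i) i) = ⋃ i ∈ R, B' i := by
        refine Set.iUnion₂_congr fun i hi => ?_
        have hia : i ≠ a := fun e => haR (e ▸ hi)
        rw [Function.update_of_ne hia]
      rw [Finset.set_biUnion_insert, Finset.set_biUnion_insert, Function.update_self, e1, hu]
      exact Set.sdiff_union_self

/-- **L-252-S4F-P4** (~70 l.).  `k4f_bins r 2 x₀` for the three parameters of `l₀` and of `l₀.neg`; `Λ := piFinset (three lists of l₀) ∪ piFinset (three lists of l₀.neg)` (`Fintype.card_piFinset`, `Fin.prod_univ_three`, `9³ = 729`, `Finset.card_union_le`).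
`dist l₀ l' ≤ 2r` means `d0 l₀ l' ≤ 2r` or `d0 l₀ l'.neg = d0 l₀.neg l' ≤ 2r` (`k4f_d0_neg`, `k4f_neg_neg`); `d0` bounds the three differences (`le_max_left/right`, `abs_sub_comm`). -/
theorem k4f_near_bins (r : ℝ) (hr : 0 < r) (l₀ : K4fLine) :
    ∃ Λ : Finset (Fin 3 → ℤ), (Λ.card : ℝ) ≤ 1458 ∧ ∀ l' : K4fLine, l₀.dist l' ≤ 2 * r → k4fPB r l' ∈ Λ := by
  classical
  have key : ∀ l : K4fLine, ∃ Λ : Finset (Fin 3 → ℤ), Λ.card ≤ 729 ∧ ∀ l' : K4fLine, l.d0 l' ≤ 2 * r → k4fPB r l' ∈ Λ := by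
    intro l
    obtain ⟨B0, hB0c, hB0⟩ := k4f_bins r 2 (l.n 0) hr (by norm_num)
    obtain ⟨B1, hB1c, hB1⟩ := k4f_bins r 2 (l.n 1) hr (by norm_num)
    obtain ⟨B2, hB2c, hB2⟩ := k4f_bins r 2 l.b hr (by norm_num)
    have c0 : B0.card ≤ 9 := by
      have : (B0.card : ℝ) ≤ (9 : ℕ) := by norm_num at hB0c ⊢; exact hB0c
      exact_mod_cast this
    have c1 : B1.card ≤ 9 := by
      have : (B1.card : ℝ) ≤ (9 : ℕ) := by norm_num at hB1c ⊢; exact hB1c
      exact_mod_cast this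
    have c2 : B2.card ≤ 9 := by
      have : (B2.card : ℝ) ≤ (9 : ℕ) := by norm_num at hB2c ⊢; exact hB2c
      exact_mod_cast this
    refine ⟨Fintype.piFinset ![B0, B1, B2], ?_, fun l' hl' => ?_⟩
    · rw [Fintype.card_piFinset, Fin.prod_univ_three]
      simp only [Matrix.cons_val_zero, Matrix.cons_val_one, Matrix.cons_val]
      calc B0.card * B1.card * B2.card ≤ 9 * 9 * 9 := by gcongr
        _ = 729 := by norm_num
    · have d0 : |l'.n 0 - l.n 0| ≤ 2 * r := by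
        rw [abs_sub_comm]; exact ((le_max_left _ _).trans (le_max_left _ _)).trans hl'
      have d1 : |l'.n 1 - l.n 1| ≤ 2 * r := by
        rw [abs_sub_comm]; exact ((le_max_right _ _).trans (le_max_left _ _)).trans hl'
      have d2 : |l'.b - l.b| ≤ 2 * r := by
        rw [abs_sub_comm]; exact (le_max_right _ _).trans hl'
      rw [Fintype.mem_piFinset]
      intro i
      fin_cases i
      · simpa [k4fPB] using hB0 _ d0
      · simpa [k4fPB] using hB1 _ d1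
      · simpa [k4fPB] using hB2 _ d2
  obtain ⟨Λ1, hc1, hm1⟩ := key l₀
  obtain ⟨Λ2, hc2, hm2⟩ := key l₀.neg
  refine ⟨Λ1 ∪ Λ2, ?_, fun l' hl' => ?_⟩
  · have : (Λ1 ∪ Λ2).card ≤ 1458 := (Finset.card_union_le _ _).trans (by omega)
    exact_mod_cast this
  · rcases min_le_iff.1 hl' with h | h
    · exact Finset.mem_union_left _ (hm1 l' h)
    · refine Finset.mem_union_right _ (hm2 l' ?_)
      have := k4f_d0_neg l₀ l'.neg
      rw [k4f_neg_neg] at this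
      rw [this]; exact h

/-- two lines in one `r`-bin -/
theorem k4f_same_bin (r : ℝ) (hr : 0 < r) (l l' : K4fLine) (h : k4fPB r l = k4fPB r l') : l.dist l' ≤ r := by
  have key : ∀ x y : ℝ, ⌊x / r⌋ = ⌊y / r⌋ → |x - y| ≤ r := by
    intro x y hxy
    have h1 := Int.floor_le (x / r)
    have h2 := Int.lt_floor_add_one (x / r)
    have h3 := Int.floor_le (y / r)
    have h4 := Int.lt_floor_add_one (y / r)
    rw [hxy] at h1 h2
    have h5 : |x / r - y / r| ≤ 1 := by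
      rw [abs_le]; constructor <;> linarith
    have h6 : x - y = (x / r - y / r) * r := by field_simp
    rw [h6, abs_mul, abs_of_pos hr]
    nlinarith
  have h0 : ⌊l.n 0 / r⌋ = ⌊l'.n 0 / r⌋ := by simpa [k4fPB] using congrFun h 0
  have h1 : ⌊l.n 1 / r⌋ = ⌊l'.n 1 / r⌋ := by simpa [k4fPB] using congrFun h 1
  have h2 : ⌊l.b / r⌋ = ⌊l'.b / r⌋ := by simpa [k4fPB] using congrFun h 2
  refine (min_le_left _ _).trans ?_
  exact max_le (max_le (key _ _ h0) (key _ _ h1)) (key _ _ h2)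

/-- **L-252-S4F-P5** (~200 l.).  **The velocity partition of one parent.**   `H` = the heavy predicted lines (strips of half width `w`).   PLAN.
1. `R ⊆ H` maximal `r₁`-separated for `K4fLine.dist` (`k4f_sep_exists`, `k4f_dist_comm`);  `(R.card : ℝ) ≤ 2/κN²` (`k4f_heavy_count`).      2. `W := w + (1+2T) r₁`,  `Bad := k4fBad R T W r₂` (`k4f_bad_meas`, `k4f_bad_sub`);
   `π.real (thick Bad h) ≤ π.real (k4fBad R (T+h) (W+2h) r₂) ≤ card² δ₂` (`k4f_thick_bad`, `measureReal_mono`, `k4f_bad_le`).      3. `B'` := `k4f_first R (fun l' => l'.strip W)`;   `ι := R.image (k4fPB r₂)` (`Finset.card_image_le`);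
   `hat β` := some `l' ∈ R` with bin `β` (classical choice, any default otherwise);   `A β := ⋃ l' ∈ R.filter (k4fPB r₂ · = β), B' l'`  (measurable; disjoint for `β ≠ β'` since the `B'` are).
4. `A β ∩ box ⊆ (hat β).strip (W + (1+2T) r₂)` : `k4f_same_bin` + `k4f_enlarge`.      5. `Λ l₀ := (k4f_near_bins r₂ l₀).choose ∩ ι` (or `filter (· ∈ ι)`).
6. Let `l₀ ∈ H`, `V ∈ l₀.strip w ∩ box`, `V ∉ Bad`.  Maximality: `l₁ ∈ R` with `dist l₀ l₁ ≤ r₁` (`l₁ = l₀`, `k4f_dist_self`, if `l₀ ∈ R`).  `V ∈ l₁.strip W` (`k4f_enlarge`), so `V ∈ ⋃ B = ⋃ B'`: `V ∈ B' l'`, `l' ∈ R`, `V ∈ l'.strip W`.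
   `k4f_agree` : `dist l₀ l' ≤ r₁ + r₂ ≤ 2 r₂`.  Take `β := k4fPB r₂ l'`. -/
theorem k4f_partition (π : Measure (Fin 2 → ℝ)) [IsFiniteMeasure π] (hπ : π.real Set.univ ≤ 1) (H : Finset K4fLine) (hH : ∀ l ∈ H, l.IsUnit)
    (T w r₁ r₂ h ρ₁ δ₁ ρ₂ δ₂ κN : ℝ) (hT : 0 ≤ T) (hw : 0 ≤ w) (hh : 0 ≤ h) (hr₁ : 0 < r₁) (hr₁₂ : r₁ ≤ r₂) (hwr : 8 * w ≤ r₁)
    (hρ₁ : 16 * (1 + T) * w / r₁ ≤ ρ₁) (hcap₁ : ∀ c, π.real (k4fBox c ρ₁) ≤ δ₁) (hκ0 : 0 < κN) (hκ : ∀ l ∈ H, κN ≤ π.real (l.strip w ∩ k4fBox 0 T)) (h2 : 2 * δ₁ ≤ κN ^ 2)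
    (hWr : 8 * (w + (1 + 2 * T) * r₁ + 2 * h) ≤ r₂) (hρ₂ : 16 * (1 + (T + h)) * (w + (1 + 2 * T) * r₁ + 2 * h) / r₂ ≤ ρ₂) (hcap₂ : ∀ c, π.real (k4fBox c ρ₂) ≤ δ₂) :
    ∃ (ι : Finset (Fin 3 → ℤ)) (hat : (Fin 3 → ℤ) → K4fLine) (A : (Fin 3 → ℤ) → Set (Fin 2 → ℝ)) (Bad : Set (Fin 2 → ℝ)) (Λ : K4fLine → Finset (Fin 3 → ℤ)),
      (ι.card : ℝ) ≤ 2 / κN ^ 2 ∧ (∀ β ∈ ι, hat β ∈ H) ∧ (∀ β, MeasurableSet (A β)) ∧ (∀ β β', β ≠ β' → Disjoint (A β) (A β')) ∧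
      (∀ β ∈ ι, A β ∩ k4fBox 0 T ⊆ (hat β).strip (w + (1 + 2 * T) * r₁ + (1 + 2 * T) * r₂)) ∧
      MeasurableSet Bad ∧ Bad ⊆ k4fBox 0 T ∧ π.real (k4fThick Bad h) ≤ (2 / κN ^ 2) ^ 2 * δ₂ ∧
      (∀ l₀, ((Λ l₀).card : ℝ) ≤ 1458) ∧ (∀ l₀, Λ l₀ ⊆ ι) ∧
      ∀ l₀ ∈ H, ∀ V ∈ l₀.strip w ∩ k4fBox 0 T, V ∉ Bad → ∃ β ∈ Λ l₀, V ∈ A β := by
  classical
  obtain ⟨R, hRH, hsep, hmax⟩ := k4f_sep_exists K4fLine.dist k4f_dist_comm H r₁
  have hRu : ∀ l ∈ R, l.IsUnit := fun l hl => hH l (hRH hl)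
  have hcard : (R.card : ℝ) ≤ 2 / κN ^ 2 :=
    k4f_heavy_count π hπ R hRu T w r₁ ρ₁ δ₁ κN hT hw hr₁ hwr hsep hρ₁ hcap₁ hκ0 (fun l hl => hκ l (hRH hl)) h2
  obtain ⟨W, hW⟩ : ∃ W, W = w + (1 + 2 * T) * r₁ := ⟨_, rfl⟩
  rw [← hW] at hWr hρ₂ ⊢
  have hW0 : 0 ≤ W := by rw [hW]; positivity
  obtain ⟨B', hB'm, hB's, hB'e, hB'd, hB'u⟩ := k4f_first R (fun l' => l'.strip W) (fun l _ => k4f_strip_meas l W)
  have hr₂ : 0 < r₂ := hr₁.trans_le hr₁₂
  have hhat : ∀ β : Fin 3 → ℤ, ∃ l : K4fLine, β ∈ R.image (k4fPB r₂) → (l ∈ R ∧ k4fPB r₂ l = β) := by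
    intro β
    by_cases hβ : β ∈ R.image (k4fPB r₂)
    · obtain ⟨l, hl, hlb⟩ := Finset.mem_image.1 hβ
      exact ⟨l, fun _ => ⟨hl, hlb⟩⟩
    · exact ⟨⟨0, 0⟩, fun h => absurd h hβ⟩
  choose hat hhat using hhat
  have hΛ := fun l₀ => k4f_near_bins r₂ hr₂ l₀
  choose Λ hΛc hΛm using hΛ
  have hδ₂ : 0 ≤ δ₂ := measureReal_nonneg.trans (hcap₂ 0)
  refine ⟨R.image (k4fPB r₂), hat, fun β => ⋃ l' ∈ R.filter (fun l' => k4fPB r₂ l' = β), B' l', k4fBad R T W r₂,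
    fun l₀ => (Λ l₀).filter (· ∈ R.image (k4fPB r₂)), ?_, ?_, ?_, ?_, ?_, k4f_bad_meas R T W r₂, k4f_bad_sub R T W r₂, ?_, ?_, ?_, ?_⟩
  · refine le_trans ?_ hcard
    exact_mod_cast Finset.card_image_le
  · exact fun β hβ => hRH (hhat β hβ).1
  · exact fun β => Finset.measurableSet_biUnion _ fun l _ => hB'm l
  · intro β β' hββ
    refine Set.disjoint_left.2 fun v hv hv' => ?_
    obtain ⟨l, hl, hvl⟩ := Set.mem_iUnion₂.1 hv
    obtain ⟨l', hl', hvl'⟩ := Set.mem_iUnion₂.1 hv'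
    have hne : l ≠ l' := by
      rintro rfl
      exact hββ ((Finset.mem_filter.1 hl).2.symm.trans (Finset.mem_filter.1 hl').2)
    exact Set.disjoint_left.1 (hB'd l l' hne) hvl hvl'
  · rintro β hβ v ⟨hv, hvT⟩
    obtain ⟨l, hl, hvl⟩ := Set.mem_iUnion₂.1 hv
    have hd : l.dist (hat β) ≤ r₂ := k4f_same_bin r₂ hr₂ l (hat β) ((Finset.mem_filter.1 hl).2.trans (hhat β hβ).2.symm)
    exact k4f_enlarge l (hat β) T W r₂ hd v (hB's l hvl) (fun i => by simpa using hvT i)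
  · calc π.real (k4fThick (k4fBad R T W r₂) h) ≤ π.real (k4fBad R (T + h) (W + 2 * h) r₂) :=
          measureReal_mono (k4f_thick_bad R hRu T W r₂ h)
      _ ≤ (R.card : ℝ) ^ 2 * δ₂ := k4f_bad_le π R hRu (T + h) (W + 2 * h) r₂ ρ₂ δ₂ (by positivity) (by positivity) hr₂ hWr hρ₂ hcap₂
      _ ≤ (2 / κN ^ 2) ^ 2 * δ₂ := by gcongr
  · intro l₀
    refine le_trans ?_ (hΛc l₀)
    exact_mod_cast Finset.card_filter_le _ _
  · exact fun l₀ β hβ => (Finset.mem_filter.1 hβ).2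
  · rintro l₀ hl₀ V ⟨hV, hVT⟩ hVb
    have hVT' : ∀ i, |V i| ≤ T := fun i => by simpa using hVT i
    obtain ⟨l₁, hl₁, hd₁⟩ : ∃ l₁ ∈ R, l₀.dist l₁ ≤ r₁ := by
      rcases hmax l₀ hl₀ with h | ⟨y, hy, hyd⟩
      · exact ⟨l₀, h, (k4f_dist_self l₀).trans hr₁.le⟩
      · exact ⟨y, hy, hyd.le⟩
    have hV1 : V ∈ l₁.strip W := by
      rw [hW]
      exact k4f_enlarge l₀ l₁ T w r₁ hd₁ V hV hVT'
    have hVu : V ∈ ⋃ i ∈ R, B' i := by
      rw [hB'u]
      exact Set.mem_iUnion₂.2 ⟨l₁, hl₁, hV1⟩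
    obtain ⟨l', hl', hVl'⟩ := Set.mem_iUnion₂.1 hVu
    have hVs : V ∈ l'.strip W := hB's l' hVl'
    have hag : l₀.dist l' ≤ r₁ + r₂ := by
      rw [hW] at hVs hVb
      exact k4f_agree R T w r₁ r₂ l₀ l₁ l' hl₁ hl' hd₁ V hVT' hV hVs hVb
    refine ⟨k4fPB r₂ l', Finset.mem_filter.2 ⟨hΛm l₀ l' (by linarith), Finset.mem_image_of_mem _ hl'⟩, ?_⟩
    exact Set.mem_iUnion₂.2 ⟨l', Finset.mem_filter.2 ⟨hl', rfl⟩, hVl'⟩

/-! ## The mass bookkeeping in one parent -/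

/-- the successful incidences of one parent: narrow heavy state, velocity in the predicted set, outside the bad overlaps -/
def k4fEs {Ω D V : Type*} (vel : Ω → V) (st : Ω → D) (Rs : Set Ω) (Tst : D → Set V) (Nar Hv : Set D) (Bad : Set V) : Set Ω :=
  Rs ∩ {x | st x ∈ Nar ∧ st x ∈ Hv ∧ vel x ∈ Tst (st x) ∧ vel x ∉ Bad}

/-- **L-252-S4F-E1** (~200 l.).  **One parent** (pure measure theory).  `E` = end histories, `S e` their events, `L e` the list of the states on `Rs ∩ S e`, `Tst d` the velocity set predicted by the state `d`, `pw d` its (enlarged) palette weight, `pb` that of `Bad`.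
PLAN.   `occ := univ.biUnion L` (classical): `x ∈ Rs → st x ∈ occ`.      (a) measurability: `Es = ⋃ d ∈ occ.filter (· ∈ Nar ∩ Hv), Rs ∩ st⁻¹{d} ∩ vel⁻¹ (Tst d) ∩ vel⁻¹ Badᶜ`.
(b) `κ μ(Rs ∩ {st ∈ Nar}) ≤ ∑ d ∈ occ ∩ Nar, κ μ(Rs ∩ st⁻¹{d}) ≤ ∑ d ∈ occ ∩ Nar, μ(En d)`, `En d := Rs ∩ st⁻¹{d} ∩ vel⁻¹ (Tst d)`, `= μ(⋃ d, En d)` (disjoint, measurable: `measure_biUnion_finset`).
(c) `⋃ d ∈ occ ∩ Nar, En d ⊆ Es ∪ Light ∪ BadEv`, `Light := ⋃ e, ⋃ d ∈ (L e).filter (· ∉ Hv), S e ∩ vel⁻¹ (Tst d)`, `BadEv := ⋃ e, S e ∩ vel⁻¹ Bad`.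
(d) `μ Light ≤ ∑ e ∑ d ∈ .., c pw d ref e ≤ ∑ e, K c κN ref e` (`d ∉ Hv` means `pw d < κN`);   `μ BadEv ≤ ∑ e, c pb ref e`. -/
theorem k4f_parent {Ω D E V : Type*} [MeasurableSpace Ω] [MeasurableSpace V] [Fintype E] (μ : Measure Ω) (vel : Ω → V) (hvel : Measurable vel)
    (st : Ω → D) (hst : ∀ d, MeasurableSet (st ⁻¹' {d})) (Rs : Set Ω) (hRs : MeasurableSet Rs) (S : E → Set Ω) (hcov : Rs ⊆ ⋃ e, S e) (ref : E → ℝ≥0∞)
    (L : E → Finset D) (K : ℝ≥0∞) (hL : ∀ e, ((L e).card : ℝ≥0∞) ≤ K) (hLs : ∀ e, ∀ x ∈ Rs ∩ S e, st x ∈ L e) (c : ℝ≥0∞)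
    (Tst : D → Set V) (hTst : ∀ d, MeasurableSet (Tst d)) (pw : D → ℝ≥0∞) (h1 : ∀ e d, μ (S e ∩ {x | vel x ∈ Tst d}) ≤ c * pw d * ref e)
    (Nar : Set D) (κ : ℝ≥0∞) (hnar : ∀ d ∈ Nar, κ * μ (Rs ∩ st ⁻¹' {d}) ≤ μ (Rs ∩ st ⁻¹' {d} ∩ {x | vel x ∈ Tst d}))
    (κN : ℝ≥0∞) (Bad : Set V) (hBad : MeasurableSet Bad) (pb : ℝ≥0∞) (h2 : ∀ e, μ (S e ∩ {x | vel x ∈ Bad}) ≤ c * pb * ref e) :
    MeasurableSet (k4fEs vel st Rs Tst Nar {d | κN ≤ pw d} Bad) ∧
      κ * μ (Rs ∩ {x | st x ∈ Nar}) ≤ μ (k4fEs vel st Rs Tst Nar {d | κN ≤ pw d} Bad) + (K * c * κN + c * pb) * ∑ e, ref e := by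
  classical
  set Hv : Set D := {d | κN ≤ pw d} with hHv
  set occ : Finset D := Finset.univ.biUnion L with hoccdef
  have hex : ∀ x ∈ Rs, ∃ e, x ∈ S e ∧ st x ∈ L e := by
    intro x hx
    obtain ⟨e, he⟩ := Set.mem_iUnion.1 (hcov hx)
    exact ⟨e, he, hLs e x ⟨hx, he⟩⟩
  have hocc : ∀ x ∈ Rs, st x ∈ occ := by
    intro x hx
    obtain ⟨e, _, he⟩ := hex x hx
    exact Finset.mem_biUnion.2 ⟨e, Finset.mem_univ _, he⟩
  have hmT : ∀ d, MeasurableSet {x | vel x ∈ Tst d} := fun d => hvel (hTst d)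
  have hmB : MeasurableSet {x | vel x ∈ Bad} := hvel hBad
  refine ⟨?_, ?_⟩
  · -- measurability
    have e : k4fEs vel st Rs Tst Nar Hv Bad
        = ⋃ d ∈ occ.filter (fun d => d ∈ Nar ∧ d ∈ Hv), (Rs ∩ st ⁻¹' {d} ∩ {x | vel x ∈ Tst d} ∩ {x | vel x ∈ Bad}ᶜ) := by
      ext x
      simp only [k4fEs, Set.mem_inter_iff, Set.mem_ofPred_eq, Set.mem_iUnion, Finset.mem_filter, Set.mem_preimage,
        Set.mem_singleton_iff, Set.mem_compl_iff, exists_prop]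
      constructor
      · rintro ⟨hx, a, b, c', d'⟩
        exact ⟨st x, ⟨hocc x hx, a, b⟩, ⟨⟨hx, rfl⟩, c'⟩, d'⟩
      · rintro ⟨d, ⟨_, a, b⟩, ⟨⟨hx, rfl⟩, c'⟩, d'⟩
        exact ⟨hx, a, b, c', d'⟩
    rw [e]
    exact Finset.measurableSet_biUnion _ fun d _ => (((hRs.inter (hst d)).inter (hmT d)).inter hmB.compl)
  · set occN : Finset D := occ.filter (fun d => d ∈ Nar) with hoccN
    set En : D → Set Ω := fun d => Rs ∩ st ⁻¹' {d} ∩ {x | vel x ∈ Tst d} with hEn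
    set Light : Set Ω := ⋃ e, ⋃ d ∈ (L e).filter (fun d => d ∉ Hv), (S e ∩ {x | vel x ∈ Tst d}) with hLight
    set BadEv : Set Ω := ⋃ e, (S e ∩ {x | vel x ∈ Bad}) with hBadEv
    -- (b)
    have hb1 : Rs ∩ {x | st x ∈ Nar} ⊆ ⋃ d ∈ occN, (Rs ∩ st ⁻¹' {d}) := by
      rintro x ⟨hx, hn⟩
      simp only [Set.mem_iUnion, exists_prop]
      exact ⟨st x, Finset.mem_filter.2 ⟨hocc x hx, hn⟩, hx, rfl⟩
    have hb2 : κ * μ (Rs ∩ {x | st x ∈ Nar}) ≤ ∑ d ∈ occN, μ (En d) := by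
      calc κ * μ (Rs ∩ {x | st x ∈ Nar}) ≤ κ * ∑ d ∈ occN, μ (Rs ∩ st ⁻¹' {d}) :=
            mul_le_mul_right ((measure_mono hb1).trans (measure_biUnion_finset_le _ _)) _
        _ = ∑ d ∈ occN, κ * μ (Rs ∩ st ⁻¹' {d}) := Finset.mul_sum _ _ _
        _ ≤ ∑ d ∈ occN, μ (En d) := Finset.sum_le_sum fun d hd => hnar d (Finset.mem_filter.1 hd).2
    have hb3 : ∑ d ∈ occN, μ (En d) = μ (⋃ d ∈ occN, En d) := by
      refine (measure_biUnion_finset ?_ fun d _ => ((hRs.inter (hst d)).inter (hmT d))).symm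
      intro d _ d' _ hdd
      refine Set.disjoint_left.2 ?_
      rintro x ⟨⟨_, h⟩, _⟩ ⟨⟨_, h'⟩, _⟩
      exact hdd (h.symm.trans h')
    -- (c)
    have hc : (⋃ d ∈ occN, En d) ⊆ k4fEs vel st Rs Tst Nar Hv Bad ∪ Light ∪ BadEv := by
      intro x hx
      simp only [Set.mem_iUnion, exists_prop] at hx
      obtain ⟨d, hd, ⟨hxR, hxd⟩, hxT⟩ := hx
      have hxd' : st x = d := hxd
      have hdN : d ∈ Nar := (Finset.mem_filter.1 hd).2
      obtain ⟨e, hxe, hLe⟩ := hex x hxR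
      by_cases hB : vel x ∈ Bad
      · exact Or.inr (Set.mem_iUnion.2 ⟨e, hxe, hB⟩)
      · by_cases hH : d ∈ Hv
        · refine Or.inl (Or.inl ⟨hxR, ?_⟩)
          subst hxd'
          exact ⟨hdN, hH, hxT, hB⟩
        · refine Or.inl (Or.inr ?_)
          simp only [hLight, Set.mem_iUnion, exists_prop]
          exact ⟨e, d, Finset.mem_filter.2 ⟨hxd' ▸ hLe, hH⟩, hxe, hxT⟩
    -- (d)
    have hd1 : μ Light ≤ K * c * κN * ∑ e, ref e := by
      calc μ Light ≤ ∑ e, μ (⋃ d ∈ (L e).filter (fun d => d ∉ Hv), (S e ∩ {x | vel x ∈ Tst d})) := by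
            exact measure_iUnion_fintype_le μ (fun e => ⋃ d ∈ (L e).filter (fun d => d ∉ Hv), (S e ∩ {x | vel x ∈ Tst d}))
        _ ≤ ∑ e, K * c * κN * ref e := by
            refine Finset.sum_le_sum fun e _ => ?_
            calc μ (⋃ d ∈ (L e).filter (fun d => d ∉ Hv), (S e ∩ {x | vel x ∈ Tst d}))
                ≤ ∑ d ∈ (L e).filter (fun d => d ∉ Hv), μ (S e ∩ {x | vel x ∈ Tst d}) := measure_biUnion_finset_le _ _
              _ ≤ ∑ d ∈ (L e).filter (fun d => d ∉ Hv), c * κN * ref e := by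
                  refine Finset.sum_le_sum fun d hd => (h1 e d).trans ?_
                  have : pw d ≤ κN := le_of_lt (not_le.1 (Finset.mem_filter.1 hd).2)
                  gcongr
              _ = (((L e).filter (fun d => d ∉ Hv)).card : ℝ≥0∞) * (c * κN * ref e) := by
                  rw [Finset.sum_const, nsmul_eq_mul]
              _ ≤ K * (c * κN * ref e) := by
                  refine mul_le_mul_left ?_ _
                  exact le_trans (by exact_mod_cast Finset.card_filter_le _ _) (hL e)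
              _ = K * c * κN * ref e := by ring
        _ = K * c * κN * ∑ e, ref e := (Finset.mul_sum _ _ _).symm
    have hd2 : μ BadEv ≤ c * pb * ∑ e, ref e := by
      calc μ BadEv ≤ ∑ e, μ (S e ∩ {x | vel x ∈ Bad}) := by
            exact measure_iUnion_fintype_le μ (fun e => S e ∩ {x | vel x ∈ Bad})
        _ ≤ ∑ e, c * pb * ref e := Finset.sum_le_sum fun e _ => h2 e
        _ = c * pb * ∑ e, ref e := (Finset.mul_sum _ _ _).symm
    calc κ * μ (Rs ∩ {x | st x ∈ Nar}) ≤ μ (⋃ d ∈ occN, En d) := hb3 ▸ hb2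
      _ ≤ μ (k4fEs vel st Rs Tst Nar Hv Bad ∪ Light ∪ BadEv) := measure_mono hc
      _ ≤ μ (k4fEs vel st Rs Tst Nar Hv Bad) + μ Light + μ BadEv :=
          (measure_union_le _ _).trans (add_le_add_left (measure_union_le _ _) _)
      _ ≤ μ (k4fEs vel st Rs Tst Nar Hv Bad) + K * c * κN * ∑ e, ref e + c * pb * ∑ e, ref e := by gcongr
      _ = μ (k4fEs vel st Rs Tst Nar Hv Bad) + (K * c * κN + c * pb) * ∑ e, ref e := by ring

theorem k4f_eqns_cite2 : True := by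
  have := @k4fCube.eq_1.{0}; have := @k4fThick.eq_1.{0}; have := @k4fPB.eq_1; have := @k4fEs.eq_1.{0, 0, 0}
  trivial

end

end Claimed.Agent.R252
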