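import Claimed.Agent.R252.S4F.PlanarContract
import Claimed.Agent.R252.Base.Sys

/-!
# ROW 252 (S0492), unit S4F, file 3: THE NARROWER PARENT ATLAS as an explicit `KbSys`.      CONTRACT file: every `sorry` is a leaf L-252-S4F-Y*.      Paper-free (read `Base/Pb`, `Base/Sys`: definitions only).

`Q : K4fPart P` = for every world (= parent) `γ` a finite family of velocity classes `β ∈ Q.ι γ` with a line `Q.hat γ β` and a velocity set `Q.A γ β`, a selection `Q.Es γ`, the width `Q.r`, the range `Q.M` of the position bins.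
`Q.sys : KbSys P` : ONE time interval (`n = 0`), labels `(γ, β, m)`, `m` = `r`-bin of the `n̂`-position at time `1/2`; frame `[τ̂ | r n̂]`, centre `(m r + (t - 1/2) b̂) n̂`, test = the native test of the world.
`KbB .two = Fin 2 → ℝ` and `Matrix (Fin KbVer.two.j) ..` `= Matrix (Fin 2) ..` hold by `rfl` (use `show`/`change` when `simp` does not see it).
-/

set_option autoImplicit false

namespace Claimed.Agent.R252

open MeasureTheory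
open scoped ENNReal BigOperators

noncomputable section

/-- `KbB .two = Fin 2 → ℝ` (by `rfl`) -/
abbrev k4fC (y : KbB KbVer.two) : Fin 2 → ℝ := y

/-- velocity classes of all parents (data only) -/
structure K4fPart (P : KbPb KbVer.two) where
  r : ℝ
  M : ℕ
  ι : P.W → Finset (Fin 3 → ℤ)
  hat : P.W → (Fin 3 → ℤ) → K4fLine
  A : P.W → (Fin 3 → ℤ) → Set (Fin 2 → ℝ)
  Es : P.W → Set (P.Lam × ℝ)

namespace K4fPart

variable {P : KbPb KbVer.two} (Q : K4fPart P)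

/-- the `n̂`-position of a trajectory at the middle of the block -/
def pos (γ : P.W) (β : Fin 3 → ℤ) (l : P.Lam) : ℝ :=
  (Q.hat γ β).n 0 * k4fC (kbY (P.co γ l) (1 / 2)) 0 + (Q.hat γ β).n 1 * k4fC (kbY (P.co γ l) (1 / 2)) 1

/-- the labels `(γ, β, m)` -/
abbrev Lb : Type := Σ γ : P.W, {β // β ∈ Q.ι γ} × {m : ℤ // m ∈ Finset.Icc (-(Q.M : ℤ)) (Q.M : ℤ)}

/-- the trajectories of a label -/
def asg (c : Q.Lb) : Set P.Lam :=
  {l | l ∈ P.Sp c.1 ∧ k4fC (kbV (P.co c.1 l)) ∈ Q.A c.1 c.2.1.1 ∧ ⌊Q.pos c.1 c.2.1.1 l / Q.r⌋ = c.2.2.1}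

/-- the chart of a label -/
def chart (c : Q.Lb) : KbChart KbVer.two where
  y0 := fun i => (((c.2.2.1 : ℤ) : ℝ) * Q.r - (Q.hat c.1 c.2.1.1).b / 2) * (Q.hat c.1 c.2.1.1).n i
  y1 := fun i => (Q.hat c.1 c.2.1.1).b * (Q.hat c.1 c.2.1.1).n i
  D := k4fD (Q.hat c.1 c.2.1.1) Q.r
  Di := k4fDi (Q.hat c.1 c.2.1.1) Q.r
  T := P.Pst c.1

/-- **the narrower atlas** -/
def sys : KbSys P where
  n := 0
  C := Q.Lb
  fC := inferInstance
  wd := fun c => c.1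
  iv := fun _ => 0
  A := Q.asg
  S := fun c => Q.Es c.1 ∩ Q.asg c ×ˢ kbI 0 0
  ch := Q.chart

/-- the requirements on the data; `T` = slack of the native bounds, `η` = half width of the strips -/
structure Ok (T η : ℝ) : Prop where
  r_pos : 0 < Q.r
  r_le : Q.r ≤ 1
  M_ge : 2 * T / Q.r + 1 ≤ Q.M
  unit : ∀ γ, ∀ β ∈ Q.ι γ, (Q.hat γ β).IsUnit
  A_meas : ∀ γ β, MeasurableSet (Q.A γ β)
  A_disj : ∀ γ β β', β ≠ β' → Disjoint (Q.A γ β) (Q.A γ β')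
  A_strip : ∀ γ, ∀ β ∈ Q.ι γ, Q.A γ β ∩ k4fBox 0 T ⊆ (Q.hat γ β).strip η
  Es_meas : ∀ γ, MeasurableSet (Q.Es γ)
  Es_sub : ∀ γ, Q.Es γ ⊆ P.Ev γ

end K4fPart

theorem k4f_eqns_cite3 : True := by
  have := @K4fPart.pos.eq_1; have := @K4fPart.asg.eq_1; have := @K4fPart.chart.eq_1; have := @K4fPart.sys.eq_1
  trivial

variable {P : KbPb KbVer.two} (Q : K4fPart P)

theorem k4f_y1_V_meas (hP : P.WF) (γ : P.W) : Measurable fun l => k4fC (kbV (P.co γ l)) :=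
  (hP.co_meas γ).snd.fst

theorem k4f_y1_Y_apply (l : KbTj KbVer.two) (t : ℝ) (i : Fin 2) : k4fC (kbY l t) i = k4fC l.1 i + t * k4fC l.2.1 i := rfl

theorem k4f_y1_pos_meas (hP : P.WF) (γ : P.W) (β : Fin 3 → ℤ) : Measurable fun l => Q.pos γ β l := by
  have h1 : Measurable fun l => k4fC (P.co γ l).1 := (hP.co_meas γ).fst
  have h2 : Measurable fun l => k4fC (P.co γ l).2.1 := (hP.co_meas γ).snd.fst
  have hY : ∀ i : Fin 2, Measurable fun l => k4fC (kbY (P.co γ l) (1 / 2)) i := by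
    intro i
    simp only [k4f_y1_Y_apply]
    exact ((measurable_pi_apply i).comp h1).add (((measurable_pi_apply i).comp h2).const_mul _)
  unfold K4fPart.pos
  exact ((hY 0).const_mul _).add ((hY 1).const_mul _)

theorem k4f_y1_asg_meas (hP : P.WF) (T η : ℝ) (hQ : Q.Ok T η) (c : Q.Lb) : MeasurableSet (Q.asg c) := by
  have h1 : MeasurableSet {l | k4fC (kbV (P.co c.1 l)) ∈ Q.A c.1 c.2.1.1} := k4f_y1_V_meas hP c.1 (hQ.A_meas _ _)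
  have h2 : MeasurableSet {l | ⌊Q.pos c.1 c.2.1.1 l / Q.r⌋ = c.2.2.1} :=
    ((k4f_y1_pos_meas Q hP c.1 c.2.1.1).div_const _).floor (measurableSet_singleton _)
  exact (hP.Sp_meas c.1).inter (h1.inter h2)

/-- **L-252-S4F-Y1** (~120 l.).  `iv_lt`: `0 < 2^0`.  `A_meas`: `P.co γ` measurable (`hP.co_meas`), so `l ↦ kbV (co l)`, `l ↦ kbY (co l) (1/2) i` are (`kbV`, `kbY` are projections / linear; `measurable_pi_apply`, `Measurable.fst/snd`), `Int.measurable_floor`… and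
`measurableSet_eq_fun` / preimage of `{m}`.  `A_disj`: equal worlds, different labels: `β ≠ β'` (`hQ.A_disj`) or `β = β'`, `m ≠ m'` (`Sigma`/`Subtype` ext; do `obtain ⟨γ, ⟨β, hβ⟩, ⟨m, hm⟩⟩ := c`).  `S_sub`: `hQ.Es_sub`.  `inv`: `k4f_D_inv`.  `adm`: `hP.Pst_adm`. -/
theorem k4f_sys_wf (hP : P.WF) (T η : ℝ) (hQ : Q.Ok T η) : Q.sys.WF := by
  refine ⟨fun _ => ?_, fun c => k4f_y1_asg_meas Q hP T η hQ c, fun c l hl => hl.1, ?_, fun c => ?_, fun c x hx => ?_, fun c => ?_,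
    fun c => hP.Pst_adm _⟩
  · show (0 : ℕ) < 2 ^ 0
    norm_num
  · rintro ⟨γ, ⟨β, hβ⟩, ⟨m, hm⟩⟩ ⟨γ', ⟨β', hβ'⟩, ⟨m', hm'⟩⟩ hne hw -
    have hw' : γ = γ' := hw
    subst hw'
    rw [Set.disjoint_left]
    intro l hl hl'
    have a1 : k4fC (kbV (P.co γ l)) ∈ Q.A γ β := hl.2.1
    have a2 : k4fC (kbV (P.co γ l)) ∈ Q.A γ β' := hl'.2.1
    have b1 : ⌊Q.pos γ β l / Q.r⌋ = m := hl.2.2
    have b2 : ⌊Q.pos γ β' l / Q.r⌋ = m' := hl'.2.2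
    by_cases hb : β = β'
    · subst hb
      have hmm : m = m' := b1.symm.trans b2
      subst hmm
      exact hne rfl
    · exact Set.disjoint_left.1 (hQ.A_disj γ β β' hb) a1 a2
  · exact (hQ.Es_meas _).inter ((k4f_y1_asg_meas Q hP T η hQ c).prod measurableSet_Ico)
  · exact ⟨hQ.Es_sub _ hx.1, hx.2⟩
  · exact k4f_D_inv _ (hQ.unit c.1 c.2.1.1 c.2.1.2) Q.r hQ.r_pos.ne'

theorem k4f_I00 : kbI 0 0 = Set.Ico (0 : ℝ) 1 := by
  unfold kbI kbQ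
  simp

theorem k4f_Mn_le (l : K4fLine) (hu : l.IsUnit) (r : ℝ) (hr : 0 < r) (hr1 : r ≤ 1) : kbMn (k4fD l r) ≤ 4 := by
  have h0 := k4f_unit_le hu 0
  have h1 := k4f_unit_le hu 1
  have e : kbMn (k4fD l r) = |l.n 1| + r * |l.n 0| + (|l.n 0| + r * |l.n 1|) := by
    unfold kbMn k4fD
    simp [Fin.sum_univ_two, abs_mul, abs_of_pos hr]
  rw [e]
  have a0 := abs_nonneg (l.n 0)
  have a1 := abs_nonneg (l.n 1)
  nlinarith

theorem k4f_sys_box (T η : ℝ) (hT : P.Ntv T) (hQ : Q.Ok T η) (c : Q.Lb) (l : P.Lam) (hl : l ∈ Q.asg c) (t : ℝ) (ht : t ∈ Set.Icc (0 : ℝ) 1) :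
    ‖(Q.chart c).Di.mulVec (kbY (P.co c.1 l) t - (Q.chart c).yc t)‖ ≤ max (4 * T) (1 + η / (2 * Q.r)) := by
  obtain ⟨γ, ⟨β, hβ⟩, ⟨m, hm⟩⟩ := c
  obtain ⟨hS, hA, hfl⟩ := hl
  change l ∈ P.Sp γ at hS
  change k4fC (kbV (P.co γ l)) ∈ Q.A γ β at hA
  change ⌊Q.pos γ β l / Q.r⌋ = m at hfl
  have hr := hQ.r_pos
  have hu := hQ.unit γ β hβ
  have hb : ∀ s ∈ Set.Icc (0 : ℝ) 1, ‖kbY (P.co γ l) s‖ ≤ T ∧ ‖kbV (P.co γ l)‖ ≤ T := by
    intro s hs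
    have := hT.base γ l hS s hs
    have a1 := norm_nonneg (kbV (P.co γ l))
    have a2 := norm_nonneg (kbY (P.co γ l) s)
    constructor <;> linarith
  have hT0 : 0 ≤ T := (norm_nonneg _).trans (hb t ht).1
  have hK : ∀ s ∈ Set.Icc (0 : ℝ) 1, ∀ i : Fin 2, |k4fC (P.co γ l).1 i + s * k4fC (P.co γ l).2.1 i| ≤ T := by
    intro s hs i
    exact (norm_le_pi_norm (kbY (P.co γ l) s) i).trans (hb s hs).1
  have hVb : k4fC (kbV (P.co γ l)) ∈ k4fBox 0 T := by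
    intro i
    have := (norm_le_pi_norm (kbV (P.co γ l)) i).trans (hb t ht).2
    simpa using this
  have hV : |(Q.hat γ β).ev (k4fC (P.co γ l).2.1)| ≤ η := hQ.A_strip γ β hβ ⟨hA, hVb⟩
  have hp : |(Q.hat γ β).n 0 * (k4fC (P.co γ l).1 0 + 1 / 2 * k4fC (P.co γ l).2.1 0)
      + (Q.hat γ β).n 1 * (k4fC (P.co γ l).1 1 + 1 / 2 * k4fC (P.co γ l).2.1 1) - (m : ℝ) * Q.r| ≤ Q.r := by
    have e : (Q.hat γ β).n 0 * (k4fC (P.co γ l).1 0 + 1 / 2 * k4fC (P.co γ l).2.1 0)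
      + (Q.hat γ β).n 1 * (k4fC (P.co γ l).1 1 + 1 / 2 * k4fC (P.co γ l).2.1 1) = Q.pos γ β l := rfl
    rw [e]
    have a1 := Int.floor_le (Q.pos γ β l / Q.r)
    have a2 := Int.lt_floor_add_one (Q.pos γ β l / Q.r)
    rw [hfl] at a1 a2
    rw [le_div_iff₀ hr] at a1
    rw [div_lt_iff₀ hr] at a2
    rw [abs_le]
    constructor <;> nlinarith
  have hK0 : 0 ≤ max (4 * T) (1 + η / (2 * Q.r)) := le_max_of_le_left (by linarith)
  rw [pi_norm_le_iff_of_nonneg hK0]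
  intro i
  have key := k4f_frame (Q.hat γ β) hu Q.r η T ((m : ℝ) * Q.r) hr (k4fC (P.co γ l).1) (k4fC (P.co γ l).2.1) hK hV hp t ht i
  have e : (kbY (P.co γ l) t - (Q.chart ⟨γ, ⟨β, hβ⟩, ⟨m, hm⟩⟩).yc t : KbB KbVer.two)
      = fun k => k4fC (P.co γ l).1 k + t * k4fC (P.co γ l).2.1 k - ((m : ℝ) * Q.r + (t - 1 / 2) * (Q.hat γ β).b) * (Q.hat γ β).n k := by
    funext k
    simp only [kbY, KbChart.yc, K4fPart.chart, Pi.sub_apply, Pi.add_apply, Pi.smul_apply, smul_eq_mul]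
    ring
  rw [e]
  refine le_trans key (max_le_max (by linarith) le_rfl)

/-- **L-252-S4F-Y2** (~150 l.).  `q = kbQ 0 = 1`, `I c = kbI 0 0 = Ico 0 1 ⊆ Icc 0 1`.  `size`: `kbMn (k4fD l̂ r) = |n₁| + r|n₀| + |n₀| + r|n₁| ≤ 4` (`Fin.sum_univ_two`, `k4f_unit_le`, `r ≤ 1`).
`box`: `pi_norm_le_iff_of_nonneg`, then `k4f_frame l̂ _ r η T (m r) ..` with `y₀ = (co l).1`, `V = (co l).2.1`; `hK` from `hT.base` (`norm_le_pi_norm`, norms are nonnegative), `hV` from `hQ.A_strip` (velocity in the box by `hT.base`), `hp` from `⌊pos/r⌋ = m`.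
`val, dw, dw_low, dww`: `hT.sig`, `hT.dw`, `hT.dw_low` (`S c ⊆ Ev`), `hT.dww`, monotone in the slack (`P.B γ > 0`). -/
theorem k4f_sys_geo (hP : P.WF) (T η : ℝ) (hT1 : 1 ≤ T) (hT : P.Ntv T) (hQ : Q.Ok T η) : Q.sys.Geo (max (4 * T) (1 + η / (2 * Q.r))) 1 := by
  have hKT : T ≤ max (4 * T) (1 + η / (2 * Q.r)) := le_max_of_le_left (by linarith)
  have hI : ∀ t ∈ kbI 0 0, t ∈ Set.Icc (0 : ℝ) 1 := by
    intro t ht
    rw [k4f_I00] at ht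
    exact ⟨ht.1, ht.2.le⟩
  refine ⟨fun c => ?_, fun c l hl t ht => ?_, fun c l hl t ht => ?_, fun c l hl t ht => ?_, fun c x hx => ?_, fun c t y w => ?_⟩
  · have h1 : kbMn (k4fD (Q.hat c.1 c.2.1.1) Q.r) ≤ 4 := k4f_Mn_le _ (hQ.unit c.1 c.2.1.1 c.2.1.2) Q.r hQ.r_pos hQ.r_le
    have hq : Q.sys.q = 1 := by
      change kbQ 0 = 1
      simp [kbQ]
    rw [hq, one_mul]
    refine le_trans (le_trans h1 ?_) (le_max_left _ _)
    linarith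
  · exact k4f_sys_box Q T η hT hQ c l hl t (hI t ht)
  · rw [mul_one]
    exact (hT.sig c.1 l hl.1 t (hI t ht)).trans hKT
  · have hB := (hP.B_pos c.1).le
    refine (hT.dw c.1 l hl.1 t (hI t ht)).trans ?_
    exact mul_le_mul_of_nonneg_right hKT hB
  · refine (hT.dw_low c.1 x (hQ.Es_sub c.1 hx.1)).trans ?_
    exact mul_le_mul_of_nonneg_right hKT (abs_nonneg _)
  · rw [mul_one]
    refine (hT.dww c.1 t y w).trans ?_
    exact mul_le_mul_of_nonneg_right hKT (sq_nonneg _)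

/-- **L-252-S4F-Y3** (~15 l.): `k4f_D_det`, `abs_neg`, `abs_of_pos`. -/
theorem k4f_sys_J (T η : ℝ) (hQ : Q.Ok T η) (c : Q.sys.C) : (Q.sys.ch c).J = Q.r := by
  show |(k4fD (Q.hat c.1 c.2.1.1) Q.r).det| = Q.r
  rw [k4f_D_det _ (hQ.unit c.1 c.2.1.1 c.2.1.2), abs_neg, abs_of_pos hQ.r_pos]

theorem k4f_sys_T (c : Q.sys.C) : (Q.sys.ch c).T = P.Pst (Q.sys.wd c) := rfl

theorem k4f_sys_n : Q.sys.n = 0 := rfl

theorem k4f_mu_one_null (P : KbPb KbVer.two) (γ : P.W) : P.mu γ {x | x.2 = 1} = 0 := by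
  have : SFinite KbPb.tm := by unfold KbPb.tm; infer_instance
  have h1 : {x : P.Lam × ℝ | x.2 = 1} = Set.univ ×ˢ {1} := by ext x; simp
  have h2 : KbPb.tm {1} = 0 := by
    refine le_antisymm ?_ bot_le
    calc KbPb.tm {1} ≤ volume ({1} : Set ℝ) := Measure.restrict_apply_le _ _
      _ = 0 := Real.volume_singleton
  refine le_antisymm ?_ bot_le
  calc P.mu γ {x | x.2 = 1} ≤ ((P.nu γ).prod KbPb.tm) {x | x.2 = 1} := Measure.restrict_apply_le _ _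
    _ = 0 := by rw [h1, Measure.prod_prod, h2, mul_zero]

theorem k4f_pos_le (T : ℝ) (hT : P.Ntv T) (γ : P.W) (β : Fin 3 → ℤ) (hu : (Q.hat γ β).IsUnit) (l : P.Lam) (hl : l ∈ P.Sp γ) :
    |Q.pos γ β l| ≤ 2 * T := by
  have hb := hT.base γ l hl (1 / 2) ⟨by norm_num, by norm_num⟩
  have hy : ‖kbY (P.co γ l) (1 / 2)‖ ≤ T := by
    have := norm_nonneg (kbV (P.co γ l))
    linarith
  have hyi : ∀ i : Fin 2, |k4fC (kbY (P.co γ l) (1 / 2)) i| ≤ T := fun i => (norm_le_pi_norm (kbY (P.co γ l) (1 / 2)) i).trans hy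
  have hT0 : 0 ≤ T := (norm_nonneg _).trans hy
  have hm : ∀ i : Fin 2, |(Q.hat γ β).n i * k4fC (kbY (P.co γ l) (1 / 2)) i| ≤ T := by
    intro i
    rw [abs_mul]
    calc _ ≤ 1 * T := mul_le_mul (k4f_unit_le hu i) (hyi i) (abs_nonneg _) zero_le_one
      _ = T := one_mul T
  unfold K4fPart.pos
  calc _ ≤ _ + _ := abs_add_le _ _
    _ ≤ T + T := add_le_add (hm 0) (hm 1)
    _ = 2 * T := by ring

/-- **L-252-S4F-Y4** (~150 l.).  For fixed `γ`: `Es γ ⊆ (⋃ c with c.1 = γ, S c) ∪ {x | x.2 = 1}` : `x = (l,t) ∈ Es γ ⊆ Ev γ ⊆ Sp γ × Icc 0 1`; `β` from `hcov`; `m := ⌊pos/r⌋`, `|pos| ≤ 2T` (`k4f_unit_le`, `hT.base`) so `|m| ≤ 2T/r + 1 ≤ M`.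
`P.mu γ {x | x.2 = 1} = 0` (`KbPb.mu`, `Measure.restrict_apply_le`/`le_trans`, product measure of `univ ×ˢ {1}`, `KbPb.tm`, `Real.volume_singleton`).  So `μ_γ (Es γ) ≤ ∑ over labels with first component γ` (`measure_iUnion_le`/`measure_biUnion_finset_le`);
`Y.mass = ∑ c : Σ.., .. = ∑ γ, ∑ z, ..` (`Fintype.sum_sigma`), `Finset.mul_sum`. -/
theorem k4f_sys_mass (hP : P.WF) (T η : ℝ) (hT : P.Ntv T) (hQ : Q.Ok T η)
    (hcov : ∀ γ, ∀ x ∈ Q.Es γ, ∃ β ∈ Q.ι γ, k4fC (kbV (P.co γ x.1)) ∈ Q.A γ β) : P.mass Q.Es ≤ Q.sys.mass := by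
  classical
  have key : ∀ γ, P.mu γ (Q.Es γ) ≤ ∑ z : {β // β ∈ Q.ι γ} × {m : ℤ // m ∈ Finset.Icc (-(Q.M : ℤ)) (Q.M : ℤ)},
      P.mu γ (Q.Es γ ∩ Q.asg ⟨γ, z⟩ ×ˢ kbI 0 0) := by
    intro γ
    have hsub : Q.Es γ ⊆ (⋃ z : {β // β ∈ Q.ι γ} × {m : ℤ // m ∈ Finset.Icc (-(Q.M : ℤ)) (Q.M : ℤ)},
        Q.Es γ ∩ Q.asg ⟨γ, z⟩ ×ˢ kbI 0 0) ∪ {x | x.2 = 1} := by
      intro x hx
      by_cases h1 : x.2 = 1
      · exact Or.inr h1
      left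
      have hE := hP.Ev_sub γ (hQ.Es_sub γ hx)
      obtain ⟨β, hβ, hV⟩ := hcov γ x hx
      have hpos := k4f_pos_le Q T hT γ β (hQ.unit γ β hβ) x.1 hE.1
      have hr := hQ.r_pos
      have hM := hQ.M_ge
      have hdiv : |Q.pos γ β x.1 / Q.r| ≤ 2 * T / Q.r := by
        rw [abs_div, abs_of_pos hr]
        gcongr
      have hm : ⌊Q.pos γ β x.1 / Q.r⌋ ∈ Finset.Icc (-(Q.M : ℤ)) (Q.M : ℤ) := by
        rw [Finset.mem_Icc]
        have a1 := Int.floor_le (Q.pos γ β x.1 / Q.r)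
        have a2 := Int.lt_floor_add_one (Q.pos γ β x.1 / Q.r)
        have a3 := abs_le.1 hdiv
        constructor
        · have : (-(Q.M : ℤ) : ℝ) < (⌊Q.pos γ β x.1 / Q.r⌋ : ℝ) + 1 - 0 := by
            push_cast
            linarith [a3.1]
          have h' : (-(Q.M : ℤ) : ℝ) < ((⌊Q.pos γ β x.1 / Q.r⌋ + 1 : ℤ) : ℝ) := by
            push_cast
            push_cast at this
            linarith
          have h'' : -(Q.M : ℤ) < ⌊Q.pos γ β x.1 / Q.r⌋ + 1 := by exact_mod_cast h'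
          omega
        · have : ((⌊Q.pos γ β x.1 / Q.r⌋ : ℤ) : ℝ) ≤ ((Q.M : ℤ) : ℝ) := by
            push_cast
            linarith [a3.2]
          exact_mod_cast this
      refine Set.mem_iUnion.2 ⟨(⟨β, hβ⟩, ⟨_, hm⟩), hx, ?_, ?_⟩
      · exact ⟨hE.1, hV, rfl⟩
      · have : kbI 0 0 = Set.Ico (0 : ℝ) 1 := by
          unfold kbI kbQ
          simp
        rw [this]
        exact ⟨hE.2.1, lt_of_le_of_ne hE.2.2 h1⟩
    calc P.mu γ (Q.Es γ) ≤ P.mu γ ((⋃ z : {β // β ∈ Q.ι γ} × {m : ℤ // m ∈ Finset.Icc (-(Q.M : ℤ)) (Q.M : ℤ)},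
          Q.Es γ ∩ Q.asg ⟨γ, z⟩ ×ˢ kbI 0 0) ∪ {x | x.2 = 1}) := measure_mono hsub
      _ ≤ P.mu γ (⋃ z : {β // β ∈ Q.ι γ} × {m : ℤ // m ∈ Finset.Icc (-(Q.M : ℤ)) (Q.M : ℤ)},
          Q.Es γ ∩ Q.asg ⟨γ, z⟩ ×ˢ kbI 0 0) + P.mu γ {x | x.2 = 1} := measure_union_le _ _
      _ = P.mu γ (⋃ z : {β // β ∈ Q.ι γ} × {m : ℤ // m ∈ Finset.Icc (-(Q.M : ℤ)) (Q.M : ℤ)},
          Q.Es γ ∩ Q.asg ⟨γ, z⟩ ×ˢ kbI 0 0) := by rw [k4f_mu_one_null, add_zero]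
      _ ≤ _ := measure_iUnion_fintype_le _ _
  change ∑ γ, P.om γ * P.mu γ (Q.Es γ) ≤ ∑ c : Q.Lb, P.om c.1 * P.mu c.1 (Q.Es c.1 ∩ Q.asg c ×ˢ kbI 0 0)
  rw [Fintype.sum_sigma]
  refine Finset.sum_le_sum fun γ _ => ?_
  dsimp only
  rw [← Finset.mul_sum]
  gcongr
  exact key γ

/-- the integers within `L / 2` of a real number -/
theorem k4f_y5_count (x L : ℝ) (hL : 0 ≤ L) : ((Finset.Icc ⌈x - L / 2⌉ ⌊x + L / 2⌋).card : ℝ) ≤ L + 1 := by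
  rw [Int.card_Icc]
  have h1 := Int.floor_le (x + L / 2)
  have h2 := Int.le_ceil (x - L / 2)
  rcases le_or_gt 0 (⌊x + L / 2⌋ + 1 - ⌈x - L / 2⌉) with h | h
  · have e : (((⌊x + L / 2⌋ + 1 - ⌈x - L / 2⌉).toNat : ℕ) : ℝ) = ((⌊x + L / 2⌋ + 1 - ⌈x - L / 2⌉ : ℤ) : ℝ) := by
      have := Int.toNat_of_nonneg h
      exact_mod_cast congrArg (fun z : ℤ => (z : ℝ)) this
    rw [e]
    push_cast
    linarith
  · rw [Int.toNat_of_nonpos h.le]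
    simp only [Nat.cast_zero]
    linarith

open Classical in
/-- the lists -/
def k4fLst {D : Type} (Λ : P.W → D → Finset (Fin 3 → ℤ)) (η : ℝ) (γ : P.W) (d : D) (o : ℝ × KbB KbVer.two) : Finset Q.Lb :=
  Finset.univ.filter fun c => c.1 = γ ∧ c.2.1.1 ∈ Λ γ d ∧
    |(Q.hat c.1 c.2.1.1).n 0 * k4fC o.2 0 + (Q.hat c.1 c.2.1.1).n 1 * k4fC o.2 1 + (1 / 2 - o.1) * (Q.hat c.1 c.2.1.1).b
      - ((c.2.2.1 : ℤ) : ℝ) * Q.r| ≤ η / 2 + Q.r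

theorem k4f_y5_card (T η : ℝ) (hQ : Q.Ok T η) (hη : 0 ≤ η) {D : Type} (Λ : P.W → D → Finset (Fin 3 → ℤ)) (C₀ : ℝ)
    (hΛc : ∀ γ d, ((Λ γ d).card : ℝ) ≤ C₀) (γ : P.W) (d : D) (o : ℝ × KbB KbVer.two) :
    ((k4fLst Q Λ η γ d o).card : ℝ) ≤ C₀ * (η / Q.r + 3) := by
  classical
  have hr := hQ.r_pos
  have hL : 0 ≤ η / Q.r + 2 := by positivity
  obtain ⟨a, ha⟩ : ∃ a : (Fin 3 → ℤ) → ℝ, a = fun β => ((Q.hat γ β).n 0 * k4fC o.2 0 + (Q.hat γ β).n 1 * k4fC o.2 1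
      + (1 / 2 - o.1) * (Q.hat γ β).b) / Q.r := ⟨_, rfl⟩
  obtain ⟨Tg, hTg⟩ : ∃ Tg : Finset ((Fin 3 → ℤ) × ℤ), Tg = (Λ γ d).biUnion fun β =>
      (Finset.Icc ⌈a β - (η / Q.r + 2) / 2⌉ ⌊a β + (η / Q.r + 2) / 2⌋).image fun m => (β, m) := ⟨_, rfl⟩
  have h1 : (k4fLst Q Λ η γ d o).card ≤ Tg.card := by
    refine Finset.card_le_card_of_injOn (fun c => (c.2.1.1, c.2.2.1)) ?_ ?_
    · rintro ⟨γ', ⟨β, hβ⟩, ⟨m, hm⟩⟩ hc
      obtain ⟨-, hγ, hβΛ, hab⟩ := Finset.mem_filter.1 (Finset.mem_coe.1 hc)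
      have hγ' : γ' = γ := hγ
      subst hγ'
      dsimp only at hβΛ hab ⊢
      rw [hTg]
      refine Finset.mem_coe.2 (Finset.mem_biUnion.2 ⟨β, hβΛ, Finset.mem_image.2 ⟨m, ?_, rfl⟩⟩)
      have hab' : |a β - (m : ℝ)| ≤ (η / Q.r + 2) / 2 := by
        have e : a β - (m : ℝ) = ((Q.hat γ' β).n 0 * k4fC o.2 0 + (Q.hat γ' β).n 1 * k4fC o.2 1
            + (1 / 2 - o.1) * (Q.hat γ' β).b - (m : ℝ) * Q.r) / Q.r := by
          rw [ha]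
          field_simp
        rw [e, abs_div, abs_of_pos hr, div_le_iff₀ hr]
        have e2 : (η / Q.r + 2) / 2 * Q.r = η / 2 + Q.r := by
          field_simp
        rw [e2]
        exact hab
      obtain ⟨l1, l2⟩ := abs_le.1 hab'
      rw [Finset.mem_Icc]
      exact ⟨Int.ceil_le.2 (by linarith), Int.le_floor.2 (by linarith)⟩
    · rintro ⟨γ', ⟨β, hβ⟩, ⟨m, hm⟩⟩ hc ⟨γ'', ⟨β', hβ'⟩, ⟨m', hm'⟩⟩ hc' he
      have hγ' : γ' = γ := (Finset.mem_filter.1 (Finset.mem_coe.1 hc)).2.1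
      have hγ'' : γ'' = γ := (Finset.mem_filter.1 (Finset.mem_coe.1 hc')).2.1
      subst hγ'
      subst hγ''
      have e1 : β = β' := congrArg Prod.fst he
      have e2 : m = m' := congrArg Prod.snd he
      subst e1
      subst e2
      rfl
  have h2 : (Tg.card : ℝ) ≤ ∑ _β ∈ Λ γ d, (η / Q.r + 3) := by
    rw [hTg]
    have := Finset.card_biUnion_le (s := Λ γ d) (t := fun β =>
      (Finset.Icc ⌈a β - (η / Q.r + 2) / 2⌉ ⌊a β + (η / Q.r + 2) / 2⌋).image fun m => (β, m))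
    refine (Nat.cast_le.2 this).trans ?_
    rw [Nat.cast_sum]
    refine Finset.sum_le_sum fun β _ => ?_
    refine (Nat.cast_le.2 Finset.card_image_le).trans ?_
    have := k4f_y5_count (a β) (η / Q.r + 2) hL
    linarith
  rw [Finset.sum_const, nsmul_eq_mul] at h2
  calc ((k4fLst Q Λ η γ d o).card : ℝ) ≤ Tg.card := Nat.cast_le.2 h1
    _ ≤ ((Λ γ d).card : ℝ) * (η / Q.r + 3) := h2
    _ ≤ C₀ * (η / Q.r + 3) := mul_le_mul_of_nonneg_right (hΛc γ d) (by linarith)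

theorem k4f_y5_meas {D : Type} (Λ : P.W → D → Finset (Fin 3 → ℤ)) (η : ℝ) (γ : P.W) (d : D) (c : Q.Lb) :
    MeasurableSet {o | c ∈ k4fLst Q Λ η γ d o} := by
  classical
  have e : {o | c ∈ k4fLst Q Λ η γ d o} = {_o : ℝ × KbB KbVer.two | c.1 = γ} ∩ ({_o | c.2.1.1 ∈ Λ γ d} ∩
      {o | |(Q.hat c.1 c.2.1.1).n 0 * k4fC o.2 0 + (Q.hat c.1 c.2.1.1).n 1 * k4fC o.2 1 + (1 / 2 - o.1) * (Q.hat c.1 c.2.1.1).b
        - ((c.2.2.1 : ℤ) : ℝ) * Q.r| ≤ η / 2 + Q.r}) := by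
    ext o
    simp only [k4fLst, Finset.mem_filter, Finset.mem_univ, true_and, Set.mem_ofPred_eq, Set.mem_inter_iff]
  rw [e]
  refine (MeasurableSet.const _).inter ((MeasurableSet.const _).inter (measurableSet_le ?_ measurable_const))
  have hy : ∀ i : Fin 2, Measurable fun o : ℝ × KbB KbVer.two => k4fC o.2 i := fun i => (measurable_pi_apply i).comp measurable_snd
  have ht : Measurable fun o : ℝ × KbB KbVer.two => o.1 := measurable_fst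
  exact (((((hy 0).const_mul _).add ((hy 1).const_mul _)).add ((ht.const_sub _).mul_const _)).sub_const _).abs

/-- **L-252-S4F-Y5** (~200 l.).  **The lists.**  `Lst γ d o` := the labels `(γ', β, m)` with `γ' = γ`, `β ∈ Λ γ d`, `|n̂·y + (1/2 - t) b̂ - m r| ≤ η/2 + r` where `o = (t, y)`, `n̂, b̂ = hat γ β` (`Finset.univ.filter`, classical).
Size: for fixed `β` the admissible `m` are `≤ η/r + 3` many (integers in an interval of length `(η + 2r)/r`; or `k4f_bins`-like count), so `card ≤ C₀ (η/r + 3)` (inject into `Λ γ d ×ˢ Icc`).  Measurability in `o`: a closed condition (continuous functions of `(t,y)`), or empty.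
Membership: `x = (l,t) ∈ S c`, `c = (γ, β, m)`: `hΛ` gives `β' ∈ Λ γ (ℓ γ x)` with `V ∈ A γ β'`; `V ∈ A γ β` too, so `β' = β` (`hQ.A_disj`).  `k4f_pos_pred` (`|ev V| ≤ η` by `hQ.A_strip`) + `0 ≤ pos - m r < r`. -/
theorem k4f_sys_known (hP : P.WF) (T η : ℝ) (hT : P.Ntv T) (hQ : Q.Ok T η) (hη : 0 ≤ η) {D : Type} (ℓ : P.Lab D) (Λ : P.W → D → Finset (Fin 3 → ℤ)) (C₀ : ℝ)
    (hΛc : ∀ γ d, ((Λ γ d).card : ℝ) ≤ C₀) (hΛ : ∀ γ, ∀ x ∈ Q.Es γ, ∃ β ∈ Λ γ (ℓ γ x), k4fC (kbV (P.co γ x.1)) ∈ Q.A γ β) :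
    Q.sys.Known ℓ (C₀ * (η / Q.r + 3)) := by
  classical
  refine ⟨k4fLst Q Λ η, k4f_y5_card Q T η hQ hη Λ C₀ hΛc, k4f_y5_meas Q Λ η, ?_⟩
  rintro ⟨γ, ⟨β, hβ⟩, ⟨m, hm⟩⟩ ⟨l, t⟩ hx
  have hEs : (l, t) ∈ Q.Es γ := hx.1
  have hSp : l ∈ P.Sp γ := hx.2.1.1
  have hVA : k4fC (kbV (P.co γ l)) ∈ Q.A γ β := hx.2.1.2.1
  have hfl : ⌊Q.pos γ β l / Q.r⌋ = m := hx.2.1.2.2
  have htI : t ∈ Set.Icc (0 : ℝ) 1 := (hP.Ev_sub γ (hQ.Es_sub γ hEs)).2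
  have hr := hQ.r_pos
  refine Finset.mem_filter.2 ⟨Finset.mem_univ _, rfl, ?_, ?_⟩
  · show β ∈ Λ γ (ℓ γ (l, t))
    obtain ⟨β', hβ', hV'⟩ := hΛ γ (l, t) hEs
    by_cases hb : β = β'
    · exact hb ▸ hβ'
    · exact absurd hV' (Set.disjoint_left.1 (hQ.A_disj γ β β' hb) hVA)
  · have hb := hT.base γ l hSp t htI
    have hVn : ‖kbV (P.co γ l)‖ ≤ T := by
      have := norm_nonneg (kbY (P.co γ l) t)
      linarith
    have hbox : k4fC (kbV (P.co γ l)) ∈ k4fBox 0 T := by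
      intro i
      rw [Pi.zero_apply, sub_zero]
      exact (norm_le_pi_norm (kbV (P.co γ l)) i).trans hVn
    have hV : |(Q.hat γ β).ev (k4fC (kbV (P.co γ l)))| ≤ η := hQ.A_strip γ β hβ ⟨hVA, hbox⟩
    have hpp := k4f_pos_pred (Q.hat γ β) η (k4fC (P.co γ l).1) (k4fC (kbV (P.co γ l))) hV t htI
    have f1 := Int.floor_le (Q.pos γ β l / Q.r)
    have f2 := Int.lt_floor_add_one (Q.pos γ β l / Q.r)
    rw [hfl] at f1 f2
    rw [le_div_iff₀ hr] at f1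
    rw [div_lt_iff₀ hr] at f2
    have hpos : Q.pos γ β l = (Q.hat γ β).n 0 * (k4fC (P.co γ l).1 0 + 1 / 2 * k4fC (kbV (P.co γ l)) 0)
        + (Q.hat γ β).n 1 * (k4fC (P.co γ l).1 1 + 1 / 2 * k4fC (kbV (P.co γ l)) 1) := rfl
    rw [← hpos] at hpp
    show |(Q.hat γ β).n 0 * (k4fC (P.co γ l).1 0 + t * k4fC (kbV (P.co γ l)) 0)
        + (Q.hat γ β).n 1 * (k4fC (P.co γ l).1 1 + t * k4fC (kbV (P.co γ l)) 1) + (1 / 2 - t) * (Q.hat γ β).b - (m : ℝ) * Q.r| ≤ η / 2 + Q.r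
    obtain ⟨p1, p2⟩ := abs_le.1 hpp
    rw [abs_le]
    constructor <;> linarith

end

end Claimed.Agent.R252
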